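import Crest.Agent.R215.Part

/-! Row 215: at most three cells. -/

set_option autoImplicit false

namespace Crest.Agent.R215

open MeasureTheory ProbabilityTheory Set Filter Topology
open scoped RealInnerProductSpace NNReal

variable {E : Type*} [NormedAddCommGroup E] [InnerProductSpace ℝ E] [FiniteDimensional ℝ E]
  [MeasurableSpace E] [BorelSpace E]

lemma iSup_fin3 (f : Fin 3 → ℝ) : ⨆ i, f i = max (f 0) (max (f 1) (f 2)) := by
  apply le_antisymm
  · apply ciSup_le
    intro i
    fin_cases i <;> simp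
  · have h := fun i => le_ciSup (Set.finite_range f).bddAbove i
    exact max_le (h 0) (max_le (h 1) (h 2))

lemma max3_add (a b c : ℝ) : max a (max b c) + max (-a) (max (-b) (-c)) =
    (|a - b| + |a - c| + |b - c|) / 2 := by
  rcases le_total a b with h1 | h1 <;> rcases le_total a c with h2 | h2 <;>
    rcases le_total b c with h3 | h3 <;>
    simp [h1, h2, h3, abs_of_nonneg, abs_of_nonpos, sub_nonneg.2, sub_nonpos.2] <;> linarith

lemma F_three (v : Fin 3 → E) : F v ≤ cc * Real.sqrt (∑ i, ‖v i‖ ^ 2) := by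
  have hi := integrable_sup v
  have hi' := integrable_sup (fun i => -v i)
  have h1 : F v = F (fun i => -v i) := by
    unfold F
    conv_lhs => rw [← map_neg_gauss]
    rw [integral_map (by fun_prop) (by rw [map_neg_gauss]; exact hi.aestronglyMeasurable)]
    simp
  have ia := fun w : E => (integrable_inner_gauss w).abs
  have h2 : F v + F (fun i => -v i) = (2 * ‖v 0 - v 1‖ / Real.sqrt (2 * Real.pi) +
      2 * ‖v 0 - v 2‖ / Real.sqrt (2 * Real.pi) + 2 * ‖v 1 - v 2‖ / Real.sqrt (2 * Real.pi)) / 2 := by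
    unfold F
    rw [← integral_add hi hi', ← integral_abs_inner_gauss, ← integral_abs_inner_gauss,
      ← integral_abs_inner_gauss, ← integral_add (ia _) (ia _),
      ← integral_add ((ia _).fun_add (ia _)) (ia _), ← integral_div]
    refine integral_congr_ae (Eventually.of_forall fun x => ?_)
    simp only [iSup_fin3, inner_neg_left, inner_sub_left]
    exact max3_add _ _ _
  have h3 : ‖v 0 - v 1‖ + ‖v 0 - v 2‖ + ‖v 1 - v 2‖ ≤ 3 * Real.sqrt (∑ i, ‖v i‖ ^ 2) := by
    have h4 : 0 ≤ ∑ i, ‖v i‖ ^ 2 := Finset.sum_nonneg fun i _ => sq_nonneg _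
    apply (abs_le_of_sq_le_sq' _ (by positivity)).2
    rw [mul_pow, Real.sq_sqrt h4, Fin.sum_univ_three]
    have e1 := norm_sub_sq_real (v 0) (v 1)
    have e2 := norm_sub_sq_real (v 0) (v 2)
    have e3 := norm_sub_sq_real (v 1) (v 2)
    have e4 := norm_add_sq_real (v 0 + v 1) (v 2)
    have e5 := norm_add_sq_real (v 0) (v 1)
    rw [inner_add_left] at e4
    nlinarith [sq_nonneg (‖v 0 - v 1‖ - ‖v 0 - v 2‖), sq_nonneg (‖v 0 - v 1‖ - ‖v 1 - v 2‖),
      sq_nonneg (‖v 0 - v 2‖ - ‖v 1 - v 2‖), sq_nonneg ‖v 0 + v 1 + v 2‖]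
  have h5 : 0 < Real.sqrt (2 * Real.pi) := Real.sqrt_pos.2 (by have := Real.pi_pos; positivity)
  have h6 : F v = (‖v 0 - v 1‖ + ‖v 0 - v 2‖ + ‖v 1 - v 2‖) / (2 * Real.sqrt (2 * Real.pi)) := by
    rw [← h1] at h2
    field_simp at h2 ⊢
    linarith
  rw [h6, cc, div_mul_eq_mul_div]
  exact div_le_div_of_nonneg_right h3 (by positivity)

theorem bound_le_three {k : ℕ} (hk : k ≤ 3) : Bound E k := by
  intro ι _ hι v
  rcases isEmpty_or_nonempty ι with h0 | h0
  · simp [F]
  obtain ⟨f⟩ : Nonempty (ι ↪ Fin 3) :=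
    Function.Embedding.nonempty_of_card_le (by simpa [hι] using hk)
  have h1 : F v ≤ F (Function.extend f v 0) :=
    F_mono fun i => ⟨f i, (f.injective.extend_apply v 0 i).symm⟩
  have h2 := F_three (Function.extend f v 0)
  have h3 : ∑ j, ‖Function.extend f v 0 j‖ ^ 2 = ∑ i, ‖v i‖ ^ 2 := by
    symm
    apply Finset.sum_of_injOn f f.injective.injOn (by simp)
    · intro j _ hj
      rw [Function.extend_apply' _ _ _ (by simpa using hj)]
      simp
    · intro i _
      rw [f.injective.extend_apply]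
  rw [h3] at h2
  exact h1.trans h2

end Crest.Agent.R215
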