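import Crest.Agent.R215.G1b

/-! Row 215: planar estimates: Gaussian measure of a set of given area, area of a triangle.
Plan for `bathtub`: `g1.prod g1` has density `ρ y = phi y.1 * phi y.2 = exp (-(y₁²+y₂²)/2)/(2π)` (`integral_g1` twice and
Fubini, or `prod_withDensity`). Put `θ = exp (-S/(2π))/(2π)`. Then
`γ T = ∫_T ρ ≤ ∫ max (ρ - θ) 0 + θ * vol T`, and in polar coordinates (`integral_comp_polarCoord_symm`)
`∫ max (ρ - θ) 0 = 2π ∫_0^r s (exp (-s²/2)/(2π) - θ) ds = 1 - exp (-S/(2π)) - θ S`, `r² = S/π`.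
`integral_pb`: `integral_gaussian_Ioi`.
`tri_area`: `Measure.prod_apply` (`volume = volume.prod volume`); for fixed `y₁` with `z = β1 + ρ1 y₁ ≥ 0` the slice is the
preimage of an interval of length `B - z` under `y₂ ↦ ρ2 * y₂` (`Real.volume_preimage_mul_left`), `B = β1+β2+β3`; then
substitute `z` (`lintegral_comp_mul_left`-type lemmas, `Real.map_volume_mul_left`) and `∫_0^B (B - z) dz = B²/2`.
Alternatively: the set is the preimage of the simplex under an affine map of determinant `ρ1 ρ2`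
(`Measure.addHaar_preimage_linearMap`). -/

set_option autoImplicit false

namespace Crest.Agent.R215

open MeasureTheory ProbabilityTheory Set Filter Topology
open scoped RealInnerProductSpace NNReal

lemma bath_rho (y : ℝ × ℝ) :
    phi y.1 * phi y.2 = Real.exp (-(y.1 ^ 2 + y.2 ^ 2) / 2) / (2 * Real.pi) := by
  have h : Real.sqrt (2 * Real.pi) * Real.sqrt (2 * Real.pi) = 2 * Real.pi :=
    Real.mul_self_sqrt (by positivity)
  unfold phi
  rw [div_mul_div_comm, h, ← Real.exp_add]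
  congr 2
  ring

lemma bath_int (f : ℝ × ℝ → ℝ) :
    ∫ y, f y ∂(g1.prod g1) = ∫ y : ℝ × ℝ, phi y.1 * phi y.2 * f y := by
  have h1 : g1 = volume.withDensity (gaussianPDF 0 1) := gaussianReal_of_var_ne_zero 0 one_ne_zero
  have hm : Measurable (gaussianPDF 0 1) := measurable_gaussianPDF 0 1
  rw [h1, prod_withDensity hm hm, integral_withDensity_eq_integral_toReal_smul (by fun_prop)
    (Eventually.of_forall fun y => ENNReal.mul_lt_top gaussianPDF_lt_top gaussianPDF_lt_top)]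
  refine integral_congr_ae (Eventually.of_forall fun y => ?_)
  simp only [ENNReal.toReal_mul, toReal_gaussianPDF, smul_eq_mul, phi_eq_pdf]

lemma bath_radial {S : ℝ} (hS : 0 ≤ S) :
    ∫ r in Ioi (0 : ℝ), r * max (Real.exp (-r ^ 2 / 2) / (2 * Real.pi) -
      Real.exp (-S / (2 * Real.pi)) / (2 * Real.pi)) 0 =
      (1 - Real.exp (-S / (2 * Real.pi))) / (2 * Real.pi) -
        Real.exp (-S / (2 * Real.pi)) / (2 * Real.pi) * (S / (2 * Real.pi)) := by
  have hpi := Real.pi_pos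
  set θ := Real.exp (-S / (2 * Real.pi)) / (2 * Real.pi) with hθ
  set R := Real.sqrt (S / Real.pi) with hR
  have hR0 : 0 ≤ R := Real.sqrt_nonneg _
  have hR2 : R ^ 2 = S / Real.pi := Real.sq_sqrt (by positivity)
  have hRS : -R ^ 2 / 2 = -S / (2 * Real.pi) := by rw [hR2]; field_simp
  have h1 : ∫ r in Ioi (0 : ℝ), r * max (Real.exp (-r ^ 2 / 2) / (2 * Real.pi) - θ) 0 =
      ∫ r in Ioc (0 : ℝ) R, r * max (Real.exp (-r ^ 2 / 2) / (2 * Real.pi) - θ) 0 := by
    refine setIntegral_eq_of_subset_of_forall_diff_eq_zero measurableSet_Ioi Ioc_subset_Ioi_self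
      fun r hr => ?_
    have hr1 : R < r := by
      by_contra hcon
      exact hr.2 ⟨hr.1, not_lt.1 hcon⟩
    have h2 : Real.exp (-r ^ 2 / 2) ≤ Real.exp (-S / (2 * Real.pi)) := by
      rw [← hRS]
      apply Real.exp_le_exp.2
      nlinarith
    rw [max_eq_right, mul_zero]
    rw [hθ, sub_nonpos]
    exact div_le_div_of_nonneg_right h2 (by positivity)
  have h2 : ∫ r in Ioc (0 : ℝ) R, r * max (Real.exp (-r ^ 2 / 2) / (2 * Real.pi) - θ) 0 =
      ∫ r in Ioc (0 : ℝ) R, r * (Real.exp (-r ^ 2 / 2) / (2 * Real.pi) - θ) := by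
    refine setIntegral_congr_fun measurableSet_Ioc fun r hr => ?_
    have h2 : Real.exp (-S / (2 * Real.pi)) ≤ Real.exp (-r ^ 2 / 2) := by
      rw [← hRS]
      apply Real.exp_le_exp.2
      nlinarith [hr.1, hr.2]
    rw [max_eq_left]
    rw [hθ, sub_nonneg]
    exact div_le_div_of_nonneg_right h2 (by positivity)
  rw [h1, h2, ← intervalIntegral.integral_of_le hR0]
  have h3 : ∀ r ∈ uIcc (0 : ℝ) R, HasDerivAt
      (fun r : ℝ => -Real.exp (-r ^ 2 / 2) / (2 * Real.pi) - θ * (r ^ 2 / 2))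
      (r * (Real.exp (-r ^ 2 / 2) / (2 * Real.pi) - θ)) r := by
    intro r _
    have h4 : HasDerivAt (fun r : ℝ => r ^ 2) (2 * r) r := by
      simpa using hasDerivAt_pow 2 r
    have h5 := ((h4.neg.div_const 2).exp.neg.div_const (2 * Real.pi)).sub
      ((h4.div_const 2).const_mul θ)
    refine h5.congr_deriv ?_
    simp only [Pi.neg_apply]
    ring
  rw [intervalIntegral.integral_eq_sub_of_hasDerivAt h3
    (Continuous.intervalIntegrable (by fun_prop) _ _), hRS, hR2]
  simp only [ne_eq, OfNat.ofNat_ne_zero, not_false_eq_true, zero_pow, neg_zero, zero_div,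
    Real.exp_zero, mul_zero, sub_zero]
  field_simp
  ring

lemma bath_polar {S : ℝ} (hS : 0 ≤ S) :
    ∫ y : ℝ × ℝ, max (phi y.1 * phi y.2 - Real.exp (-S / (2 * Real.pi)) / (2 * Real.pi)) 0 =
      1 - Real.exp (-S / (2 * Real.pi)) - Real.exp (-S / (2 * Real.pi)) / (2 * Real.pi) * S := by
  have hpi := Real.pi_pos
  rw [← integral_comp_polarCoord_symm]
  have h1 : ∀ p : ℝ × ℝ, p.1 • max (phi (polarCoord.symm p).1 * phi (polarCoord.symm p).2 -
      Real.exp (-S / (2 * Real.pi)) / (2 * Real.pi)) 0 =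
      (p.1 * max (Real.exp (-p.1 ^ 2 / 2) / (2 * Real.pi) -
        Real.exp (-S / (2 * Real.pi)) / (2 * Real.pi)) 0) * (1 : ℝ) := by
    intro p
    rw [bath_rho, polarCoord_symm_apply, mul_one, smul_eq_mul]
    have : (p.1 * Real.cos p.2) ^ 2 + (p.1 * Real.sin p.2) ^ 2 = p.1 ^ 2 := by
      rw [mul_pow, mul_pow, ← mul_add, Real.cos_sq_add_sin_sq, mul_one]
    simp only [this]
  simp_rw [h1]
  rw [polarCoord_target, Measure.volume_eq_prod,
    setIntegral_prod_mul (fun r : ℝ => r * max (Real.exp (-r ^ 2 / 2) / (2 * Real.pi) -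
        Real.exp (-S / (2 * Real.pi)) / (2 * Real.pi)) 0) (fun _ : ℝ => (1 : ℝ)), bath_radial hS]
  rw [setIntegral_const, Real.volume_real_Ioo_of_le (by linarith), smul_eq_mul]
  field_simp
  ring

lemma bathtub {T : Set (ℝ × ℝ)} (hT : MeasurableSet T) {S : ℝ} (hS : 0 ≤ S)
    (h : volume T ≤ ENNReal.ofReal S) :
    (g1.prod g1).real T ≤ 1 - Real.exp (-S / (2 * Real.pi)) := by
  have hpi := Real.pi_pos
  have hpol := bath_polar hS
  set θ := Real.exp (-S / (2 * Real.pi)) / (2 * Real.pi) with hθ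
  have hθ0 : 0 ≤ θ := by positivity
  have hfin : volume T ≠ ⊤ := ne_top_of_le_ne_top ENNReal.ofReal_ne_top h
  have hρ : Integrable (fun y : ℝ × ℝ => phi y.1 * phi y.2) := by
    rw [Measure.volume_eq_prod]
    exact integrable_phi.mul_prod integrable_phi
  have hρ0 : ∀ y : ℝ × ℝ, 0 ≤ phi y.1 * phi y.2 := fun y => mul_nonneg (phi_pos _).le (phi_pos _).le
  have hc : Continuous (fun y : ℝ × ℝ => phi y.1 * phi y.2) :=
    (continuous_phi.comp continuous_fst).mul (continuous_phi.comp continuous_snd)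
  have hmx : Integrable (fun y : ℝ × ℝ => max (phi y.1 * phi y.2 - θ) 0) := by
    refine hρ.mono' ((hc.sub continuous_const).max continuous_const).aestronglyMeasurable
      (Eventually.of_forall fun y => ?_)
    rw [Real.norm_eq_abs, abs_of_nonneg (le_max_right _ _)]
    exact max_le (by linarith) (hρ0 y)
  have hind : Integrable (fun y : ℝ × ℝ => T.indicator (fun _ => θ) y) :=
    (integrable_indicator_iff hT).2 (integrableOn_const hfin)
  rw [← integral_indicator_one hT, bath_int]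
  have h1 : ∫ y : ℝ × ℝ, phi y.1 * phi y.2 * T.indicator 1 y ≤
      ∫ y : ℝ × ℝ, (max (phi y.1 * phi y.2 - θ) 0 + T.indicator (fun _ => θ) y) := by
    refine integral_mono_of_nonneg (Eventually.of_forall fun y => ?_) (hmx.add hind)
      (Eventually.of_forall fun y => ?_)
    · exact mul_nonneg (hρ0 y) (indicator_nonneg (fun _ _ => zero_le_one) y)
    · by_cases hy : y ∈ T
      · simp only [indicator_of_mem hy, Pi.one_apply, mul_one]
        have := le_max_left (phi y.1 * phi y.2 - θ) 0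
        linarith
      · simp only [indicator_of_notMem hy, mul_zero, add_zero]
        exact le_max_right _ _
  rw [integral_add hmx hind, hpol, integral_indicator hT, setIntegral_const, smul_eq_mul] at h1
  have h2 : volume.real T ≤ S := ENNReal.toReal_le_of_le_ofReal hS h
  nlinarith

lemma integral_pb {y : ℝ} (hy : 0 ≤ y) :
    ∫ s in Ioi (0 : ℝ), (1 - Real.exp (-(y * s ^ 2) / 2)) ∂g1 = pb y := by
  have hpi := Real.pi_pos
  rw [← integral_indicator measurableSet_Ioi, integral_g1]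
  have h1 : ∀ s : ℝ, phi s * (Ioi (0 : ℝ)).indicator (fun s => 1 - Real.exp (-(y * s ^ 2) / 2)) s =
      (Ioi (0 : ℝ)).indicator (fun s => (Real.sqrt (2 * Real.pi))⁻¹ *
        (Real.exp (-(1 / 2) * s ^ 2) - Real.exp (-((1 + y) / 2) * s ^ 2))) s := by
    intro s
    by_cases hs : s ∈ Ioi (0 : ℝ)
    · rw [indicator_of_mem hs, indicator_of_mem hs]
      have e1 : Real.exp (-((1 + y) / 2) * s ^ 2) =
          Real.exp (-s ^ 2 / 2) * Real.exp (-(y * s ^ 2) / 2) := by
        rw [← Real.exp_add]; congr 1; ring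
      have e2 : Real.exp (-(1 / 2) * s ^ 2) = Real.exp (-s ^ 2 / 2) := by congr 1; ring
      rw [e1, e2]
      unfold phi
      ring
    · rw [indicator_of_notMem hs, indicator_of_notMem hs, mul_zero]
  simp_rw [h1]
  rw [integral_indicator measurableSet_Ioi, integral_const_mul,
    integral_sub (integrable_exp_neg_mul_sq (by norm_num)).integrableOn
      (integrable_exp_neg_mul_sq (by positivity)).integrableOn,
    integral_gaussian_Ioi, integral_gaussian_Ioi]
  have e3 : Real.pi / (1 / 2) = 2 * Real.pi := by ring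
  have e4 : Real.pi / ((1 + y) / 2) = 2 * Real.pi / (1 + y) := by field_simp
  rw [e3, e4, Real.sqrt_div (by positivity)]
  have h5 : 0 < Real.sqrt (2 * Real.pi) := Real.sqrt_pos.2 (by positivity)
  have h6 : 0 < Real.sqrt (1 + y) := Real.sqrt_pos.2 (by positivity)
  unfold pb
  field_simp

lemma pb_nonneg {y : ℝ} (hy : 0 ≤ y) : 0 ≤ pb y := by
  unfold pb
  have h1 : 1 ≤ Real.sqrt (1 + y) := Real.one_le_sqrt.2 (by linarith)
  have h2 : 1 / Real.sqrt (1 + y) ≤ 1 := by
    rw [div_le_one (by linarith)]; exact h1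
  linarith

lemma pb_mono {y z : ℝ} (hy : 0 ≤ y) (h : y ≤ z) : pb y ≤ pb z := by
  unfold pb
  have h1 : 0 < Real.sqrt (1 + y) := Real.sqrt_pos.2 (by linarith)
  have h2 : 1 / Real.sqrt (1 + z) ≤ 1 / Real.sqrt (1 + y) :=
    one_div_le_one_div_of_le h1 (Real.sqrt_le_sqrt (by linarith))
  linarith

lemma tri_area (β1 β2 β3 ρ1 ρ21 ρ2 : ℝ) (h1 : 0 < ρ1) (h2 : 0 < ρ2) :
    volume {y : ℝ × ℝ | 0 ≤ β1 + ρ1 * y.1 ∧ 0 ≤ β2 + ρ21 * y.1 + ρ2 * y.2 ∧
      0 ≤ β3 - (ρ1 + ρ21) * y.1 - ρ2 * y.2} ≤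
      ENNReal.ofReal (max (β1 + β2 + β3) 0 ^ 2 / (2 * (ρ1 * ρ2))) := by
  set B := max (β1 + β2 + β3) 0 with hB
  have hB0 : 0 ≤ B := le_max_right _ _
  have hB1 : β1 + β2 + β3 ≤ B := le_max_left _ _
  set a := -β1 / ρ1 with ha
  set b := (B - β1) / ρ1 with hb
  have hab : a ≤ b := div_le_div_of_nonneg_right (by linarith) h1.le
  have hm : MeasurableSet {y : ℝ × ℝ | 0 ≤ β1 + ρ1 * y.1 ∧ 0 ≤ β2 + ρ21 * y.1 + ρ2 * y.2 ∧
      0 ≤ β3 - (ρ1 + ρ21) * y.1 - ρ2 * y.2} := by
    have m1 : MeasurableSet {y : ℝ × ℝ | 0 ≤ β1 + ρ1 * y.1} :=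
      measurableSet_le measurable_const (by fun_prop)
    have m2 : MeasurableSet {y : ℝ × ℝ | 0 ≤ β2 + ρ21 * y.1 + ρ2 * y.2} :=
      measurableSet_le measurable_const (by fun_prop)
    have m3 : MeasurableSet {y : ℝ × ℝ | 0 ≤ β3 - (ρ1 + ρ21) * y.1 - ρ2 * y.2} :=
      measurableSet_le measurable_const (by fun_prop)
    exact m1.inter (m2.inter m3)
  rw [Measure.volume_eq_prod, Measure.prod_apply hm]
  have hsl : ∀ x : ℝ, volume (Prod.mk x ⁻¹' {y : ℝ × ℝ | 0 ≤ β1 + ρ1 * y.1 ∧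
      0 ≤ β2 + ρ21 * y.1 + ρ2 * y.2 ∧ 0 ≤ β3 - (ρ1 + ρ21) * y.1 - ρ2 * y.2}) ≤
      (Icc a b).indicator (fun x => ENNReal.ofReal ((B - β1 - ρ1 * x) / ρ2)) x := by
    intro x
    by_cases hx : x ∈ Icc a b
    · rw [indicator_of_mem hx]
      have hsub : (Prod.mk x ⁻¹' {y : ℝ × ℝ | 0 ≤ β1 + ρ1 * y.1 ∧
          0 ≤ β2 + ρ21 * y.1 + ρ2 * y.2 ∧ 0 ≤ β3 - (ρ1 + ρ21) * y.1 - ρ2 * y.2}) ⊆
          Icc (-(β2 + ρ21 * x) / ρ2) ((β3 - (ρ1 + ρ21) * x) / ρ2) := by
        intro z hz
        obtain ⟨_, hz2, hz3⟩ := hz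
        simp only at hz2 hz3
        constructor
        · rw [div_le_iff₀ h2]; linarith
        · rw [le_div_iff₀ h2]; linarith
      refine (measure_mono hsub).trans ?_
      rw [Real.volume_Icc]
      apply ENNReal.ofReal_le_ofReal
      rw [← sub_div]
      exact div_le_div_of_nonneg_right (by linarith) h2.le
    · rw [indicator_of_notMem hx]
      have hsub : (Prod.mk x ⁻¹' {y : ℝ × ℝ | 0 ≤ β1 + ρ1 * y.1 ∧
          0 ≤ β2 + ρ21 * y.1 + ρ2 * y.2 ∧ 0 ≤ β3 - (ρ1 + ρ21) * y.1 - ρ2 * y.2}) = ∅ := by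
        rw [eq_empty_iff_forall_notMem]
        intro z hz
        obtain ⟨hz1, hz2, hz3⟩ := hz
        simp only at hz1 hz2 hz3
        apply hx
        constructor
        · rw [ha, div_le_iff₀ h1]; linarith
        · rw [hb, le_div_iff₀ h1]; linarith
      rw [hsub, measure_empty]
  refine (lintegral_mono hsl).trans ?_
  have hc : Continuous (fun x : ℝ => (B - β1 - ρ1 * x) / ρ2) := by fun_prop
  rw [lintegral_indicator measurableSet_Icc, ← ofReal_integral_eq_lintegral_ofReal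
    (hc.continuousOn.integrableOn_Icc)]
  · apply ENNReal.ofReal_le_ofReal
    rw [integral_Icc_eq_integral_Ioc, ← intervalIntegral.integral_of_le hab]
    have h3 : ∀ x ∈ uIcc a b, HasDerivAt (fun x : ℝ => -(B - β1 - ρ1 * x) ^ 2 / (2 * (ρ1 * ρ2)))
        ((B - β1 - ρ1 * x) / ρ2) x := by
      intro x _
      have h4 : HasDerivAt (fun x : ℝ => B - β1 - ρ1 * x) (-ρ1) x := by
        simpa using ((hasDerivAt_id x).const_mul ρ1).const_sub (B - β1)
      refine ((h4.pow 2).neg.div_const (2 * (ρ1 * ρ2))).congr_deriv ?_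
      field_simp
      ring
    rw [intervalIntegral.integral_eq_sub_of_hasDerivAt h3 (hc.intervalIntegrable _ _)]
    have e1 : B - β1 - ρ1 * b = 0 := by rw [hb]; field_simp; ring
    have e2 : B - β1 - ρ1 * a = B := by rw [ha]; field_simp; ring
    rw [e1, e2]
    apply le_of_eq
    ring
  · refine (ae_restrict_iff' measurableSet_Icc).2 (Eventually.of_forall fun x hx => ?_)
    have := hx.2
    rw [hb, le_div_iff₀ h1] at this
    exact div_nonneg (by linarith) h2.le

end Crest.Agent.R215
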