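import Crest.Agent.R215.G1a

/-! Row 215: the heat semigroup on the line.
Plan: for `τ > 0`, `P f τ x = ∫ z, f z * k τ (x - z)` (Lebesgue measure) with
`k τ w = exp (-w²/(2τ)) / √(2πτ)` (change of variables, `integral_g1`, `integral_comp_mul_left`/`Measure.integral_comp_mul_left`,
`integral_add_left_eq_self`). Differentiate under the integral
(`hasDerivAt_integral_of_dominated_loc_of_deriv_le`): `∂ₓk = -(w/τ) k`, `∂ₓₓ k = (w²/τ² - 1/τ) k = 2 ∂_τ k`;
locally uniform domination by `C (1 + z²) exp (-(z - x₀)²/(8τ₀))`-type bounds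
(`integrable_rpow_mul_exp_neg_mul_sq`, `integrable_exp_neg_mul_sq`, `w² ≤ C exp (εw²)`). -/

set_option autoImplicit false

namespace Crest.Agent.R215

open MeasureTheory ProbabilityTheory Set Filter Topology
open scoped RealInnerProductSpace NNReal

/-- heat semigroup -/
noncomputable def heat (f : ℝ → ℝ) (τ x : ℝ) : ℝ := ∫ z, f (x + Real.sqrt τ * z) ∂g1

lemma heat_continuous {f : ℝ → ℝ} (hf : Continuous f) (hb : ∀ x, |f x| ≤ 1) :
    Continuous (fun q : ℝ × ℝ => heat f q.1 q.2) := by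
  unfold heat
  refine continuous_of_dominated (bound := fun _ => (1 : ℝ)) (fun q => ?_)
    (fun q => Eventually.of_forall fun z => hb _) (integrable_const _)
    (Eventually.of_forall fun z => ?_)
  · exact (hf.comp (by fun_prop)).aestronglyMeasurable
  · exact hf.comp (by fun_prop)

/-- heat kernel -/
noncomputable def hker (t u : ℝ) : ℝ := Real.exp (-u ^ 2 / (2 * t)) / Real.sqrt (2 * Real.pi * t)

lemma hker_nonneg (t u : ℝ) : 0 ≤ hker t u :=
  div_nonneg (Real.exp_pos _).le (Real.sqrt_nonneg _)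

lemma hker_continuous (t : ℝ) : Continuous (hker t) := by
  unfold hker; fun_prop

lemma heat_eq_hker (f : ℝ → ℝ) {τ : ℝ} (hτ : 0 < τ) (x : ℝ) :
    heat f τ x = ∫ w, f w * hker τ (w - x) := by
  have hs : 0 < Real.sqrt τ := Real.sqrt_pos.2 hτ
  have h1 := integral_add_left_eq_self (μ := (volume : Measure ℝ))
    (fun w => f w * hker τ (w - x)) x
  have h2 := Measure.integral_comp_mul_left (fun y => f (x + y) * hker τ (x + y - x))
    (Real.sqrt τ)
  rw [← h1]
  unfold heat
  rw [integral_g1]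
  have h3 : ∀ z, phi z * f (x + Real.sqrt τ * z) =
      Real.sqrt τ * (f (x + Real.sqrt τ * z) * hker τ (x + Real.sqrt τ * z - x)) := by
    intro z
    unfold phi hker
    rw [show x + Real.sqrt τ * z - x = Real.sqrt τ * z by ring, mul_pow, Real.sq_sqrt hτ.le,
      Real.sqrt_mul (by positivity) τ, show -(τ * z ^ 2) / (2 * τ) = -z ^ 2 / 2 by field_simp]
    have := sqrt_two_pi_pos
    field_simp
  simp_rw [h3]
  rw [integral_const_mul, h2, abs_of_pos (inv_pos.2 hs), smul_eq_mul]
  field_simp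

lemma hasDerivAt_hker_u {t : ℝ} (ht : 0 < t) (u : ℝ) :
    HasDerivAt (hker t) (-(u / t) * hker t u) u := by
  have h1 : HasDerivAt (fun u : ℝ => -u ^ 2 / (2 * t)) (-(u / t)) u := by
    have := ((hasDerivAt_pow 2 u).neg).div_const (2 * t)
    refine this.congr_deriv ?_
    simp; field_simp
  have h2 := (h1.exp).div_const (Real.sqrt (2 * Real.pi * t))
  refine h2.congr_deriv ?_
  unfold hker; ring

lemma hasDerivAt_hker_x {t : ℝ} (ht : 0 < t) (w x : ℝ) :
    HasDerivAt (fun x => hker t (w - x)) ((w - x) / t * hker t (w - x)) x := by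
  have := (hasDerivAt_hker_u ht (w - x)).comp x ((hasDerivAt_id x).const_sub w)
  refine this.congr_deriv ?_
  ring

lemma hasDerivAt_hker_xx {t : ℝ} (ht : 0 < t) (w x : ℝ) :
    HasDerivAt (fun x => (w - x) / t * hker t (w - x))
      (((w - x) ^ 2 / t ^ 2 - 1 / t) * hker t (w - x)) x := by
  have := (((hasDerivAt_id x).const_sub w).div_const t).mul (hasDerivAt_hker_x ht w x)
  refine this.congr_deriv ?_
  simp only [id]
  ring

lemma hasDerivAt_hker_t {t : ℝ} (ht : 0 < t) (u : ℝ) :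
    HasDerivAt (fun t => hker t u) ((u ^ 2 / t ^ 2 - 1 / t) * hker t u / 2) t := by
  have hp : 0 < 2 * Real.pi * t := by positivity
  have hs : 0 < Real.sqrt (2 * Real.pi * t) := Real.sqrt_pos.2 hp
  have h1 : HasDerivAt (fun t : ℝ => -u ^ 2 / (2 * t)) (u ^ 2 / (2 * t ^ 2)) t := by
    have := (hasDerivAt_const t (-u ^ 2)).div ((hasDerivAt_id t).const_mul 2) (by
      simp only [id]; positivity)
    refine this.congr_deriv ?_
    simp only [id]; field_simp; ring
  have h2 : HasDerivAt (fun t : ℝ => Real.sqrt (2 * Real.pi * t))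
      (Real.pi / Real.sqrt (2 * Real.pi * t)) t := by
    have := ((hasDerivAt_id t).const_mul (2 * Real.pi)).sqrt hp.ne'
    refine this.congr_deriv ?_
    simp only [id]; field_simp
  have h3 := h1.exp.div h2 hs.ne'
  refine h3.congr_deriv ?_
  unfold hker
  have h4 := Real.sq_sqrt hp.le
  generalize Real.sqrt (2 * Real.pi * t) = S at *
  have h5 : Real.pi = S ^ 2 / (2 * t) := by rw [h4]; field_simp
  rw [h5]
  field_simp

/-- differentiation under the integral against a bounded continuous function -/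
lemma heat_deriv_aux {f : ℝ → ℝ} (hf : Continuous f) (hb : ∀ x, |f x| ≤ 1) {K K' : ℝ → ℝ → ℝ}
    {p δ : ℝ} (hδ : 0 < δ) {B : ℝ → ℝ} (hB : Integrable B) (hK : ∀ q, Continuous (K q))
    (hK' : Continuous (K' p)) (hi : Integrable (K p))
    (hd : ∀ q ∈ Metric.ball p δ, ∀ w, HasDerivAt (fun q => K q w) (K' q w) q)
    (hbd : ∀ q ∈ Metric.ball p δ, ∀ w, |K' q w| ≤ B w) :
    HasDerivAt (fun q => ∫ w, f w * K q w) (∫ w, f w * K' p w) p := by
  refine (hasDerivAt_integral_of_dominated_loc_of_deriv_le (μ := volume)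
    (F := fun q w => f w * K q w) (F' := fun q w => f w * K' q w) (bound := B)
    (Metric.ball_mem_nhds p hδ)
    (Eventually.of_forall fun q => (hf.mul (hK q)).aestronglyMeasurable) ?_
    (hf.mul hK').aestronglyMeasurable (Eventually.of_forall fun w q hq => ?_) hB
    (Eventually.of_forall fun w q hq => (hd q hq w).const_mul _)).2
  · exact hi.bdd_mul (c := 1) hf.aestronglyMeasurable (Eventually.of_forall hb)
  · rw [Real.norm_eq_abs, abs_mul]
    calc |f w| * |K' q w| ≤ 1 * B w :=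
          mul_le_mul (hb w) (hbd q hq w) (abs_nonneg _) zero_le_one
      _ = B w := one_mul _

lemma heat_poly_le {A B b : ℝ} (hA : 0 ≤ A) (hB : 0 ≤ B) (hb : 0 < b) (u : ℝ) :
    (A + B * u ^ 2) * Real.exp (-b * u ^ 2) ≤ (A + 2 * B / b) * Real.exp (-(b / 2) * u ^ 2) := by
  have h1 : b / 2 * u ^ 2 + 1 ≤ Real.exp (b / 2 * u ^ 2) := Real.add_one_le_exp _
  have h0 : 0 ≤ b / 2 * u ^ 2 := by positivity
  have h2 : Real.exp (-(b / 2) * u ^ 2) = Real.exp (b / 2 * u ^ 2) * Real.exp (-b * u ^ 2) := by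
    rw [← Real.exp_add]; congr 1; ring
  rw [h2, ← mul_assoc]
  apply mul_le_mul_of_nonneg_right _ (Real.exp_pos _).le
  have h3 : B * u ^ 2 = 2 * B / b * (b / 2 * u ^ 2) := by field_simp
  have h4 : 0 ≤ 2 * B / b := by positivity
  rw [h3]
  nlinarith

lemma heat_shift_le {b : ℝ} (hb : 0 < b) {x x0 : ℝ} (hx : |x - x0| < 1) (w : ℝ) :
    Real.exp (-b * (w - x) ^ 2) ≤ Real.exp b * Real.exp (-(b / 2) * (w - x0) ^ 2) := by
  rw [← Real.exp_add]
  apply Real.exp_le_exp.2
  have h1 : (x - x0) ^ 2 ≤ 1 := by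
    rw [← sq_abs]; nlinarith [abs_nonneg (x - x0)]
  have h2 : (w - x0) ^ 2 ≤ 2 * (w - x) ^ 2 + 2 * (x - x0) ^ 2 := by
    nlinarith [sq_nonneg (w - x - (x - x0))]
  nlinarith

lemma heat_int_gauss {b : ℝ} (hb : 0 < b) (C x0 : ℝ) :
    Integrable (fun w : ℝ => C * Real.exp (-b * (w - x0) ^ 2)) :=
  ((integrable_exp_neg_mul_sq hb).comp_sub_right x0).const_mul C

lemma hker_eq (t u : ℝ) :
    hker t u = Real.exp (-(1 / (2 * t)) * u ^ 2) / Real.sqrt (2 * Real.pi * t) := by
  unfold hker; congr 2; ring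

/-- a uniform bound: polynomial times kernel, locally uniformly in the centre -/
lemma heat_bound {t A B : ℝ} (ht : 0 < t) (hA : 0 ≤ A) (hB : 0 ≤ B) (x0 : ℝ) :
    ∃ D : ℝ → ℝ, Integrable D ∧ ∀ x, |x - x0| < 1 → ∀ w,
      (A + B * (w - x) ^ 2) * hker t (w - x) ≤ D w := by
  have hb : 0 < 1 / (2 * t) := by positivity
  set b := 1 / (2 * t) with hbdef
  refine ⟨fun w => ((A + 2 * B / b) * Real.exp (b / 2) / Real.sqrt (2 * Real.pi * t)) *
    Real.exp (-(b / 2 / 2) * (w - x0) ^ 2), heat_int_gauss (by positivity) _ _, fun x hx w => ?_⟩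
  rw [hker_eq, ← hbdef]
  have h1 := heat_poly_le hA hB hb (w - x)
  have h2 := heat_shift_le (half_pos hb) hx w
  have h3 : 0 ≤ A + 2 * B / b := by positivity
  have hs : 0 ≤ (Real.sqrt (2 * Real.pi * t))⁻¹ := by positivity
  have h4 := mul_le_mul_of_nonneg_right (h1.trans (mul_le_mul_of_nonneg_left h2 h3)) hs
  simp only [div_eq_mul_inv] at h4 ⊢
  linarith

lemma heat_eq {f : ℝ → ℝ} (hf : Continuous f) (hb : ∀ x, |f x| ≤ 1) {τ : ℝ} (hτ : 0 < τ) :
    ∃ P1 P2 : ℝ → ℝ, (∀ x, HasDerivAt (heat f τ) (P1 x) x) ∧ (∀ x, HasDerivAt P1 (P2 x) x) ∧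
      ∀ x, HasDerivAt (fun t => heat f t x) (P2 x / 2) τ := by
  have hc := hker_continuous
  have hn := hker_nonneg
  have hτi : 0 ≤ 1 / τ := by positivity
  have hτ2 : 0 ≤ 1 / τ ^ 2 := by positivity
  have hint0 : ∀ x, Integrable (fun w => hker τ (w - x)) := fun x => by
    obtain ⟨D, hD, hD'⟩ := heat_bound hτ zero_le_one le_rfl x
    refine hD.mono' ((hc τ).comp (by fun_prop)).aestronglyMeasurable
      (Eventually.of_forall fun w => ?_)
    have := hD' x (by simp) w
    rw [Real.norm_eq_abs, abs_of_nonneg (hn _ _)]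
    linarith
  have hb1 : ∀ x w, |(w - x) / τ * hker τ (w - x)| ≤ (1 / τ + 1 / τ * (w - x) ^ 2) *
      hker τ (w - x) := fun x w => by
    rw [abs_mul, abs_of_nonneg (hn _ _), abs_div, abs_of_pos hτ]
    apply mul_le_mul_of_nonneg_right _ (hn _ _)
    have : |w - x| ≤ 1 + (w - x) ^ 2 := by
      nlinarith [sq_nonneg (|w - x| - 1), sq_abs (w - x), abs_nonneg (w - x)]
    calc |w - x| / τ ≤ (1 + (w - x) ^ 2) / τ := div_le_div_of_nonneg_right this hτ.le
      _ = _ := by ring
  have hb2 : ∀ t, 0 < t → ∀ u : ℝ, |u ^ 2 / t ^ 2 - 1 / t| ≤ 1 / t + 1 / t ^ 2 * u ^ 2 :=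
    fun t ht u => by
    have h1 : 0 ≤ u ^ 2 / t ^ 2 := by positivity
    have h2 : 0 ≤ 1 / t := by positivity
    have h3 : 1 / t ^ 2 * u ^ 2 = u ^ 2 / t ^ 2 := by ring
    rw [h3, abs_le]
    constructor <;> linarith
  refine ⟨fun x => ∫ w, f w * ((w - x) / τ * hker τ (w - x)),
    fun x => ∫ w, f w * (((w - x) ^ 2 / τ ^ 2 - 1 / τ) * hker τ (w - x)), fun x => ?_,
    fun x => ?_, fun x => ?_⟩
  · have h : heat f τ = fun x => ∫ w, f w * hker τ (w - x) := funext (heat_eq_hker f hτ)
    rw [h]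
    obtain ⟨D, hD, hD'⟩ := heat_bound hτ hτi hτi x
    refine heat_deriv_aux hf hb (K := fun x w => hker τ (w - x))
      (K' := fun x w => (w - x) / τ * hker τ (w - x)) one_pos hD
      (fun q => (hc τ).comp (by fun_prop)) ?_ (hint0 x) (fun q _ w => hasDerivAt_hker_x hτ w q)
      (fun q hq w => (hb1 q w).trans (hD' q hq w))
    exact Continuous.mul (by fun_prop) ((hc τ).comp (by fun_prop))
  · obtain ⟨D, hD, hD'⟩ := heat_bound hτ hτi hτ2 x
    obtain ⟨D1, hD1, hD1'⟩ := heat_bound hτ hτi hτi x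
    have hc1 : ∀ q, Continuous fun w => (w - q) / τ * hker τ (w - q) := fun q =>
      Continuous.mul (by fun_prop) ((hc τ).comp (by fun_prop))
    refine heat_deriv_aux hf hb (K := fun x w => (w - x) / τ * hker τ (w - x))
      (K' := fun x w => ((w - x) ^ 2 / τ ^ 2 - 1 / τ) * hker τ (w - x)) one_pos hD hc1 ?_ ?_
      (fun q _ w => hasDerivAt_hker_xx hτ w q) (fun q hq w => le_trans ?_ (hD' q hq w))
    · exact Continuous.mul (by fun_prop) ((hc τ).comp (by fun_prop))
    · exact hD1.mono' (hc1 x).aestronglyMeasurable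
        (Eventually.of_forall fun w => (hb1 x w).trans (hD1' x (by simp) w))
    · rw [abs_mul, abs_of_nonneg (hn _ _)]
      exact mul_le_mul_of_nonneg_right (hb2 τ hτ _) (hn _ _)
  · have h : (fun t => heat f t x) =ᶠ[𝓝 τ] fun t => ∫ w, f w * hker t (w - x) := by
      filter_upwards [lt_mem_nhds hτ] with t ht using heat_eq_hker f ht x
    refine HasDerivAt.congr_of_eventuallyEq ?_ h
    obtain ⟨D, hD, hD'⟩ := heat_bound (t := 2 * τ) (A := 2 / τ) (B := 4 / τ ^ 2) (by positivity)
      (by positivity) (by positivity) x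
    have key := heat_deriv_aux hf hb (K := fun t w => hker t (w - x))
      (K' := fun t w => ((w - x) ^ 2 / t ^ 2 - 1 / t) * hker t (w - x) / 2) (p := τ)
      (half_pos hτ) hD (fun q => (hc q).comp (by fun_prop))
      ((Continuous.mul (by fun_prop) ((hc τ).comp (by fun_prop))).div_const 2) (hint0 x)
      (fun q hq w => hasDerivAt_hker_t (by
        have := (abs_lt.1 (Real.dist_eq q τ ▸ Metric.mem_ball.1 hq)).1
        linarith) _)
      (fun q hq w => by
        have hq' := abs_lt.1 (Real.dist_eq q τ ▸ Metric.mem_ball.1 hq)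
        have hq0 : τ / 2 < q := by linarith [hq'.1]
        have hq1 : q < 2 * τ := by linarith [hq'.2]
        have hqp : 0 < q := by linarith
        refine le_trans ?_ (hD' x (by simp) w)
        rw [abs_div, abs_mul, abs_of_nonneg (hn _ _), abs_two]
        have e1 : 1 / q ≤ 2 / τ := by
          rw [div_le_div_iff₀ hqp hτ]; linarith
        have e2 : 1 / q ^ 2 ≤ 4 / τ ^ 2 := by
          rw [div_le_div_iff₀ (by positivity) (by positivity)]; nlinarith
        have e3 : |(w - x) ^ 2 / q ^ 2 - 1 / q| ≤ 2 / τ + 4 / τ ^ 2 * (w - x) ^ 2 :=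
          (hb2 q hqp _).trans (add_le_add e1 (mul_le_mul_of_nonneg_right e2 (sq_nonneg _)))
        have e4 : hker q (w - x) / 2 ≤ hker (2 * τ) (w - x) := by
          unfold hker
          have s1 : Real.sqrt (2 * Real.pi * (2 * τ)) ≤ 2 * Real.sqrt (2 * Real.pi * q) := by
            rw [show (2 : ℝ) * Real.sqrt (2 * Real.pi * q) = Real.sqrt (4 * (2 * Real.pi * q)) by
              rw [Real.sqrt_mul (x := 4) (by norm_num), show (4 : ℝ) = 2 ^ 2 by norm_num,
                Real.sqrt_sq (by norm_num)]]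
            apply Real.sqrt_le_sqrt
            nlinarith [Real.pi_pos]
          have s2 : Real.exp (-(w - x) ^ 2 / (2 * q)) ≤
              Real.exp (-(w - x) ^ 2 / (2 * (2 * τ))) := by
            apply Real.exp_le_exp.2
            rw [neg_div, neg_div, neg_le_neg_iff]
            exact div_le_div_of_nonneg_left (sq_nonneg _) (by positivity) (by linarith)
          rw [div_div, mul_comm _ (2 : ℝ)]
          exact div_le_div₀ (Real.exp_pos _).le s2 (Real.sqrt_pos.2 (by positivity)) s1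
        rw [mul_div_assoc]
        exact mul_le_mul e3 e4 (div_nonneg (hn _ _) zero_le_two) (by positivity))
    refine key.congr_deriv ?_
    rw [← integral_div]
    congr 1
    funext w
    ring

end Crest.Agent.R215
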