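import Crest.Agent.R215.G1a

/-! Row 215: the maximum principle behind Borell's proof of Ehrhard's inequality.
Plan. `C τ x y = u τ (αx+(1-α)y) - α u1 τ x - (1-α) u0 τ y`, `Cε = C + ε exp(Kτ) (1+x²+y²)`. With
`M` a bound of `|u τ 0|, |u0 τ 0|, |u1 τ 0|` on `[0,1]` we have `|uᵢ τ x| ≤ M + L|x|`, so `Cε` is coercive on
`[0,1]×ℝ²` and attains its minimum (`ContinuousOn.exists_isMinOn'` or restrict to a compact box). If the minimum is
negative it is attained at `τ > 0`. Write `q,q0,q1` for the first derivatives (all `|·| ≤ L`, limit of difference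
quotients: `HasDerivAt.le_of_lipschitz`/`norm_deriv_le_of_lipschitz`), `η = ε exp(Kτ)`. First order:
`α q - α q1 + 2ηx = 0`, `(1-α) q - (1-α) q0 + 2ηy = 0`; second order along the diagonal `h ↦ (x+h,y+h)`:
`u'' - α u1'' - (1-α) u0'' + 4η ≥ 0` (prove the helper: local min of `g` at 0, `g' ` exists everywhere and has derivative
`g''` at 0 ⟹ `0 ≤ g''`); time (one-sided, `τ' ≤ τ`): `∂τC + Kη(1+x²+y²) ≤ 0`. But
`∂τC = (u''-αu1''-(1-α)u0'')/2 - (q² C + α u1 (q²-q1²) + (1-α) u0 (q²-q0²))/2 ≥ -η (2 + 2LM + 2L²)(1+x²+y²)`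
since `C < 0`, `α|q²-q1²| ≤ 4Lη|x|`. Contradiction for `K = 3 + 2LM + 2L²`. Let `ε → 0`. -/

set_option autoImplicit false

namespace Crest.Agent.R215

open MeasureTheory ProbabilityTheory Set Filter Topology
open scoped RealInnerProductSpace NNReal

/-- solutions of `∂τ u = (u'' - u (u')²)/2`, Lipschitz in space -/
structure Good (L : ℝ) (u : ℝ → ℝ → ℝ) : Prop where
  cont : Continuous (fun q : ℝ × ℝ => u q.1 q.2)
  lip : ∀ τ x y, |u τ x - u τ y| ≤ L * |x - y|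
  pde : ∀ τ, 0 < τ → ∃ u1 u2 : ℝ → ℝ, (∀ x, HasDerivAt (u τ) (u1 x) x) ∧
    (∀ x, HasDerivAt u1 (u2 x) x) ∧
      ∀ x, HasDerivAt (fun t => u t x) ((u2 x - u τ x * u1 x ^ 2) / 2) τ

lemma maxp_second {g g' : ℝ → ℝ} {c : ℝ} (hg : ∀ h, HasDerivAt g (g' h) h)
    (hg' : HasDerivAt g' c 0) (hmin : ∀ h, g 0 ≤ g h) : 0 ≤ c := by
  by_contra hc
  push Not at hc
  have h0 : g' 0 = 0 := by
    have : IsLocalMin g 0 := Eventually.of_forall hmin
    exact this.hasDerivAt_eq_zero (hg 0)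
  have h1 := hg'.tendsto_slope_zero_right.eventually (gt_mem_nhds hc)
  obtain ⟨δ, hδ, hδ'⟩ := (mem_nhdsGT_iff_exists_Ioo_subset).1 h1
  have hδ0 : 0 < δ := hδ
  obtain ⟨ξ, hξ, hξ'⟩ := exists_hasDerivAt_eq_slope g g' (half_pos hδ0)
    (fun x _ => (hg x).continuousAt.continuousWithinAt) (fun x _ => hg x)
  have h2 := hδ' (show ξ ∈ Ioo 0 δ from ⟨hξ.1, by linarith [hξ.2]⟩)
  simp only [mem_setOf_eq, zero_add, h0, sub_zero, smul_eq_mul] at h2
  have h3 : g' ξ < 0 := by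
    by_contra h
    push Not at h
    have := mul_nonneg (inv_pos.2 hξ.1).le h
    linarith
  have h4 : 0 ≤ (g (δ / 2) - g 0) / (δ / 2 - 0) :=
    div_nonneg (by linarith [hmin (δ / 2)]) (by linarith)
  linarith

lemma maxp_time {g : ℝ → ℝ} {c τ : ℝ} (hτ0 : 0 < τ) (hτ1 : τ ≤ 1) (hg : HasDerivAt g c τ)
    (hmin : ∀ t ∈ Icc (0 : ℝ) 1, g τ ≤ g t) : c ≤ 0 := by
  refine le_of_tendsto hg.tendsto_slope_zero_left ?_
  filter_upwards [Ioo_mem_nhdsLT (show -τ < 0 by linarith)] with t ht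
  have := hmin (τ + t) ⟨by linarith [ht.1], by linarith [ht.2]⟩
  rw [smul_eq_mul]
  exact mul_nonpos_of_nonpos_of_nonneg (inv_nonpos.2 ht.2.le) (by linarith)

lemma Good.deriv_le {L : ℝ} (hL : 0 ≤ L) {u : ℝ → ℝ → ℝ} (hu : Good L u) {τ x q : ℝ}
    (h : HasDerivAt (u τ) q x) : |q| ≤ L :=
  h.le_of_lip' hL (Eventually.of_forall fun y => hu.lip τ y x)

lemma Good.bound {L : ℝ} {u : ℝ → ℝ → ℝ} (hu : Good L u) :
    ∃ M, 0 ≤ M ∧ ∀ τ ∈ Icc (0 : ℝ) 1, ∀ x, |u τ x| ≤ M + L * |x| := by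
  have hc : Continuous fun τ : ℝ => u τ 0 := hu.cont.comp (Continuous.prodMk_left 0)
  obtain ⟨M, hM⟩ := isCompact_Icc.exists_bound_of_continuousOn
    (hc.continuousOn (s := Icc (0 : ℝ) 1))
  refine ⟨max M 0, le_max_right _ _, fun τ hτ x => ?_⟩
  have h1 := hu.lip τ x 0
  have h2 : |u τ 0| ≤ M := hM τ hτ
  rw [sub_zero] at h1
  have h3 := abs_sub_abs_le_abs_sub (u τ x) (u τ 0)
  linarith [le_max_left M 0]

lemma maxp_term {L M η a x q q1 v : ℝ} (hL : 0 ≤ L) (hM : 0 ≤ M) (hη : 0 ≤ η)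
    (hq : |q| ≤ L) (hq1 : |q1| ≤ L) (hv : |v| ≤ M + L * |x|)
    (h : a * q - a * q1 + η * (2 * x) = 0) :
    a * v * (q ^ 2 - q1 ^ 2) ≤ 4 * L * η * (M * (1 + x ^ 2) / 2 + L * x ^ 2) := by
  have e : a * v * (q ^ 2 - q1 ^ 2) = -(v * (q + q1) * (η * (2 * x))) := by
    have : η * (2 * x) = -(a * q - a * q1) := by linarith
    rw [this]; ring
  have h1 : |q + q1| ≤ 2 * L := (abs_add_le _ _).trans (by linarith)
  have h2 : |v * (q + q1) * (η * (2 * x))| ≤ (M + L * |x|) * (2 * L) * (η * (2 * |x|)) := by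
    rw [abs_mul, abs_mul, abs_mul, abs_mul, abs_of_nonneg hη, abs_two]
    gcongr
  have h3 : |x| ≤ (1 + x ^ 2) / 2 := by nlinarith [sq_nonneg (|x| - 1), sq_abs x]
  have h4 : (M + L * |x|) * (2 * L) * (η * (2 * |x|)) =
      4 * L * η * (M * |x| + L * x ^ 2) := by rw [← sq_abs x]; ring
  have h5 : M * |x| ≤ M * (1 + x ^ 2) / 2 := by nlinarith
  have h6 : 4 * L * η * (M * |x| + L * x ^ 2) ≤ 4 * L * η * (M * (1 + x ^ 2) / 2 + L * x ^ 2) := by
    gcongr
  rw [e]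
  linarith [neg_le_abs (v * (q + q1) * (η * (2 * x)))]

lemma maxp_eps {L : ℝ} (hL : 0 ≤ L) {u u0 u1 : ℝ → ℝ → ℝ} (hu : Good L u) (h0 : Good L u0)
    (h1 : Good L u1) {α β : ℝ} (hα : 0 < α) (hβ : 0 < β) (hαβ : α + β = 1)
    (h : ∀ x y, α * u1 0 x + β * u0 0 y ≤ u 0 (α * x + β * y)) :
    ∃ K : ℝ, ∀ ε, 0 < ε → ∀ x y, 0 ≤ u 1 (α * x + β * y) - α * u1 1 x - β * u0 1 y +
      ε * Real.exp (K * 1) * (1 + x ^ 2 + y ^ 2) := by
  obtain ⟨Ma, hMa0, hMa⟩ := hu.bound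
  obtain ⟨Mb, hMb0, hMb⟩ := h0.bound
  obtain ⟨Mc, hMc0, hMc⟩ := h1.bound
  set M := Ma + Mb + Mc with hMdef
  have hM : 0 ≤ M := by positivity
  have bu : ∀ τ ∈ Icc (0 : ℝ) 1, ∀ x, |u τ x| ≤ M + L * |x| := fun τ hτ x =>
    (hMa τ hτ x).trans (by linarith)
  have b0 : ∀ τ ∈ Icc (0 : ℝ) 1, ∀ x, |u0 τ x| ≤ M + L * |x| := fun τ hτ x =>
    (hMb τ hτ x).trans (by linarith)
  have b1 : ∀ τ ∈ Icc (0 : ℝ) 1, ∀ x, |u1 τ x| ≤ M + L * |x| := fun τ hτ x =>
    (hMc τ hτ x).trans (by linarith)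
  clear_value M
  set K := 3 + 2 * L * M + 2 * L ^ 2 with hK
  have hK0 : 0 ≤ K := by positivity
  refine ⟨K, fun ε hε x0 y0 => ?_⟩
  by_contra hneg
  push Not at hneg
  set Ψ : ℝ → ℝ → ℝ → ℝ := fun τ x y => u τ (α * x + β * y) - α * u1 τ x - β * u0 τ y +
      ε * Real.exp (K * τ) * (1 + x ^ 2 + y ^ 2) with hΨ
  have hcont : Continuous fun p : ℝ × ℝ × ℝ => Ψ p.1 p.2.1 p.2.2 := by
    have c1 : Continuous fun p : ℝ × ℝ × ℝ => u p.1 (α * p.2.1 + β * p.2.2) :=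
      hu.cont.comp (f := fun p : ℝ × ℝ × ℝ => (p.1, α * p.2.1 + β * p.2.2)) (by fun_prop)
    have c2 : Continuous fun p : ℝ × ℝ × ℝ => u1 p.1 p.2.1 :=
      h1.cont.comp (f := fun p : ℝ × ℝ × ℝ => (p.1, p.2.1)) (by fun_prop)
    have c3 : Continuous fun p : ℝ × ℝ × ℝ => u0 p.1 p.2.2 :=
      h0.cont.comp (f := fun p : ℝ × ℝ × ℝ => (p.1, p.2.2)) (by fun_prop)
    have c4 : Continuous fun p : ℝ × ℝ × ℝ =>
        ε * Real.exp (K * p.1) * (1 + p.2.1 ^ 2 + p.2.2 ^ 2) := by fun_prop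
    exact ((c1.sub (continuous_const.mul c2)).sub (continuous_const.mul c3)).add c4
  set R := 1 + (2 * M + 4 * L) / ε with hR
  have hR1 : 1 ≤ R := by
    have : 0 ≤ (2 * M + 4 * L) / ε := by positivity
    linarith
  have hRε : 2 * M + 4 * L ≤ ε * R := by
    rw [hR, mul_add, mul_div_cancel₀ _ hε.ne']; linarith
  clear_value R
  have hout : ∀ τ ∈ Icc (0 : ℝ) 1, ∀ x y, ¬ (x ∈ Icc (-R) R ∧ y ∈ Icc (-R) R) → 0 ≤ Ψ τ x y := by
    intro τ hτ x y hxy
    set r := max |x| |y| with hr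
    have hrx : |x| ≤ r := le_max_left _ _
    have hry : |y| ≤ r := le_max_right _ _
    have hRr : R ≤ r := by
      by_contra hc
      push Not at hc
      exact hxy ⟨abs_le.1 (by linarith), abs_le.1 (by linarith)⟩
    have hr2 : r ^ 2 ≤ 1 + x ^ 2 + y ^ 2 := by
      rcases max_cases |x| |y| with hc | hc
      · rw [hr, hc.1, sq_abs]; nlinarith [sq_nonneg y]
      · rw [hr, hc.1, sq_abs]; nlinarith [sq_nonneg x]
    clear_value r
    have hz : |α * x + β * y| ≤ r := by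
      refine (abs_add_le _ _).trans ?_
      rw [abs_mul, abs_mul, abs_of_pos hα, abs_of_pos hβ]
      calc α * |x| + β * |y| ≤ α * r + β * r := by gcongr
        _ = r := by rw [← add_mul, hαβ, one_mul]
    have e1 : -(M + L * r) ≤ u τ (α * x + β * y) := by
      have := (abs_le.1 (bu τ hτ (α * x + β * y))).1
      have := mul_le_mul_of_nonneg_left hz hL
      linarith
    have e2 : u1 τ x ≤ M + L * r := by
      have := (abs_le.1 (b1 τ hτ x)).2
      have := mul_le_mul_of_nonneg_left hrx hL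
      linarith
    have e3 : u0 τ y ≤ M + L * r := by
      have := (abs_le.1 (b0 τ hτ y)).2
      have := mul_le_mul_of_nonneg_left hry hL
      linarith
    have e4 : α * u1 τ x + β * u0 τ y ≤ M + L * r := by
      calc α * u1 τ x + β * u0 τ y ≤ α * (M + L * r) + β * (M + L * r) := by gcongr
        _ = _ := by rw [← add_mul, hαβ, one_mul]
    have e5 : 1 ≤ Real.exp (K * τ) := Real.one_le_exp (mul_nonneg hK0 hτ.1)
    have e6 : ε * r ^ 2 ≤ ε * Real.exp (K * τ) * (1 + x ^ 2 + y ^ 2) := by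
      rw [mul_assoc]
      apply mul_le_mul_of_nonneg_left _ hε.le
      calc r ^ 2 = 1 * r ^ 2 := (one_mul _).symm
        _ ≤ _ := mul_le_mul e5 hr2 (sq_nonneg _) (by linarith)
    have e7 : 2 * M + 4 * L * r ≤ ε * r ^ 2 := by
      have f1 : ε * R ≤ ε * r := mul_le_mul_of_nonneg_left hRr hε.le
      have f2 : (2 * M + 4 * L) * r ≤ ε * r * r :=
        mul_le_mul_of_nonneg_right (hRε.trans f1) (by linarith)
      have f3 : 2 * M * 1 ≤ 2 * M * r := mul_le_mul_of_nonneg_left (by linarith) (by linarith)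
      nlinarith
    have e8 : 0 ≤ L * r := mul_nonneg hL (by linarith)
    simp only [hΨ]
    linarith
  have hS : IsCompact (Icc (0 : ℝ) 1 ×ˢ (Icc (-R) R ×ˢ Icc (-R) R)) :=
    isCompact_Icc.prod (isCompact_Icc.prod isCompact_Icc)
  have hp0 : ((1 : ℝ), x0, y0) ∈ Icc (0 : ℝ) 1 ×ˢ (Icc (-R) R ×ˢ Icc (-R) R) := by
    refine ⟨⟨zero_le_one, le_rfl⟩, ?_⟩
    by_contra hc
    exact absurd (hout 1 ⟨zero_le_one, le_rfl⟩ x0 y0 hc) (not_le.2 hneg)
  obtain ⟨⟨τ, x, y⟩, hp, hpmin⟩ := hS.exists_isMinOn ⟨_, hp0⟩ hcont.continuousOn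
  have hτ : τ ∈ Icc (0 : ℝ) 1 := hp.1
  have hlt : Ψ τ x y < 0 := lt_of_le_of_lt (hpmin hp0) hneg
  have hmin : ∀ t ∈ Icc (0 : ℝ) 1, ∀ a b, Ψ τ x y ≤ Ψ t a b := by
    intro t ht a b
    by_cases hab : a ∈ Icc (-R) R ∧ b ∈ Icc (-R) R
    · exact hpmin (show (t, a, b) ∈ _ from ⟨ht, hab⟩)
    · exact hlt.le.trans (hout t ht a b hab)
  have hW : 0 < 1 + x ^ 2 + y ^ 2 := by positivity
  have hτ0 : 0 < τ := by
    rcases hτ.1.lt_or_eq with h' | h'
    · exact h'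
    · exfalso
      rw [← h'] at hlt
      simp only [hΨ] at hlt
      have := h x y
      have : 0 < ε * Real.exp (K * 0) * (1 + x ^ 2 + y ^ 2) := by positivity
      linarith
  obtain ⟨p1, p2, hp1, hp2, hpt⟩ := hu.pde τ hτ0
  obtain ⟨a1, a2, ha1, ha2, hat⟩ := h0.pde τ hτ0
  obtain ⟨c1, c2, hc1, hc2, hct⟩ := h1.pde τ hτ0
  set η := ε * Real.exp (K * τ) with hη
  have hη0 : 0 < η := by positivity
  set z := α * x + β * y with hz
  -- first order in `x`
  have fx : α * p1 z - α * c1 x + η * (2 * x) = 0 := by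
    have d1 : HasDerivAt (fun a => α * a + β * y) α x := by
      simpa using ((hasDerivAt_id x).const_mul α).add_const (β * y)
    have d2 := ((((hp1 z).comp x d1).sub ((hc1 x).const_mul α)).sub_const (β * u0 τ y)).add
      ((((hasDerivAt_pow 2 x).const_add 1).add_const (y ^ 2)).const_mul η)
    have hl : IsLocalMin (fun a => Ψ τ a y) x := Eventually.of_forall fun a => hmin τ hτ a y
    have := hl.hasDerivAt_eq_zero d2
    simp at this
    linarith
  have fy : β * p1 z - β * a1 y + η * (2 * y) = 0 := by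
    have d1 : HasDerivAt (fun b => α * x + β * b) β y := by
      simpa using ((hasDerivAt_id y).const_mul β).const_add (α * x)
    have d2 := ((((hp1 z).comp y d1).sub_const (α * u1 τ x)).sub ((ha1 y).const_mul β)).add
      (((hasDerivAt_pow 2 y).const_add (1 + x ^ 2)).const_mul η)
    have hl : IsLocalMin (fun b => Ψ τ x b) y := Eventually.of_forall fun b => hmin τ hτ x b
    have := hl.hasDerivAt_eq_zero d2
    simp at this
    linarith
  have f2 : 0 ≤ p2 z - α * c2 x - β * a2 y + 4 * η := by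
    have sh : ∀ c s : ℝ, HasDerivAt (fun s => c + s) 1 s := fun c s =>
      (hasDerivAt_id s).const_add c
    refine maxp_second (g := fun s => u τ (z + s) - α * u1 τ (x + s) - β * u0 τ (y + s) +
      η * (1 + (x + s) ^ 2 + (y + s) ^ 2))
      (g' := fun s => p1 (z + s) - α * c1 (x + s) - β * a1 (y + s) +
        η * (2 * (x + s) + 2 * (y + s))) (fun s => ?_) ?_ (fun s => ?_)
    · have := (((((hp1 (z + s)).comp s (sh z s)).sub
        (((hc1 (x + s)).comp s (sh x s)).const_mul α)).sub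
        (((ha1 (y + s)).comp s (sh y s)).const_mul β)).add
        (((((sh x s).pow 2).const_add 1).add ((sh y s).pow 2)).const_mul η))
      refine this.congr_deriv ?_
      simp
    · have := (((((hp2 (z + 0)).comp 0 (sh z 0)).sub
        (((hc2 (x + 0)).comp 0 (sh x 0)).const_mul α)).sub
        (((ha2 (y + 0)).comp 0 (sh y 0)).const_mul β)).add
        ((((sh x 0).const_mul 2).add ((sh y 0).const_mul 2)).const_mul η))
      refine this.congr_deriv ?_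
      simp
      ring
    · have := hmin τ hτ (x + s) (y + s)
      simp only [hΨ] at this
      rw [show α * (x + s) + β * (y + s) = z + s by
        rw [hz]; linear_combination s * hαβ] at this
      simpa using this
  have ft : (p2 z - u τ z * p1 z ^ 2) / 2 - α * ((c2 x - u1 τ x * c1 x ^ 2) / 2) -
      β * ((a2 y - u0 τ y * a1 y ^ 2) / 2) + K * η * (1 + x ^ 2 + y ^ 2) ≤ 0 := by
    have d1 : HasDerivAt (fun t => K * t) K τ := by simpa using (hasDerivAt_id τ).const_mul K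
    have d2 := (((hpt z).sub ((hct x).const_mul α)).sub ((hat y).const_mul β)).add
      ((d1.exp.const_mul ε).mul_const (1 + x ^ 2 + y ^ 2))
    have := maxp_time hτ0 hτ.2 d2 (fun t ht => hmin t ht x y)
    rw [hη]
    linarith
  have q1 := hu.deriv_le hL (hp1 z)
  have q2 := h1.deriv_le hL (hc1 x)
  have q3 := h0.deriv_le hL (ha1 y)
  have t1 := maxp_term hL hM hη0.le q1 q2 (b1 τ hτ x) fx
  have t2 := maxp_term hL hM hη0.le q1 q3 (b0 τ hτ y) fy
  have hC : u τ z - α * u1 τ x - β * u0 τ y ≤ 0 := by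
    simp only [hΨ] at hlt
    have : 0 < η * (1 + x ^ 2 + y ^ 2) := by positivity
    linarith
  have t3 : p1 z ^ 2 * (u τ z - α * u1 τ x - β * u0 τ y) ≤ 0 :=
    mul_nonpos_of_nonneg_of_nonpos (sq_nonneg _) hC
  have t4 : 0 ≤ η * (x ^ 2 + y ^ 2) := by positivity
  have t5 : 0 ≤ L * η * M * (x ^ 2 + y ^ 2) := by positivity
  have t6 : 0 ≤ L ^ 2 * η := by positivity
  rw [hK] at ft
  linarith

theorem max_principle {L : ℝ} (hL : 0 ≤ L) {u u0 u1 : ℝ → ℝ → ℝ} (hu : Good L u) (h0 : Good L u0)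
    (h1 : Good L u1) {α : ℝ} (hα0 : 0 < α) (hα1 : α < 1)
    (h : ∀ x y, α * u1 0 x + (1 - α) * u0 0 y ≤ u 0 (α * x + (1 - α) * y)) (x y : ℝ) :
    α * u1 1 x + (1 - α) * u0 1 y ≤ u 1 (α * x + (1 - α) * y) := by
  obtain ⟨K, hK⟩ := maxp_eps hL hu h0 h1 hα0 (sub_pos.2 hα1) (by ring) h
  have hW : 0 < Real.exp (K * 1) * (1 + x ^ 2 + y ^ 2) := by positivity
  refine le_of_forall_pos_le_add fun ε hε => ?_
  have := hK (ε / (Real.exp (K * 1) * (1 + x ^ 2 + y ^ 2))) (div_pos hε hW) x y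
  rw [mul_assoc, div_mul_cancel₀ _ hW.ne'] at this
  linarith

end Crest.Agent.R215
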