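import Crest.Agent.R215.Shift
import Crest.Agent.R215.Heat
import Crest.Agent.R215.MaxP

/-! Row 215: Borell's inequality on the line.
Plan: `u τ x = Eh g1 (fun z => V (x + √τ z)) = PhiInv (heat (Phi ∘ V) τ x)`. Continuity: `heat_continuous`,
`continuousAt_PhiInv`. Lipschitz: `abs_Eh_sub_le`. PDE: with `P1,P2` from `heat_eq`, `u1 = P1 / phi u`,
`u2 = P2/phi u + u u1²` (derivative of `(phi (u x))⁻¹` is `u u1 / phi u`), `∂τ u = (P2/2)/phi u`.
`u 0 x = V x` (`Eh_const`), `u 1 0 = Eh g1 V`. -/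

set_option autoImplicit false

namespace Crest.Agent.R215

open MeasureTheory ProbabilityTheory Set Filter Topology
open scoped RealInnerProductSpace NNReal

lemma borell1_abs_Phi (V : ℝ → ℝ) (x : ℝ) : |Phi (V x)| ≤ 1 := by
  rw [abs_of_pos (Phi_pos _)]
  exact (Phi_lt_one _).le

lemma good_heat {L : ℝ≥0} {V : ℝ → ℝ} (hV : LipschitzWith L V) :
    Good L (fun τ x => Eh g1 (fun z => V (x + Real.sqrt τ * z))) := by
  have hc : Continuous V := hV.continuous
  have hf : Continuous (fun x => Phi (V x)) := continuous_Phi.comp hc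
  have hm : ∀ τ x : ℝ, Measurable (fun z => V (x + Real.sqrt τ * z)) := fun τ x =>
    (hc.comp (by fun_prop)).measurable
  have hE : ∀ τ x : ℝ, Eh g1 (fun z => V (x + Real.sqrt τ * z)) =
      PhiInv (heat (fun x => Phi (V x)) τ x) := fun τ x => rfl
  have h0 : ∀ τ x : ℝ, 0 < heat (fun x => Phi (V x)) τ x := fun τ x =>
    integral_Phi_pos (μ := g1) (hm τ x)
  have h1 : ∀ τ x : ℝ, heat (fun x => Phi (V x)) τ x < 1 := fun τ x =>
    integral_Phi_lt_one (μ := g1) (hm τ x)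
  refine ⟨?_, ?_, ?_⟩
  · rw [continuous_iff_continuousAt]
    intro q
    exact ContinuousAt.comp (f := fun q : ℝ × ℝ => heat (fun x => Phi (V x)) q.1 q.2)
      (continuousAt_PhiInv (h0 q.1 q.2) (h1 q.1 q.2))
      (heat_continuous hf (borell1_abs_Phi V)).continuousAt
  · intro τ x y
    refine abs_Eh_sub_le _ (hm τ x) (hm τ y) fun z => ?_
    have := hV.dist_le_mul (x + Real.sqrt τ * z) (y + Real.sqrt τ * z)
    rwa [Real.dist_eq, Real.dist_eq, add_sub_add_right_eq_sub] at this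
  · intro τ hτ
    obtain ⟨P1, P2, hP1, hP2, hPt⟩ := heat_eq hf (borell1_abs_Phi V) hτ
    set u : ℝ → ℝ := fun x => PhiInv (heat (fun x => Phi (V x)) τ x) with hu
    have hu1 : ∀ x, HasDerivAt u ((phi (u x))⁻¹ * P1 x) x := fun x =>
      (hasDerivAt_PhiInv (h0 τ x) (h1 τ x)).comp x (hP1 x)
    refine ⟨fun x => (phi (u x))⁻¹ * P1 x,
      fun x => (phi (u x))⁻¹ * P2 x + u x * ((phi (u x))⁻¹ * P1 x) ^ 2, hu1, fun x => ?_,
      fun x => ?_⟩
    · have h2 : HasDerivAt (fun x => phi (u x)) (-u x * phi (u x) * ((phi (u x))⁻¹ * P1 x)) x :=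
        (hasDerivAt_phi (u x)).comp x (hu1 x)
      have h3 := (h2.inv (phi_pos (u x)).ne').mul (hP2 x)
      refine h3.congr_deriv ?_
      have := (phi_pos (u x)).ne'
      simp only [Pi.inv_apply]
      field_simp
      ring
    · have h4 := (hasDerivAt_PhiInv (h0 τ x) (h1 τ x)).comp τ (hPt x)
      refine h4.congr_deriv (Eq.symm ?_)
      change ((phi (u x))⁻¹ * P2 x + u x * ((phi (u x))⁻¹ * P1 x) ^ 2 -
        u x * ((phi (u x))⁻¹ * P1 x) ^ 2) / 2 = (phi (u x))⁻¹ * (P2 x / 2)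
      ring

theorem borell1 {L : ℝ≥0} {V V0 V1 : ℝ → ℝ} (hV : LipschitzWith L V) (h0 : LipschitzWith L V0)
    (h1 : LipschitzWith L V1) {α : ℝ} (hα0 : 0 < α) (hα1 : α < 1)
    (h : ∀ x y, α * V1 x + (1 - α) * V0 y ≤ V (α * x + (1 - α) * y)) :
    α * Eh g1 V1 + (1 - α) * Eh g1 V0 ≤ Eh g1 V := by
  have := max_principle L.2 (good_heat hV) (good_heat h0) (good_heat h1) hα0 hα1
    (fun x y => by
      simp only [Real.sqrt_zero, zero_mul, add_zero, Eh_const]
      exact h x y) 0 0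
  simpa using this

end Crest.Agent.R215
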