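import Crest.Agent.R215.Borell1

/-! Row 215: Borell's inequality in finite dimension.
Plan: induction on `n` for `Measure.pi (fun _ : Fin n => g1)`: `n = 0`: `Eh` of a constant. Step:
`measurePreserving_piFinSuccAbove` (index 0) + `Eh_map` + `Eh_prod`; `y ↦ Eh g1 (fun s => V (Fin.cons s y))` is
`L`-Lipschitz (sup metric) by `abs_Eh_sub_le` and satisfies the hypothesis by `borell1`.
For `E`: `stdGaussian_eq_map_pi_orthonormalBasis` with `(stdOrthonormalBasis ℝ E)`; the map `x ↦ ∑ x i • b i` is
linear, hence Lipschitz for some constant. -/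

set_option autoImplicit false

namespace Crest.Agent.R215

open MeasureTheory ProbabilityTheory Set Filter Topology
open scoped RealInnerProductSpace NNReal

variable {E : Type*} [NormedAddCommGroup E] [InnerProductSpace ℝ E] [FiniteDimensional ℝ E]
  [MeasurableSpace E] [BorelSpace E]

lemma borellN_step (n : ℕ) {V : (Fin (n + 1) → ℝ) → ℝ} (hV : Measurable V) :
    Eh (Measure.pi fun _ : Fin (n + 1) => g1) V =
      Eh (Measure.pi fun _ : Fin n => g1) (fun y => Eh g1 (fun s => V (Fin.cons s y))) := by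
  have hp := (measurePreserving_piFinSuccAbove (fun _ : Fin (n + 1) => g1) 0).symm
  have hm := hp.measurable
  rw [← hp.map_eq, Eh_map _ hm hV]
  refine (Eh_prod _ _ (hV.comp hm)).trans ?_
  congr 1
  ext y
  congr 1
  ext s
  simp [MeasurableEquiv.piFinSuccAbove, Fin.insertNthEquiv, Fin.consEquiv]

lemma borellN_lip1 {n : ℕ} {L : ℝ≥0} {V : (Fin (n + 1) → ℝ) → ℝ} (hV : LipschitzWith L V)
    (y : Fin n → ℝ) : LipschitzWith L (fun s : ℝ => V (Fin.cons s y)) := by
  refine LipschitzWith.of_dist_le_mul fun s t => (hV.dist_le_mul _ _).trans ?_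
  refine mul_le_mul_of_nonneg_left ?_ L.2
  rw [dist_pi_le_iff dist_nonneg]
  intro i
  refine Fin.cases ?_ (fun j => ?_) i
  · simp
  · simp

lemma borellN_lip2 {n : ℕ} {L : ℝ≥0} {V : (Fin (n + 1) → ℝ) → ℝ} (hV : LipschitzWith L V) :
    LipschitzWith L (fun y : Fin n → ℝ => Eh g1 (fun s : ℝ => V (Fin.cons s y))) := by
  refine LipschitzWith.of_dist_le_mul fun y z => ?_
  rw [Real.dist_eq]
  refine abs_Eh_sub_le _ (borellN_lip1 hV y).continuous.measurable
    (borellN_lip1 hV z).continuous.measurable fun s => ?_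
  rw [← Real.dist_eq]
  refine (hV.dist_le_mul _ _).trans (mul_le_mul_of_nonneg_left ?_ L.2)
  rw [dist_pi_le_iff dist_nonneg]
  intro i
  refine Fin.cases ?_ (fun j => ?_) i
  · simp
  · simpa using dist_le_pi_dist y z j

theorem borell_pi (n : ℕ) {L : ℝ≥0} {V V0 V1 : (Fin n → ℝ) → ℝ} (hV : LipschitzWith L V)
    (h0 : LipschitzWith L V0) (h1 : LipschitzWith L V1) {α : ℝ} (hα0 : 0 < α) (hα1 : α < 1)
    (h : ∀ x y, α * V1 x + (1 - α) * V0 y ≤ V (α • x + (1 - α) • y)) :
    α * Eh (Measure.pi fun _ => g1) V1 + (1 - α) * Eh (Measure.pi fun _ => g1) V0 ≤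
      Eh (Measure.pi fun _ => g1) V := by
  induction n with
  | zero =>
    have hc : ∀ W : (Fin 0 → ℝ) → ℝ, Eh (Measure.pi fun _ => g1) W = W 0 := by
      intro W
      have : W = fun _ => W 0 := by
        ext x; rw [Subsingleton.elim x 0]
      rw [this, Eh_const]
    rw [hc, hc, hc]
    simpa using h 0 0
  | succ n ih =>
    rw [borellN_step n hV.continuous.measurable, borellN_step n h0.continuous.measurable,
      borellN_step n h1.continuous.measurable]
    refine ih (borellN_lip2 hV) (borellN_lip2 h0) (borellN_lip2 h1) fun x y => ?_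
    refine borell1 (borellN_lip1 hV _) (borellN_lip1 h0 _) (borellN_lip1 h1 _) hα0 hα1
      fun s t => ?_
    refine (h _ _).trans (le_of_eq ?_)
    congr 1
    ext i
    refine Fin.cases ?_ (fun j => ?_) i
    · simp
    · simp

theorem borell {L : ℝ≥0} {V V0 V1 : E → ℝ} (hV : LipschitzWith L V)
    (h0 : LipschitzWith L V0) (h1 : LipschitzWith L V1) {α : ℝ} (hα0 : 0 < α) (hα1 : α < 1)
    (h : ∀ x y, α * V1 x + (1 - α) * V0 y ≤ V (α • x + (1 - α) • y)) :
    α * Eh (stdGaussian E) V1 + (1 - α) * Eh (stdGaussian E) V0 ≤ Eh (stdGaussian E) V := by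
  set b := stdOrthonormalBasis ℝ E with hb
  let T : (Fin (Module.finrank ℝ E) → ℝ) →ₗ[ℝ] E :=
    { toFun := fun x => ∑ i, x i • b i
      map_add' := fun x y => by simp [add_smul, Finset.sum_add_distrib]
      map_smul' := fun c x => by simp [Finset.smul_sum, mul_smul] }
  have hT := (LinearMap.toContinuousLinearMap T).lipschitz
  have hm : Measurable (fun x : Fin (Module.finrank ℝ E) → ℝ => ∑ i, x i • b i) :=
    hT.continuous.measurable
  rw [stdGaussian_eq_map_pi_orthonormalBasis b, Eh_map _ hm hV.continuous.measurable,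
    Eh_map _ hm h0.continuous.measurable, Eh_map _ hm h1.continuous.measurable]
  refine borell_pi _ (hV.comp hT) (h0.comp hT) (h1.comp hT) hα0 hα1 fun x y => ?_
  refine (h _ _).trans (le_of_eq ?_)
  change V (α • T x + (1 - α) • T y) = V (T (α • x + (1 - α) • y))
  rw [map_add, map_smul, map_smul]

end Crest.Agent.R215
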