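import Crest.Agent.R215.G1b

/-! Row 215: the spherical cap inequality in polar coordinates.
Plan: `∫ f ∂(g1.prod g1) = ∫ y, phi y.1 * phi y.2 * f y` and `integral_comp_polarCoord_symm`; with
`μ θ = a (cos θ, sin θ)`, `a (r cos θ, r sin θ) = r μ θ`. Radial integrals: `radial_phi` (antiderivative
`-exp (-(1+μ²) r²/2)/(1+μ²)`), `radial_Q` (antiderivative of `r exp(-r²/2) Q(rμ) + μ phi(rμ) exp(-r²/2)` is
`-exp(-r²/2) Q(rμ)`, and `integral_gaussian_Ioi`). With `q θ = (1 - μ/√(1+μ²))/2` one has `4 q (1-q) = 1/(1+μ²)`;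
`p = (1/2π) ∫_{-π}^{π} q`, `∫ phi (a y) = (4/√(2π)) (1/2π) ∫ q (1-q)`, and
`q (1-q) ≤ p (1-p) + (1-2p) (q-p)` pointwise. -/

set_option autoImplicit false

namespace Crest.Agent.R215

open MeasureTheory ProbabilityTheory Set Filter Topology
open scoped RealInnerProductSpace NNReal

lemma polar_exp_eq (r : ℝ) : Real.exp (-r ^ 2 / 2) = Real.sqrt (2 * Real.pi) * phi r := by
  unfold phi
  have := sqrt_two_pi_pos
  field_simp

lemma polar_hasDerivAt_exp (r : ℝ) :
    HasDerivAt (fun r : ℝ => Real.exp (-r ^ 2 / 2)) (-r * Real.exp (-r ^ 2 / 2)) r := by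
  simp only [polar_exp_eq]
  refine ((hasDerivAt_phi r).const_mul _).congr_deriv ?_
  ring

lemma polar_tendsto {f : ℝ → ℝ} (hf : ∀ x, |f x| ≤ 1) :
    Tendsto (fun r : ℝ => Real.exp (-r ^ 2 / 2) * f r) atTop (𝓝 0) := by
  have h1 : Tendsto (fun r : ℝ => Real.exp (-r ^ 2 / 2)) atTop (𝓝 0) := by
    simp only [polar_exp_eq]
    simpa using tendsto_phi_atTop.const_mul (Real.sqrt (2 * Real.pi))
  refine squeeze_zero_norm (fun r => ?_) h1
  rw [Real.norm_eq_abs, abs_mul, abs_of_pos (Real.exp_pos _)]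
  exact mul_le_of_le_one_right (Real.exp_pos _).le (hf r)

lemma polar_abs_phi (x : ℝ) : |phi x| ≤ 1 := by
  rw [abs_of_pos (phi_pos x)]; exact phi_le_one x

lemma polar_abs_Q (x : ℝ) : |Q x| ≤ 1 := by
  rw [abs_of_pos (Q_pos x)]; exact (Q_lt_one x).le

lemma polar_int_rexp : Integrable (fun r : ℝ => r * Real.exp (-r ^ 2 / 2)) := by
  simp only [polar_exp_eq]
  refine (integrable_phi_mul_id.const_mul (Real.sqrt (2 * Real.pi))).congr
    (Eventually.of_forall fun r => ?_)
  ring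

lemma radial_phi (μ : ℝ) : ∫ r in Ioi (0 : ℝ), r * Real.exp (-r ^ 2 / 2) * phi (r * μ) =
    1 / Real.sqrt (2 * Real.pi) / (1 + μ ^ 2) := by
  have hμ : 0 < 1 + μ ^ 2 := by positivity
  have hd : ∀ r : ℝ, HasDerivAt (fun r => -(Real.exp (-r ^ 2 / 2) * phi (r * μ)) / (1 + μ ^ 2))
      (r * Real.exp (-r ^ 2 / 2) * phi (r * μ)) r := fun r => by
    have h1 := (hasDerivAt_phi (r * μ)).comp r ((hasDerivAt_id r).mul_const μ)
    have := (((polar_hasDerivAt_exp r).mul h1).neg).div_const (1 + μ ^ 2)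
    refine this.congr_deriv ?_
    simp only [Function.comp, id]
    field_simp
    ring
  have hl := ((polar_tendsto (f := fun r => phi (r * μ)) fun r => polar_abs_phi _).neg).div_const
    (1 + μ ^ 2)
  rw [integral_Ioi_of_hasDerivAt_of_nonneg' (a := 0) (fun r _ => hd r)
    (fun r hr => mul_nonneg (mul_nonneg (le_of_lt hr) (Real.exp_pos _).le) (phi_pos _).le) hl]
  simp only [zero_mul, phi_zero]
  simp
  ring

lemma radial_Q (μ : ℝ) : ∫ r in Ioi (0 : ℝ), r * Real.exp (-r ^ 2 / 2) * Q (r * μ) =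
    (1 - μ / Real.sqrt (1 + μ ^ 2)) / 2 := by
  have hμ : 0 < 1 + μ ^ 2 := by positivity
  have hd : ∀ r : ℝ, HasDerivAt (fun r => -(Real.exp (-r ^ 2 / 2) * Q (r * μ)))
      (r * Real.exp (-r ^ 2 / 2) * Q (r * μ) + μ * (Real.exp (-r ^ 2 / 2) * phi (r * μ))) r :=
    fun r => by
    have h1 := (hasDerivAt_Q (r * μ)).comp r ((hasDerivAt_id r).mul_const μ)
    have := ((polar_hasDerivAt_exp r).mul h1).neg
    refine this.congr_deriv ?_
    simp only [Function.comp, id]
    ring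
  have hl := (polar_tendsto (f := fun r => Q (r * μ)) fun r => polar_abs_Q _).neg
  have i1 : Integrable (fun r : ℝ => r * Real.exp (-r ^ 2 / 2) * Q (r * μ)) :=
    polar_int_rexp.mul_bdd (c := 1)
      (continuous_Q.comp (continuous_id.mul continuous_const)).aestronglyMeasurable
      (Eventually.of_forall fun r => polar_abs_Q _)
  have e : ∀ r : ℝ, Real.exp (-r ^ 2 / 2) * phi (r * μ) =
      Real.exp (-((1 + μ ^ 2) / 2) * r ^ 2) / Real.sqrt (2 * Real.pi) := fun r => by
    unfold phi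
    rw [← mul_div_assoc, ← Real.exp_add]
    congr 2
    ring
  have i2 : Integrable (fun r : ℝ => μ * (Real.exp (-r ^ 2 / 2) * phi (r * μ))) := by
    simp only [e]
    exact ((integrable_exp_neg_mul_sq (half_pos hμ)).div_const _).const_mul _
  have h1 := integral_Ioi_of_hasDerivAt_of_tendsto' (a := 0) (fun r _ => hd r)
    (i1.add i2).integrableOn hl
  rw [integral_add i1.integrableOn i2.integrableOn, integral_const_mul] at h1
  simp only [e] at h1
  rw [integral_div, integral_gaussian_Ioi] at h1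
  have h2 : Real.sqrt (Real.pi / ((1 + μ ^ 2) / 2)) =
      Real.sqrt (2 * Real.pi) / Real.sqrt (1 + μ ^ 2) := by
    rw [← Real.sqrt_div (by positivity)]
    congr 1
    field_simp
  have h3 := sqrt_two_pi_pos
  have h4 : μ * (Real.sqrt (2 * Real.pi) / Real.sqrt (1 + μ ^ 2) / 2 / Real.sqrt (2 * Real.pi)) =
      μ / Real.sqrt (1 + μ ^ 2) / 2 := by
    field_simp
  rw [h2, h4] at h1
  simp only [zero_mul, Q_zero] at h1
  norm_num at h1 ⊢
  linarith

lemma polar_density {h : ℝ × ℝ → ℝ} (hc : Continuous h) (hb : ∀ y, |h y| ≤ 1) :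
    ∫ y, h y ∂(g1.prod g1) = ∫ y : ℝ × ℝ, phi y.1 * phi y.2 * h y := by
  have i1 : Integrable h (g1.prod g1) :=
    (integrable_const (1 : ℝ)).mono' hc.aestronglyMeasurable (Eventually.of_forall hb)
  have i2 : Integrable (fun y : ℝ × ℝ => phi y.1 * phi y.2 * h y) (volume.prod volume) :=
    (integrable_phi.mul_prod integrable_phi).mul_bdd (c := 1) hc.aestronglyMeasurable
      (Eventually.of_forall hb)
  rw [integral_prod _ i1, Measure.volume_eq_prod, integral_prod _ i2, integral_g1]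
  congr 1
  funext x
  rw [integral_g1, ← integral_const_mul]
  congr 1
  funext y
  ring

lemma polar_formula {a : ℝ × ℝ → ℝ} (ha : Continuous a)
    (hh : ∀ (r : ℝ) (y : ℝ × ℝ), 0 ≤ r → a (r • y) = r * a y) {f : ℝ → ℝ} (hf : Continuous f)
    (hb : ∀ x, |f x| ≤ 1) :
    ∫ y, f (a y) ∂(g1.prod g1) = (∫ θ in Ioo (-Real.pi) Real.pi, ∫ r in Ioi (0 : ℝ),
      r * Real.exp (-r ^ 2 / 2) * f (r * a (Real.cos θ, Real.sin θ))) / (2 * Real.pi) := by
  rw [polar_density (h := fun y => f (a y)) (hf.comp ha) (fun y => hb _),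
    ← integral_comp_polarCoord_symm, polarCoord_target]
  have hc : Continuous fun p : ℝ × ℝ => f (p.1 * a (Real.cos p.2, Real.sin p.2)) :=
    hf.comp (continuous_fst.mul (ha.comp (by fun_prop)))
  have i1 : Integrable (fun p : ℝ × ℝ => p.1 * Real.exp (-p.1 ^ 2 / 2) *
      f (p.1 * a (Real.cos p.2, Real.sin p.2)))
      ((volume.restrict (Ioi (0 : ℝ))).prod (volume.restrict (Ioo (-Real.pi) Real.pi))) := by
    have := (polar_int_rexp.integrableOn (s := Ioi 0)).mul_prod
      (integrable_const (μ := volume.restrict (Ioo (-Real.pi) Real.pi)) (1 : ℝ))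
    simp only [mul_one] at this
    exact this.mul_bdd (c := 1) hc.aestronglyMeasurable (Eventually.of_forall fun p => hb _)
  rw [← integral_prod_symm _ i1, Measure.prod_restrict, ← Measure.volume_eq_prod, ← integral_div]
  refine setIntegral_congr_fun (measurableSet_Ioi.prod measurableSet_Ioo) fun p hp => ?_
  have hp1 : 0 ≤ p.1 := le_of_lt hp.1
  have e1 : a (p.1 * Real.cos p.2, p.1 * Real.sin p.2) = p.1 * a (Real.cos p.2, Real.sin p.2) := by
    rw [← hh _ _ hp1]; rfl
  have e2 : phi (p.1 * Real.cos p.2) * phi (p.1 * Real.sin p.2) =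
      Real.exp (-p.1 ^ 2 / 2) / (2 * Real.pi) := by
    unfold phi
    rw [div_mul_div_comm, Real.mul_self_sqrt (by positivity), ← Real.exp_add]
    congr 2
    have := Real.cos_sq_add_sin_sq p.2
    linear_combination (-p.1 ^ 2 / 2) * this
  simp only [polarCoord_symm_apply, smul_eq_mul]
  rw [e1, e2]
  ring

theorem polar_cap {a : ℝ × ℝ → ℝ} (ha : Continuous a)
    (hh : ∀ (r : ℝ) (y : ℝ × ℝ), 0 ≤ r → a (r • y) = r * a y) :
    ∫ y, phi (a y) ∂(g1.prod g1) ≤ 4 / Real.sqrt (2 * Real.pi) *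
      ((∫ y, Q (a y) ∂(g1.prod g1)) * (1 - ∫ y, Q (a y) ∂(g1.prod g1))) := by
  rw [polar_formula ha hh continuous_phi polar_abs_phi, polar_formula ha hh continuous_Q polar_abs_Q]
  simp only [radial_phi, radial_Q]
  set μ : ℝ → ℝ := fun θ => a (Real.cos θ, Real.sin θ) with hμ
  have hμc : Continuous μ := ha.comp (by fun_prop)
  set q : ℝ → ℝ := fun θ => (1 - μ θ / Real.sqrt (1 + μ θ ^ 2)) / 2 with hq
  have hs : ∀ θ, 0 < Real.sqrt (1 + μ θ ^ 2) := fun θ => Real.sqrt_pos.2 (by positivity)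
  have hqc : Continuous q :=
    (continuous_const.sub (hμc.div (by fun_prop) fun θ => (hs θ).ne')).div_const 2
  have hint : ∀ {g : ℝ → ℝ}, Continuous g → IntegrableOn g (Ioo (-Real.pi) Real.pi) :=
    fun hg => (hg.integrableOn_Icc).mono_set Ioo_subset_Icc_self
  change (∫ θ in Ioo (-Real.pi) Real.pi, 1 / Real.sqrt (2 * Real.pi) / (1 + μ θ ^ 2)) /
    (2 * Real.pi) ≤ 4 / Real.sqrt (2 * Real.pi) *
      ((∫ θ in Ioo (-Real.pi) Real.pi, q θ) / (2 * Real.pi) *
        (1 - (∫ θ in Ioo (-Real.pi) Real.pi, q θ) / (2 * Real.pi)))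
  set p := (∫ θ in Ioo (-Real.pi) Real.pi, q θ) / (2 * Real.pi) with hp
  have hπ := Real.pi_pos
  have hp' : ∫ θ in Ioo (-Real.pi) Real.pi, q θ = 2 * Real.pi * p := by
    rw [hp]; field_simp
  have e1 : ∀ θ, 1 / Real.sqrt (2 * Real.pi) / (1 + μ θ ^ 2) =
      4 / Real.sqrt (2 * Real.pi) * (q θ * (1 - q θ)) := fun θ => by
    have h1 := Real.sq_sqrt (show 0 ≤ 1 + μ θ ^ 2 by positivity)
    have h2 := hs θ
    have h3 := sqrt_two_pi_pos
    simp only [hq]
    generalize Real.sqrt (1 + μ θ ^ 2) = s at *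
    rw [← h1]
    field_simp
    nlinarith
  simp only [e1]
  rw [integral_const_mul, mul_div_assoc]
  have h3 := sqrt_two_pi_pos
  refine mul_le_mul_of_nonneg_left ?_ (by positivity)
  rw [div_le_iff₀ (by positivity)]
  have e2 : ∫ θ in Ioo (-Real.pi) Real.pi, q θ * (1 - q θ) ≤
      ∫ θ in Ioo (-Real.pi) Real.pi, (p ^ 2 + (1 - 2 * p) * q θ) :=
    integral_mono (hint (by fun_prop)) (hint (by fun_prop)) fun θ => by
      simp only
      nlinarith [sq_nonneg (q θ - p)]
  rw [integral_add (hint continuous_const) (hint (by fun_prop)), integral_const_mul, hp'] at e2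
  simp only [integral_const, MeasurableSet.univ, measureReal_restrict_apply, univ_inter,
    smul_eq_mul, Real.volume_real_Ioo] at e2
  rw [max_eq_left (by linarith)] at e2
  linarith

end Crest.Agent.R215
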