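import Crest.Agent.R215.Split

/-! Row 215: slicing a polyhedral cone along a unit vector `e` in its interior.
Plan: `map_split` + Fubini (`integral_prod_symm`). For `x = s e + (y - ⟪e,y⟫ e)`:
`⟪w j, x⟫ = b j * s + ⟪w j - b j • e, y⟫ = b j (s - (-⟪w j - b j • e, y⟫ / b j))`, so the slice is `Ici (slc e w y)`;
use `g1_Ici`, `g1_Ici_mom`, `g1_posPart`. (`le_ciSup (Set.finite_range _).bddAbove`, `ciSup_le`,
`exists_eq_ciSup_of_finite`.) -/

set_option autoImplicit false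
set_option linter.unusedSectionVars false

namespace Crest.Agent.R215

open MeasureTheory ProbabilityTheory Set Filter Topology
open scoped RealInnerProductSpace NNReal

variable {E : Type*} [NormedAddCommGroup E] [InnerProductSpace ℝ E] [FiniteDimensional ℝ E]
  [MeasurableSpace E] [BorelSpace E]

/-- lower end point of the slice of the cone `{x | ∀ j, 0 ≤ ⟪w j, x⟫}` in direction `e` -/
noncomputable def slc {κ : Type} (e : E) (w : κ → E) (y : E) : ℝ :=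
  ⨆ j, -⟪w j - ⟪w j, e⟫ • e, y⟫ / ⟪w j, e⟫

variable {κ : Type} [Fintype κ] [Nonempty κ] {e : E} {w : κ → E}

lemma slc_ge (j : κ) (y : E) : -⟪w j - ⟪w j, e⟫ • e, y⟫ / ⟪w j, e⟫ ≤ slc e w y :=
  le_ciSup (f := fun j => -⟪w j - ⟪w j, e⟫ • e, y⟫ / ⟪w j, e⟫) (Set.finite_range _).bddAbove j

lemma slc_le_iff (y : E) (s : ℝ) :
    slc e w y ≤ s ↔ ∀ j, -⟪w j - ⟪w j, e⟫ • e, y⟫ / ⟪w j, e⟫ ≤ s :=
  ⟨fun h j => (slc_ge j y).trans h, fun h => ciSup_le h⟩

lemma slc_lipschitz (hb : ∀ j, 0 < ⟪w j, e⟫) : ∃ L : ℝ≥0, LipschitzWith L (slc e w) := by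
  classical
  set c : κ → ℝ := fun j => ‖w j - ⟪w j, e⟫ • e‖ / ⟪w j, e⟫ with hc
  have hc0 : ∀ j, 0 ≤ c j := fun j => div_nonneg (norm_nonneg _) (hb j).le
  refine ⟨⟨∑ j, c j, Finset.sum_nonneg fun j _ => hc0 j⟩, LipschitzWith.of_le_add_mul _ ?_⟩
  intro x y
  rw [slc_le_iff]
  intro j
  have h1 := slc_ge (e := e) (w := w) j y
  have h2 : -⟪w j - ⟪w j, e⟫ • e, x⟫ / ⟪w j, e⟫ ≤
      -⟪w j - ⟪w j, e⟫ • e, y⟫ / ⟪w j, e⟫ + c j * dist x y := by
    have h3 : ⟪w j - ⟪w j, e⟫ • e, y - x⟫ ≤ ‖w j - ⟪w j, e⟫ • e‖ * ‖y - x‖ :=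
      real_inner_le_norm _ _
    rw [inner_sub_right, ← dist_eq_norm y x, dist_comm y x] at h3
    rw [hc]
    simp only
    rw [div_mul_eq_mul_div, ← add_div]
    exact div_le_div_of_nonneg_right (by linarith) (hb j).le
  have h4 : c j * dist x y ≤ (∑ j, c j) * dist x y :=
    mul_le_mul_of_nonneg_right
      (Finset.single_le_sum (fun j _ => hc0 j) (Finset.mem_univ j)) dist_nonneg
  change _ ≤ slc e w y + (∑ j, c j) * dist x y
  linarith

lemma slc_convex (hb : ∀ j, 0 < ⟪w j, e⟫) : ConvexOn ℝ univ (slc e w) := by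
  refine ⟨convex_univ, fun x _ y _ a b ha hb' _ => ?_⟩
  rw [slc_le_iff]
  intro j
  have h1 := slc_ge (e := e) (w := w) j x
  have h2 := slc_ge (e := e) (w := w) j y
  have h3 : -⟪w j - ⟪w j, e⟫ • e, a • x + b • y⟫ / ⟪w j, e⟫ =
      a * (-⟪w j - ⟪w j, e⟫ • e, x⟫ / ⟪w j, e⟫) + b * (-⟪w j - ⟪w j, e⟫ • e, y⟫ / ⟪w j, e⟫) := by
    rw [inner_add_right, real_inner_smul_right, real_inner_smul_right]
    ring
  rw [h3, smul_eq_mul, smul_eq_mul]
  exact add_le_add (mul_le_mul_of_nonneg_left h1 ha) (mul_le_mul_of_nonneg_left h2 hb')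

lemma slc_inner (hb : ∀ j, 0 < ⟪w j, e⟫) (j : κ) (s : ℝ) (y : E) :
    ⟪w j, s • e + (y - ⟪e, y⟫ • e)⟫ =
      ⟪w j, e⟫ * (s - -⟪w j - ⟪w j, e⟫ • e, y⟫ / ⟪w j, e⟫) := by
  have := (hb j).ne'
  rw [inner_add_right, inner_sub_right, real_inner_smul_right, real_inner_smul_right,
    inner_sub_left, real_inner_smul_left]
  field_simp
  ring

lemma slc_mem (hb : ∀ j, 0 < ⟪w j, e⟫) (s : ℝ) (y : E) :
    (∀ j, 0 ≤ ⟪w j, s • e + (y - ⟪e, y⟫ • e)⟫) ↔ slc e w y ≤ s := by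
  rw [slc_le_iff]
  refine forall_congr' fun j => ?_
  rw [slc_inner hb, mul_nonneg_iff_of_pos_left (hb j), sub_nonneg]

lemma slc_fubini (he : ‖e‖ = 1) {f : E → ℝ} (hf : Integrable f (stdGaussian E)) :
    ∫ x, f x ∂stdGaussian E =
      ∫ y, (∫ s, f (s • e + (y - ⟪e, y⟫ • e)) ∂g1) ∂stdGaussian E := by
  have hm : Measurable (fun q : ℝ × E => q.1 • e + (q.2 - ⟪e, q.2⟫ • e)) := by fun_prop
  have hf' : Integrable f
      ((g1.prod (stdGaussian E)).map (fun q : ℝ × E => q.1 • e + (q.2 - ⟪e, q.2⟫ • e))) := by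
    rwa [map_split he]
  conv_lhs => rw [← map_split he]
  rw [integral_map hm.aemeasurable hf'.aestronglyMeasurable]
  exact integral_prod_symm _
    ((integrable_map_measure hf'.aestronglyMeasurable hm.aemeasurable).1 hf')

lemma slc_measurableSet : MeasurableSet {x : E | ∀ j, 0 ≤ ⟪w j, x⟫} := by
  have : {x : E | ∀ j, 0 ≤ ⟪w j, x⟫} = ⋂ j, {x : E | 0 ≤ ⟪w j, x⟫} := by
    ext x; simp
  rw [this]
  exact MeasurableSet.iInter fun j => measurableSet_le measurable_const (by fun_prop)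

lemma slice_prob (he : ‖e‖ = 1) (hb : ∀ j, 0 < ⟪w j, e⟫) :
    (stdGaussian E).real {x | ∀ j, 0 ≤ ⟪w j, x⟫} = ∫ y, Q (slc e w y) ∂stdGaussian E := by
  have hS := slc_measurableSet (w := w)
  rw [← integral_indicator_one hS, slc_fubini he (f := indicator {x : E | ∀ j, 0 ≤ ⟪w j, x⟫} 1)
      ((integrable_const (1 : ℝ)).indicator hS)]
  congr 1
  ext y
  rw [← g1_Ici, ← integral_indicator_one measurableSet_Ici]
  congr 1
  ext s
  by_cases h : slc e w y ≤ s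
  · rw [indicator_of_mem (show s ∈ Ici (slc e w y) from h),
      indicator_of_mem (show _ ∈ {x : E | ∀ j, 0 ≤ ⟪w j, x⟫} from (slc_mem hb s y).2 h)]
    rfl
  · rw [indicator_of_notMem (show s ∉ Ici (slc e w y) from h),
      indicator_of_notMem
        (show _ ∉ {x : E | ∀ j, 0 ≤ ⟪w j, x⟫} from fun h' => h ((slc_mem hb s y).1 h'))]

lemma slice_mom (he : ‖e‖ = 1) (hb : ∀ j, 0 < ⟪w j, e⟫) :
    ∫ x in {x | ∀ j, 0 ≤ ⟪w j, x⟫}, ⟪e, x⟫ ∂stdGaussian E =
      ∫ y, phi (slc e w y) ∂stdGaussian E := by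
  have hS := slc_measurableSet (w := w)
  rw [← integral_indicator hS, slc_fubini he ((integrable_inner_gauss e).indicator hS)]
  congr 1
  ext y
  rw [← g1_Ici_mom, ← integral_indicator measurableSet_Ici]
  congr 1
  ext s
  by_cases h : slc e w y ≤ s
  · rw [indicator_of_mem (show s ∈ Ici (slc e w y) from h),
      indicator_of_mem (show _ ∈ {x : E | ∀ j, 0 ≤ ⟪w j, x⟫} from (slc_mem hb s y).2 h)]
    rw [inner_add_right, inner_sub_right, real_inner_smul_right, real_inner_smul_right,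
      real_inner_self_eq_norm_sq, he]
    ring
  · rw [indicator_of_notMem (show s ∉ Ici (slc e w y) from h),
      indicator_of_notMem
        (show _ ∉ {x : E | ∀ j, 0 ≤ ⟪w j, x⟫} from fun h' => h ((slc_mem hb s y).1 h'))]

lemma slc_inf_integrable : Integrable (fun x : E => ⨅ j, ⟪w j, x⟫) (stdGaussian E) := by
  classical
  have hm : Measurable (fun x : E => ⨅ j, ⟪w j, x⟫) := Measurable.iInf fun j => by fun_prop
  have hi : Integrable (fun x : E => ∑ j, |⟪w j, x⟫|) (stdGaussian E) :=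
    integrable_finsetSum _ fun j _ => (integrable_inner_gauss (w j)).abs
  refine hi.mono' hm.aestronglyMeasurable (Eventually.of_forall fun x => ?_)
  obtain ⟨j, hj⟩ := exists_eq_ciInf_of_finite (f := fun j => ⟪w j, x⟫)
  rw [← hj, Real.norm_eq_abs]
  exact Finset.single_le_sum (f := fun j => |⟪w j, x⟫|) (fun j _ => abs_nonneg _)
    (Finset.mem_univ j)

lemma slice_gap (he : ‖e‖ = 1) {σ : ℝ} (hσ : 0 < σ) (hb : ∀ j, ⟪w j, e⟫ = σ) :
    ∫ x, max (⨅ j, ⟪w j, x⟫) 0 ∂stdGaussian E = σ * ∫ y, G (slc e w y) ∂stdGaussian E := by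
  have hb' : ∀ j, 0 < ⟪w j, e⟫ := fun j => (hb j).symm ▸ hσ
  rw [slc_fubini he (f := fun x => max (⨅ j, ⟪w j, x⟫) 0) (slc_inf_integrable (w := w)).pos_part,
    ← integral_const_mul]
  congr 1
  ext y
  rw [← g1_posPart, ← integral_const_mul]
  congr 1
  ext s
  have h1 : (⨅ j, ⟪w j, s • e + (y - ⟪e, y⟫ • e)⟫) = σ * (s - slc e w y) := by
    apply le_antisymm
    · obtain ⟨j, hj⟩ := exists_eq_ciSup_of_finite
        (f := fun j => -⟪w j - ⟪w j, e⟫ • e, y⟫ / ⟪w j, e⟫)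
      have h2 : slc e w y = -⟪w j - ⟪w j, e⟫ • e, y⟫ / ⟪w j, e⟫ := hj.symm
      refine (ciInf_le (Set.finite_range _).bddBelow j).trans (le_of_eq ?_)
      rw [slc_inner hb', h2]
      congr 1
      exact hb j
    · refine le_ciInf fun j => ?_
      rw [slc_inner hb']
      have h3 := slc_ge (e := e) (w := w) j y
      calc σ * (s - slc e w y) ≤ σ * (s - -⟪w j - ⟪w j, e⟫ • e, y⟫ / ⟪w j, e⟫) :=
            mul_le_mul_of_nonneg_left (by linarith) hσ.le
        _ = _ := by congr 1; exact (hb j).symm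
  rw [h1, mul_max_of_nonneg _ _ hσ.le, mul_zero]

end Crest.Agent.R215
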