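import Crest.Agent.R215.Cone3
import Crest.Agent.R215.Polar
import Crest.Agent.R215.Slice
import Crest.Agent.R215.Base

/-! Row 215: moment of a trihedral cone along its axis. -/

set_option autoImplicit false

namespace Crest.Agent.R215

open MeasureTheory ProbabilityTheory Set Filter Topology
open scoped RealInnerProductSpace NNReal

variable {E : Type*} [NormedAddCommGroup E] [InnerProductSpace ℝ E] [FiniteDimensional ℝ E]
  [MeasurableSpace E] [BorelSpace E]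

theorem cap3 (w1 w2 w3 : E) {A12 A13 A23 : ℝ} (h12 : 0 < A12) (h13 : 0 < A13) (h23 : 0 < A23)
    (hq : ∀ c1 c2 t : ℝ, A12 * (c1 - c2) ^ 2 + A13 * c1 ^ 2 + A23 * c2 ^ 2 ≤
      ‖c1 • w1 + c2 • w2 - t • (w1 + w2 + w3)‖ ^ 2)
    (hb1 : 0 < ⟪w1, w1 + w2 + w3⟫) (hb2 : 0 < ⟪w2, w1 + w2 + w3⟫) (hb3 : 0 < ⟪w3, w1 + w2 + w3⟫)
    {C : Set E} (hC : C = {x | 0 ≤ ⟪w1, x⟫ ∧ 0 ≤ ⟪w2, x⟫ ∧ 0 ≤ ⟪w3, x⟫}) :
    ∫ x in C, ⟪w1 + w2 + w3, x⟫ ∂stdGaussian E ≤ ‖w1 + w2 + w3‖ * (4 / Real.sqrt (2 * Real.pi) *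
      ((stdGaussian E).real C * (1 - (stdGaussian E).real C))) := by
  have hη : w1 + w2 + w3 ≠ 0 := by intro h; rw [h] at hb1; simp at hb1
  have he : 0 < e2 A12 A13 A23 := by unfold e2; positivity
  obtain ⟨n, f1, f2, b1, b2, ρ1, ρ21, ρ2, hn, hf1, hf2, hn1, hn2, hf12, hηn, hw1, hw2, -, -, -⟩ :=
    gs3 w1 w2 _ hη h12.le h13.le h23.le hq (Real.sqrt_pos.2 he) (Real.sq_sqrt he.le).le
  have hN0 : 0 < ‖w1 + w2 + w3‖ := norm_pos_iff.2 hη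
  obtain ⟨N, hN⟩ : ∃ N, N = ‖w1 + w2 + w3‖ := ⟨_, rfl⟩
  rw [← hN] at hηn hN0 ⊢
  rw [hηn] at hb1 hb2 hb3 ⊢
  rw [real_inner_smul_right] at hb1 hb2 hb3
  have hw3 : w3 = (N - b1 - b2) • n + -((ρ1 + ρ21) • f1 + ρ2 • f2) := by
    have : w3 = N • n - w1 - w2 := by rw [← hηn]; abel
    rw [this, hw1, hw2]; module
  have hnn : ⟪n, n⟫ = (1 : ℝ) := by rw [real_inner_self_eq_norm_sq, hn]; norm_num
  have h1n : ⟪f1, n⟫ = (0 : ℝ) := by rw [real_inner_comm]; exact hn1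
  have h2n : ⟪f2, n⟫ = (0 : ℝ) := by rw [real_inner_comm]; exact hn2
  have e1 : ⟪w1, n⟫ = b1 := by
    rw [hw1]; simp [inner_add_left, real_inner_smul_left, hn, h1n]
  have e2 : ⟪w2, n⟫ = b2 := by
    rw [hw2]; simp [inner_add_left, real_inner_smul_left, hn, h1n, h2n]
  have e3 : ⟪w3, n⟫ = N - b1 - b2 := by
    rw [hw3]; simp [inner_add_left, real_inner_smul_left, hn, h1n, h2n]
  let w : Fin 3 → E := ![w1, w2, w3]
  have hb : ∀ j, 0 < ⟪w j, n⟫ := by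
    intro j
    fin_cases j
    · exact (mul_pos_iff_of_pos_left hN0).1 hb1
    · exact (mul_pos_iff_of_pos_left hN0).1 hb2
    · exact (mul_pos_iff_of_pos_left hN0).1 hb3
  have hC' : C = {x | ∀ j, 0 ≤ ⟪w j, x⟫} := by
    rw [hC]; ext x; simp [w, Fin.forall_fin_succ]
  let a : ℝ × ℝ → ℝ := fun y => max (-(ρ1 * y.1) / b1) (max (-(ρ21 * y.1 + ρ2 * y.2) / b2)
    (((ρ1 + ρ21) * y.1 + ρ2 * y.2) / (N - b1 - b2)))
  have ha : Continuous a := by fun_prop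
  have hh : ∀ (r : ℝ) (y : ℝ × ℝ), 0 ≤ r → a (r • y) = r * a y := by
    intro r y hr
    simp only [a, mul_max_of_nonneg _ _ hr, Prod.smul_fst, Prod.smul_snd, smul_eq_mul]
    congr 1
    · ring
    · congr 1 <;> ring
  have hs : ∀ y, slc n w y = a (⟪f1, y⟫, ⟪f2, y⟫) := by
    intro y
    have k1 : w1 - b1 • n = ρ1 • f1 := by rw [hw1]; abel
    have k2 : w2 - b2 • n = ρ21 • f1 + ρ2 • f2 := by rw [hw2]; abel
    have k3 : w3 - (N - b1 - b2) • n = -((ρ1 + ρ21) • f1 + ρ2 • f2) := by rw [hw3]; abel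
    rw [slc, iSup_fin3]
    change max (-⟪w1 - ⟪w1, n⟫ • n, y⟫ / ⟪w1, n⟫) (max (-⟪w2 - ⟪w2, n⟫ • n, y⟫ / ⟪w2, n⟫)
      (-⟪w3 - ⟪w3, n⟫ • n, y⟫ / ⟪w3, n⟫)) = _
    rw [e1, e2, e3, k1, k2, k3]
    simp only [a, inner_neg_left, inner_add_left, real_inner_smul_left, neg_neg]
  have hm : Measurable (fun x : E => (⟪f1, x⟫, ⟪f2, x⟫)) := by fun_prop
  have t1 : ∫ y, Q (slc n w y) ∂stdGaussian E = ∫ y, Q (a y) ∂(g1.prod g1) := by
    rw [← map_two hf1 hf2 hf12, integral_map hm.aemeasurable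
      (continuous_Q.comp' ha).aestronglyMeasurable]
    simp only [hs]
  have t2 : ∫ y, phi (slc n w y) ∂stdGaussian E = ∫ y, phi (a y) ∂(g1.prod g1) := by
    rw [← map_two hf1 hf2 hf12, integral_map hm.aemeasurable
      (continuous_phi.comp' ha).aestronglyMeasurable]
    simp only [hs]
  simp only [real_inner_smul_left]
  rw [integral_const_mul, hC', slice_mom hn hb, slice_prob hn hb, t1, t2]
  exact mul_le_mul_of_nonneg_left (polar_cap ha hh) hN0.le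

end Crest.Agent.R215
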