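import Crest.Agent.R215.Split
import Crest.Agent.R215.Bath

/-! Row 215: Gaussian measure of a trihedral cone.
Plan for `gs3` (Gram–Schmidt): `n = η/‖η‖`, `P w = w - ⟪w,n⟫ n`, `ρ1 = ‖P w1‖`, `e1 = P w1/ρ1`, `ρ21 = ⟪w2,e1⟫`,
`r = P w2 - ρ21 e1`, `ρ2 = ‖r‖`, `e2 = r/ρ2`. Let `m = A12 + A13`; `m (A12+A23) - A12² = e2 A ≥ D² > 0`, so `m > 0`.
`hq 1 0 _` gives `m ≤ ρ1²`; `hq c 1 _` with `c = -ρ21/ρ1` gives `ρ2² ≥ A12 (c-1)² + A13 c² + A23 ≥ e2 A / m`.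
`map_three`: `map_split` along `n`, `Measure.map_map`, `Measure.map_prod_map`, `map_two`.
`cone3`: if `η = w1+w2+w3 = 0` the cone lies in the hyperplane `⟪w1,x⟫ = 0`, `w1 ≠ 0` (`hyperplane_null`). Otherwise
`w3 = η - w1 - w2`, the cone is the preimage under `map_three` of the set of `(s,y)` whose `s`-slice is the triangle of
`tri_area` with `βᵢ = bᵢ s`, `β1+β2+β3 = ‖η‖ s`; for `s ≤ 0` it has area `0`, for `s > 0` area `≤ s² H/(2D)`;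
`bathtub`, `integral_pb` (with `y = H/(2πD)`). -/

set_option autoImplicit false
set_option linter.unusedSectionVars false

namespace Crest.Agent.R215

open MeasureTheory ProbabilityTheory Set Filter Topology
open scoped RealInnerProductSpace NNReal

variable {E : Type*} [NormedAddCommGroup E] [InnerProductSpace ℝ E] [FiniteDimensional ℝ E]
  [MeasurableSpace E] [BorelSpace E]

lemma cone3_unit {v : E} (hv : v ≠ 0) : ‖(‖v‖⁻¹ • v : E)‖ = 1 := by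
  rw [norm_smul, norm_inv, norm_norm, inv_mul_cancel₀ (norm_ne_zero_iff.2 hv)]

lemma cone3_unit' {v : E} (hv : v ≠ 0) : v = ‖v‖ • (‖v‖⁻¹ • v : E) := by
  rw [smul_smul, mul_inv_cancel₀ (norm_ne_zero_iff.2 hv), one_smul]

lemma gs3 (w1 w2 η : E) (hη : η ≠ 0) {A12 A13 A23 D : ℝ} (h12 : 0 ≤ A12) (h13 : 0 ≤ A13)
    (h23 : 0 ≤ A23)
    (hq : ∀ c1 c2 t : ℝ, A12 * (c1 - c2) ^ 2 + A13 * c1 ^ 2 + A23 * c2 ^ 2 ≤
      ‖c1 • w1 + c2 • w2 - t • η‖ ^ 2)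
    (hD : 0 < D) (hD2 : D ^ 2 ≤ e2 A12 A13 A23) :
    ∃ (n f1 f2 : E) (b1 b2 ρ1 ρ21 ρ2 : ℝ), ‖n‖ = 1 ∧ ‖f1‖ = 1 ∧ ‖f2‖ = 1 ∧ ⟪n, f1⟫ = 0 ∧
      ⟪n, f2⟫ = 0 ∧ ⟪f1, f2⟫ = 0 ∧ η = ‖η‖ • n ∧ w1 = b1 • n + ρ1 • f1 ∧
      w2 = b2 • n + ρ21 • f1 + ρ2 • f2 ∧ 0 < ρ1 ∧ 0 < ρ2 ∧ D ≤ ρ1 * ρ2 := by
  unfold e2 at hD2
  obtain ⟨n, hn, hn1⟩ : ∃ n : E, n = ‖η‖⁻¹ • η ∧ ‖n‖ = 1 := ⟨_, rfl, cone3_unit hη⟩
  have hηn : η = ‖η‖ • n := by rw [hn]; exact cone3_unit' hη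
  have hnn : ⟪n, n⟫ = (1 : ℝ) := by rw [real_inner_self_eq_norm_sq, hn1]; norm_num
  have hq' : ∀ c1 c2 t : ℝ, A12 * (c1 - c2) ^ 2 + A13 * c1 ^ 2 + A23 * c2 ^ 2 ≤
      ‖c1 • w1 + c2 • w2 - t • n‖ ^ 2 := by
    intro c1 c2 t
    have := hq c1 c2 (t * ‖η‖⁻¹)
    rwa [mul_smul, ← hn] at this
  have hD3 : 0 < D ^ 2 := by positivity
  have hm : 0 < A12 + A13 := by
    by_contra hcon
    have e1 : A12 = 0 := by linarith
    have e2 : A13 = 0 := by linarith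
    rw [e1, e2] at hD2
    linarith
  obtain ⟨b1, hb1⟩ : ∃ b, b = ⟪n, w1⟫ := ⟨_, rfl⟩
  obtain ⟨b2, hb2⟩ : ∃ b, b = ⟪n, w2⟫ := ⟨_, rfl⟩
  obtain ⟨p1, hp1⟩ : ∃ p, p = w1 - b1 • n := ⟨_, rfl⟩
  have hρ1 : A12 + A13 ≤ ‖p1‖ ^ 2 := by
    have := hq' 1 0 b1
    simp only [one_smul, zero_smul, add_zero, sub_zero, one_pow, mul_one, ne_eq,
      OfNat.ofNat_ne_zero, not_false_eq_true, zero_pow, mul_zero] at this
    rwa [hp1]
  have hp0 : p1 ≠ 0 := by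
    intro h; rw [h, norm_zero] at hρ1; linarith
  have hρ1p : 0 < ‖p1‖ := norm_pos_iff.2 hp0
  obtain ⟨f1, hf1, hf11⟩ : ∃ f : E, f = ‖p1‖⁻¹ • p1 ∧ ‖f‖ = 1 := ⟨_, rfl, cone3_unit hp0⟩
  have hp1f : p1 = ‖p1‖ • f1 := by rw [hf1]; exact cone3_unit' hp0
  have hff : ⟪f1, f1⟫ = (1 : ℝ) := by rw [real_inner_self_eq_norm_sq, hf11]; norm_num
  have hnf1 : ⟪n, f1⟫ = (0 : ℝ) := by
    rw [hf1, real_inner_smul_right, hp1, inner_sub_right, real_inner_smul_right, hnn, ← hb1]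
    ring
  have hf1n : ⟪f1, n⟫ = (0 : ℝ) := by rw [real_inner_comm]; exact hnf1
  obtain ⟨ρ21, hρ21⟩ : ∃ b, b = ⟪f1, w2⟫ := ⟨_, rfl⟩
  obtain ⟨r, hr⟩ : ∃ p, p = w2 - b2 • n - ρ21 • f1 := ⟨_, rfl⟩
  obtain ⟨c, hc⟩ : ∃ c, c = -ρ21 / ‖p1‖ := ⟨_, rfl⟩
  have hw1 : w1 = b1 • n + ‖p1‖ • f1 := by rw [← hp1f, hp1]; abel
  have hrc : r = c • w1 + (1 : ℝ) • w2 - (c * b1 + b2) • n := by
    have : c * ‖p1‖ = -ρ21 := by rw [hc]; field_simp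
    conv_rhs => rw [hw1, smul_add, smul_smul, smul_smul, this]
    rw [hr]
    module
  have hρ2 : A12 * (c - 1) ^ 2 + A13 * c ^ 2 + A23 * 1 ^ 2 ≤ ‖r‖ ^ 2 := by
    rw [hrc]; exact hq' c 1 _
  have hkey : D ^ 2 ≤ (A12 + A13) * ‖r‖ ^ 2 := by
    have e1 : (A12 + A13) * (A12 * (c - 1) ^ 2 + A13 * c ^ 2 + A23 * 1 ^ 2) =
        (A12 * A13 + A12 * A23 + A13 * A23) + ((A12 + A13) * c - A12) ^ 2 := by ring
    have e2 := mul_le_mul_of_nonneg_left hρ2 hm.le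
    nlinarith [sq_nonneg ((A12 + A13) * c - A12)]
  have hr0 : r ≠ 0 := by
    intro h; rw [h, norm_zero] at hkey; nlinarith
  have hrp : 0 < ‖r‖ := norm_pos_iff.2 hr0
  obtain ⟨f2, hf2, hf21⟩ : ∃ f : E, f = ‖r‖⁻¹ • r ∧ ‖f‖ = 1 := ⟨_, rfl, cone3_unit hr0⟩
  have hrf : r = ‖r‖ • f2 := by rw [hf2]; exact cone3_unit' hr0
  refine ⟨n, f1, f2, b1, b2, ‖p1‖, ρ21, ‖r‖, hn1, hf11, hf21, hnf1, ?_, ?_, hηn, hw1, ?_, hρ1p,
    hrp, ?_⟩
  · rw [hf2, real_inner_smul_right, hr, inner_sub_right, inner_sub_right, real_inner_smul_right,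
      real_inner_smul_right, hnn, hnf1, ← hb2]
    ring
  · rw [hf2, real_inner_smul_right, hr, inner_sub_right, inner_sub_right, real_inner_smul_right,
      real_inner_smul_right, hff, hf1n, ← hρ21]
    ring
  · rw [← hrf, hr]; abel
  · refine le_of_sq_le_sq ?_ (by positivity)
    rw [mul_pow]
    exact hkey.trans (mul_le_mul_of_nonneg_right hρ1 (sq_nonneg _))

lemma map_three {n f1 f2 : E} (hn : ‖n‖ = 1) (h1 : ‖f1‖ = 1) (h2 : ‖f2‖ = 1) (hn1 : ⟪n, f1⟫ = 0)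
    (hn2 : ⟪n, f2⟫ = 0) (h12 : ⟪f1, f2⟫ = 0) :
    (stdGaussian E).map (fun x => (⟪n, x⟫, (⟪f1, x⟫, ⟪f2, x⟫))) = g1.prod (g1.prod g1) := by
  have hm : Measurable (fun q : ℝ × E => q.1 • n + (q.2 - ⟪n, q.2⟫ • n)) := by fun_prop
  have hm2 : Measurable (fun x : E => (⟪n, x⟫, (⟪f1, x⟫, ⟪f2, x⟫))) := by fun_prop
  conv_lhs => rw [← map_split hn]
  rw [Measure.map_map hm2 hm]
  have h1n : ⟪f1, n⟫ = (0 : ℝ) := by rw [real_inner_comm]; exact hn1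
  have h2n : ⟪f2, n⟫ = (0 : ℝ) := by rw [real_inner_comm]; exact hn2
  have : ((fun x : E => (⟪n, x⟫, (⟪f1, x⟫, ⟪f2, x⟫))) ∘
      (fun q : ℝ × E => q.1 • n + (q.2 - ⟪n, q.2⟫ • n))) =
      Prod.map id (fun x : E => (⟪f1, x⟫, ⟪f2, x⟫)) := by
    ext q
    · simp [inner_add_right, inner_sub_right, real_inner_smul_right, hn]
    · simp [inner_add_right, inner_sub_right, real_inner_smul_right, h1n]
    · simp [inner_add_right, inner_sub_right, real_inner_smul_right, h2n]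
  rw [this, ← Measure.map_prod_map _ _ measurable_id (by fun_prop), Measure.map_id,
    map_two h1 h2 h12]

theorem cone3 (w1 w2 w3 : E) {A12 A13 A23 D H : ℝ} (h12 : 0 ≤ A12) (h13 : 0 ≤ A13)
    (h23 : 0 ≤ A23)
    (hq : ∀ c1 c2 t : ℝ, A12 * (c1 - c2) ^ 2 + A13 * c1 ^ 2 + A23 * c2 ^ 2 ≤
      ‖c1 • w1 + c2 • w2 - t • (w1 + w2 + w3)‖ ^ 2)
    (hD : 0 < D) (hD2 : D ^ 2 ≤ e2 A12 A13 A23) (hH : ‖w1 + w2 + w3‖ ^ 2 ≤ H) :
    (stdGaussian E).real {x | 0 ≤ ⟪w1, x⟫ ∧ 0 ≤ ⟪w2, x⟫ ∧ 0 ≤ ⟪w3, x⟫} ≤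
      pb (H / (2 * Real.pi * D)) := by
  have hpi := Real.pi_pos
  have hH0 : 0 ≤ H := (sq_nonneg _).trans hH
  have hy0 : 0 ≤ H / (2 * Real.pi * D) := by positivity
  by_cases hη : w1 + w2 + w3 = 0
  · have hw1 : w1 ≠ 0 := by
      intro h
      have h1 := hq 1 0 0
      simp only [h, smul_zero, zero_smul, add_zero, sub_zero, one_pow, mul_one, ne_eq,
        OfNat.ofNat_ne_zero, not_false_eq_true, zero_pow, mul_zero, norm_zero] at h1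
      have e1 : A12 = 0 := by linarith
      have e3 : A13 = 0 := by linarith
      unfold e2 at hD2
      rw [e1, e3] at hD2
      nlinarith
    have hsub : {x | 0 ≤ ⟪w1, x⟫ ∧ 0 ≤ ⟪w2, x⟫ ∧ 0 ≤ ⟪w3, x⟫} ⊆ {x | ⟪w1, x⟫ = 0} := by
      rintro x ⟨a1, a2, a3⟩
      have : ⟪w1 + w2 + w3, x⟫ = (0 : ℝ) := by rw [hη, inner_zero_left]
      rw [inner_add_left, inner_add_left] at this
      change ⟪w1, x⟫ = 0
      linarith
    have h0 := measure_mono_null hsub (hyperplane_null hw1)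
    rw [Measure.real, h0, ENNReal.toReal_zero]
    exact pb_nonneg hy0
  obtain ⟨n, f1, f2, b1, b2, ρ1, ρ21, ρ2, hn, hf1, hf2, hn1, hn2, hf12, hηn, hw1, hw2, hρ1, hρ2,
    hDρ⟩ := gs3 w1 w2 _ hη h12 h13 h23 hq hD hD2
  obtain ⟨N, hN⟩ : ∃ N, N = ‖w1 + w2 + w3‖ := ⟨_, rfl⟩
  rw [← hN] at hηn hH
  have hN0 : 0 ≤ N := hN ▸ norm_nonneg _
  have hm2 : Measurable (fun x : E => (⟪n, x⟫, (⟪f1, x⟫, ⟪f2, x⟫))) := by fun_prop
  set T : Set (ℝ × (ℝ × ℝ)) := {q | 0 ≤ b1 * q.1 + ρ1 * q.2.1 ∧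
    0 ≤ b2 * q.1 + ρ21 * q.2.1 + ρ2 * q.2.2 ∧
    0 ≤ (N - b1 - b2) * q.1 - (ρ1 + ρ21) * q.2.1 - ρ2 * q.2.2} with hT
  have hTm : MeasurableSet T := by
    have m1 : MeasurableSet {q : ℝ × (ℝ × ℝ) | 0 ≤ b1 * q.1 + ρ1 * q.2.1} :=
      measurableSet_le measurable_const (by fun_prop)
    have m2 : MeasurableSet {q : ℝ × (ℝ × ℝ) | 0 ≤ b2 * q.1 + ρ21 * q.2.1 + ρ2 * q.2.2} :=
      measurableSet_le measurable_const (by fun_prop)
    have m3 : MeasurableSet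
        {q : ℝ × (ℝ × ℝ) | 0 ≤ (N - b1 - b2) * q.1 - (ρ1 + ρ21) * q.2.1 - ρ2 * q.2.2} :=
      measurableSet_le measurable_const (by fun_prop)
    exact m1.inter (m2.inter m3)
  have hpre : {x | 0 ≤ ⟪w1, x⟫ ∧ 0 ≤ ⟪w2, x⟫ ∧ 0 ≤ ⟪w3, x⟫} =
      (fun x : E => (⟪n, x⟫, (⟪f1, x⟫, ⟪f2, x⟫))) ⁻¹' T := by
    ext x
    have e1 : ⟪w1, x⟫ = b1 * ⟪n, x⟫ + ρ1 * ⟪f1, x⟫ := by
      rw [hw1, inner_add_left, real_inner_smul_left, real_inner_smul_left]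
    have e2 : ⟪w2, x⟫ = b2 * ⟪n, x⟫ + ρ21 * ⟪f1, x⟫ + ρ2 * ⟪f2, x⟫ := by
      rw [hw2, inner_add_left, inner_add_left, real_inner_smul_left, real_inner_smul_left,
        real_inner_smul_left]
    have e4 : ⟪w1 + w2 + w3, x⟫ = N * ⟪n, x⟫ := by rw [hηn, real_inner_smul_left]
    rw [inner_add_left, inner_add_left] at e4
    have e3 : ⟪w3, x⟫ = (N - b1 - b2) * ⟪n, x⟫ - (ρ1 + ρ21) * ⟪f1, x⟫ - ρ2 * ⟪f2, x⟫ := by
      linarith
    simp only [mem_setOf_eq, mem_preimage, hT, e1, e2, e3]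
  rw [hpre, ← map_measureReal_apply hm2 hTm, map_three hn hf1 hf2 hn1 hn2 hf12,
    ← integral_indicator_one hTm,
    integral_prod (T.indicator 1) ((integrable_const (1 : ℝ)).indicator hTm),
    ← integral_pb hy0, ← integral_indicator measurableSet_Ioi]
  have hc : Continuous (fun s : ℝ => 1 - Real.exp (-(H / (2 * Real.pi * D) * s ^ 2) / 2)) := by
    fun_prop
  refine integral_mono_of_nonneg (Eventually.of_forall fun s => ?_) ?_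
    (Eventually.of_forall fun s => ?_)
  · exact integral_nonneg fun y => indicator_nonneg (fun _ _ => zero_le_one) _
  · refine Integrable.indicator ?_ measurableSet_Ioi
    refine (integrable_const (1 : ℝ)).mono' hc.aestronglyMeasurable
      (Eventually.of_forall fun s => ?_)
    have a1 := Real.exp_pos (-(H / (2 * Real.pi * D) * s ^ 2) / 2)
    have a2 : Real.exp (-(H / (2 * Real.pi * D) * s ^ 2) / 2) ≤ 1 := by
      rw [Real.exp_le_one_iff]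
      have : 0 ≤ H / (2 * Real.pi * D) * s ^ 2 := by positivity
      linarith
    rw [Real.norm_eq_abs, abs_le]
    constructor <;> linarith
  · have hsm : MeasurableSet (Prod.mk s ⁻¹' T) := measurable_prodMk_left hTm
    have e1 : ∫ y, T.indicator (1 : ℝ × (ℝ × ℝ) → ℝ) (s, y) ∂(g1.prod g1) =
        (g1.prod g1).real (Prod.mk s ⁻¹' T) := by
      rw [← integral_indicator_one hsm]
      rfl
    simp only
    rw [e1]
    have ha := tri_area (b1 * s) (b2 * s) ((N - b1 - b2) * s) ρ1 ρ21 ρ2 hρ1 hρ2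
    have e2 : b1 * s + b2 * s + (N - b1 - b2) * s = N * s := by ring
    rw [e2] at ha
    by_cases hs : s ∈ Ioi (0 : ℝ)
    · rw [indicator_of_mem hs]
      have hs0 : 0 < s := hs
      have hb := bathtub hsm (S := H * s ^ 2 / (2 * D)) (by positivity) (ha.trans ?_)
      · refine hb.trans (le_of_eq ?_)
        congr 2
        field_simp
      · apply ENNReal.ofReal_le_ofReal
        rw [max_eq_left (by positivity), mul_pow]
        exact div_le_div₀ (by positivity) (mul_le_mul_of_nonneg_right hH (sq_nonneg _))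
          (by positivity) (by linarith)
    · rw [indicator_of_notMem hs]
      have hs0 : s ≤ 0 := not_lt.1 hs
      have hb := bathtub hsm (S := 0) le_rfl (ha.trans ?_)
      · simpa using hb
      · rw [max_eq_right (mul_nonpos_of_nonneg_of_nonpos hN0 hs0)]
        simp

end Crest.Agent.R215
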