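import Crest.Agent.R215.G1a

/-! Row 215: Gaussian integrals on the line, the function `G`, Mills-ratio inequalities.
Plan: `g1_Ici` from `gaussianReal_apply_eq_integral` and evenness; `∫_{Ici a} s phi s = phi a` by
`integral_Ioi_of_hasDerivAt_of_tendsto` (antiderivative `-phi`). `G' = -Q`, `G → 0` at `+∞`
(`0 ≤ a Q a ≤ phi a` for `a ≥ 0` because `G a = ∫ max (s-a) 0 ≥ 0`).
`mills`: `K a = Q a - a G a = (1+a²) Q a - a phi a` has derivative `-2 G a ≤ 0` and tends to `0`
(`0 ≤ a G a ≤ a phi a → 0`), so `K ≥ 0`; `D = Q² - phi G` has `D' = phi (a G - Q) ≤ 0` and `D → 0`. -/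

set_option autoImplicit false

namespace Crest.Agent.R215

open MeasureTheory ProbabilityTheory Set Filter Topology
open scoped RealInnerProductSpace NNReal

lemma Q_eq_Ioi (a : ℝ) : Q a = ∫ t in Ioi a, phi t := by
  unfold Q Phi
  have := integral_comp_neg_Ioi a phi
  simp only [phi_neg] at this
  exact this.symm

lemma setIntegral_g1 {s : Set ℝ} (hs : MeasurableSet s) (f : ℝ → ℝ) :
    ∫ x in s, f x ∂g1 = ∫ x in s, phi x * f x := by
  rw [← integral_indicator hs, integral_g1, ← integral_indicator hs]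
  congr 1
  funext x
  by_cases hx : x ∈ s <;> simp [hx]

lemma g1_Ici (a : ℝ) : g1.real (Ici a) = Q a := by
  have h := setIntegral_g1 (measurableSet_Ici (a := a)) (fun _ => (1 : ℝ))
  simp only [integral_const, smul_eq_mul, mul_one, MeasurableSet.univ, measureReal_restrict_apply,
    univ_inter] at h
  rw [h, Q_eq_Ioi, integral_Ici_eq_integral_Ioi]

lemma tendsto_phi_atTop : Tendsto phi atTop (𝓝 0) := by
  have h1 : Tendsto (fun x : ℝ => -x ^ 2 / 2) atTop atBot := by
    have := (tendsto_pow_atTop (α := ℝ) (n := 2) two_ne_zero)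
    have h2 := tendsto_neg_atTop_atBot.comp this
    exact h2.atBot_div_const (by norm_num)
  have := (Real.tendsto_exp_atBot.comp h1).div_const (Real.sqrt (2 * Real.pi))
  rw [zero_div] at this
  exact this

lemma integrable_id_g1 : Integrable (fun x : ℝ => x) g1 :=
  memLp_one_iff_integrable.1 (memLp_id_gaussianReal 1)

lemma integrable_phi_mul_id : Integrable (fun x : ℝ => phi x * x) := by
  have := integrable_mul_exp_neg_mul_sq (b := 1 / 2) (by norm_num)
  refine (this.div_const (Real.sqrt (2 * Real.pi))).congr (Eventually.of_forall fun x => ?_)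
  simp only [phi]
  rw [show -(1 / 2 : ℝ) * x ^ 2 = -x ^ 2 / 2 by ring]
  ring

lemma integral_Ioi_phi_mul (a : ℝ) : ∫ s in Ioi a, phi s * s = phi a := by
  have h := integral_Ioi_of_hasDerivAt_of_tendsto (f := fun x => -phi x)
    (f' := fun x => phi x * x) (a := a) (m := -0) continuous_phi.neg.continuousWithinAt
    (fun x _ => (hasDerivAt_phi x).neg.congr_deriv (by ring)) integrable_phi_mul_id.integrableOn
    tendsto_phi_atTop.neg
  simpa using h

lemma g1_Ici_mom (a : ℝ) : ∫ s in Ici a, s ∂g1 = phi a := by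
  rw [setIntegral_g1 measurableSet_Ici, integral_Ici_eq_integral_Ioi, integral_Ioi_phi_mul]

lemma integrable_posPart (a : ℝ) : Integrable (fun s => max (s - a) 0) g1 :=
  (integrable_id_g1.sub (integrable_const a)).pos_part

lemma g1_posPart (a : ℝ) : ∫ s, max (s - a) 0 ∂g1 = G a := by
  have h1 : (fun s : ℝ => max (s - a) 0) = (Ici a).indicator (fun s => s - a) := by
    funext s
    by_cases hs : a ≤ s
    · simp [indicator, hs]
    · simp only [indicator, mem_Ici, hs, if_false]
      exact max_eq_right (by linarith [not_le.1 hs])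
  rw [h1, integral_indicator measurableSet_Ici,
    integral_sub integrable_id_g1.integrableOn (integrable_const a), g1_Ici_mom]
  simp only [integral_const, MeasurableSet.univ, measureReal_restrict_apply, univ_inter,
    smul_eq_mul]
  rw [g1_Ici]
  unfold G
  ring

lemma G_nonneg (a : ℝ) : 0 ≤ G a := by
  rw [← g1_posPart]
  exact integral_nonneg fun s => le_max_right _ _

lemma hasDerivAt_G (a : ℝ) : HasDerivAt G (-Q a) a := by
  have := (hasDerivAt_phi a).sub ((hasDerivAt_id a).mul (hasDerivAt_Q a))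
  refine this.congr_deriv ?_
  simp only [id]
  ring

lemma strictAnti_G : StrictAnti G :=
  strictAnti_of_deriv_neg fun x => by
    rw [(hasDerivAt_G x).deriv]; linarith [Q_pos x]

lemma G_pos (a : ℝ) : 0 < G a :=
  lt_of_le_of_lt (G_nonneg (a + 1)) (strictAnti_G (by linarith))
lemma G_zero : G 0 = 1 / Real.sqrt (2 * Real.pi) := by simp [G, phi_zero]

lemma phi_le_one (x : ℝ) : phi x ≤ 1 := by
  refine (phi_le x).trans ?_
  rw [div_le_one sqrt_two_pi_pos]
  apply Real.one_le_sqrt.2
  linarith [Real.pi_gt_three]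

lemma G_le (a : ℝ) : G a ≤ 1 + |a| := by
  unfold G
  have h1 := phi_le_one a
  have h2 := Q_pos a
  have h3 := Q_lt_one a
  have h4 : -a ≤ |a| := neg_le_abs a
  have h5 := abs_nonneg a
  nlinarith
lemma continuous_G : Continuous G :=
  continuous_iff_continuousAt.2 fun x => (hasDerivAt_G x).continuousAt

lemma G_le_phi {a : ℝ} (ha : 0 ≤ a) : G a ≤ phi a := by
  unfold G
  nlinarith [Q_pos a]

lemma tendsto_G_atTop : Tendsto G atTop (𝓝 0) := by
  refine tendsto_of_tendsto_of_tendsto_of_le_of_le' tendsto_const_nhds tendsto_phi_atTop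
    (Eventually.of_forall G_nonneg) ?_
  filter_upwards [eventually_ge_atTop 0] with a ha using G_le_phi ha

lemma hasDerivAt_G_shift (a s : ℝ) (hs : 0 < s) (t : ℝ) :
    HasDerivAt (fun t => -G (a + s * t) / s) (Q (a + s * t)) t := by
  have h1 : HasDerivAt (fun t => a + s * t) s t := by
    simpa using ((hasDerivAt_id t).const_mul s).const_add a
  have := (((hasDerivAt_G (a + s * t)).comp t h1).neg).div_const s
  refine this.congr_deriv ?_
  field_simp

lemma tendsto_G_shift (a s : ℝ) (hs : 0 < s) :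
    Tendsto (fun t => -G (a + s * t) / s) atTop (𝓝 0) := by
  have h1 : Tendsto (fun t : ℝ => a + s * t) atTop atTop :=
    tendsto_atTop_add_const_left _ _ (tendsto_id.const_mul_atTop hs)
  have := ((tendsto_G_atTop.comp h1).neg).div_const s
  simpa using this

lemma integrableOn_Q_shift (a s : ℝ) (hs : 0 < s) :
    IntegrableOn (fun t => Q (a + s * t)) (Ioi 0) :=
  integrableOn_Ioi_deriv_of_nonneg' (fun t _ => hasDerivAt_G_shift a s hs t)
    (fun t _ => (Q_pos _).le) (tendsto_G_shift a s hs)

lemma integral_Q_shift (a s : ℝ) (hs : 0 < s) : ∫ t in Ioi (0 : ℝ), Q (a + s * t) = G a / s := by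
  have := integral_Ioi_of_hasDerivAt_of_nonneg' (a := 0) (fun t _ => hasDerivAt_G_shift a s hs t)
    (fun t _ => (Q_pos _).le) (tendsto_G_shift a s hs)
  rw [this]
  simp only [mul_zero, add_zero]
  ring

lemma tendsto_mul_phi_atTop : Tendsto (fun a => a * phi a) atTop (𝓝 0) := by
  have h := tendsto_rpow_abs_mul_exp_neg_mul_sq_cocompact (a := 1 / 2) (by norm_num) 1
  have h2 := (h.mono_left atTop_le_cocompact).div_const (Real.sqrt (2 * Real.pi))
  rw [zero_div] at h2
  refine h2.congr' ?_
  filter_upwards [eventually_ge_atTop 0] with a ha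
  simp only [phi, Real.rpow_one, abs_of_nonneg ha]
  rw [show -(1 / 2 : ℝ) * a ^ 2 = -a ^ 2 / 2 by ring]
  ring

/-- an antitone function with limit `0` is nonnegative -/
lemma nonneg_of_deriv_nonpos {f f' : ℝ → ℝ} (hf : ∀ x, HasDerivAt f (f' x) x)
    (h0 : ∀ x, f' x ≤ 0) (hl : Tendsto f atTop (𝓝 0)) (a : ℝ) : 0 ≤ f a := by
  have ha : Antitone f := antitone_of_deriv_nonpos (fun x => (hf x).differentiableAt)
    fun x => by rw [(hf x).deriv]; exact h0 x
  exact ha.le_of_tendsto hl a

lemma mul_G_le_Q (a : ℝ) : a * G a ≤ Q a := by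
  have hd : ∀ x, HasDerivAt (fun x => Q x - x * G x) (-2 * G x) x := fun x => by
    have := (hasDerivAt_Q x).sub ((hasDerivAt_id x).mul (hasDerivAt_G x))
    refine this.congr_deriv ?_
    simp only [id, G]
    ring
  have hl1 : Tendsto (fun x => x * G x) atTop (𝓝 0) := by
    refine tendsto_of_tendsto_of_tendsto_of_le_of_le' tendsto_const_nhds tendsto_mul_phi_atTop
      ?_ ?_
    · filter_upwards [eventually_ge_atTop 0] with a ha using mul_nonneg ha (G_nonneg a)
    · filter_upwards [eventually_ge_atTop 0] with a ha using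
        mul_le_mul_of_nonneg_left (G_le_phi ha) ha
  have hl : Tendsto (fun x => Q x - x * G x) atTop (𝓝 0) := by
    simpa using tendsto_Q_atTop.sub hl1
  have := nonneg_of_deriv_nonpos hd (fun x => by linarith [G_nonneg x]) hl a
  linarith

/-- log-concavity inequality `phi G ≤ Q²` -/
lemma mills (a : ℝ) : phi a * G a ≤ Q a ^ 2 := by
  have hd : ∀ x, HasDerivAt (fun x => Q x ^ 2 - phi x * G x) (phi x * (x * G x - Q x)) x :=
    fun x => by
    have := ((hasDerivAt_Q x).pow 2).sub ((hasDerivAt_phi x).mul (hasDerivAt_G x))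
    refine this.congr_deriv ?_
    simp
    ring
  have hl : Tendsto (fun x => Q x ^ 2 - phi x * G x) atTop (𝓝 0) := by
    simpa using (tendsto_Q_atTop.pow 2).sub (tendsto_phi_atTop.mul tendsto_G_atTop)
  have := nonneg_of_deriv_nonpos hd
    (fun x => mul_nonpos_of_nonneg_of_nonpos (phi_pos x).le (by linarith [mul_G_le_Q x])) hl a
  linarith

lemma phi_antitoneOn : AntitoneOn phi (Ici 0) := by
  intro a ha b _ hab
  unfold phi
  apply div_le_div_of_nonneg_right _ sqrt_two_pi_pos.le
  apply Real.exp_le_exp.2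
  have : 0 ≤ a := ha
  nlinarith

/-- `J a = phi a * G a` is decreasing on `[0, ∞)` -/
lemma J_antitoneOn : AntitoneOn (fun a => phi a * G a) (Ici 0) := by
  intro a ha b hb hab
  exact mul_le_mul (phi_antitoneOn ha hb hab) (strictAnti_G.antitone hab) (G_nonneg _)
    (phi_pos _).le

lemma abs_mul_phi_le (x : ℝ) : |x * phi x| ≤ 1 := by
  have h1 : |x| ≤ Real.exp (x ^ 2 / 2) := by
    have := Real.add_one_le_exp (x ^ 2 / 2)
    nlinarith [sq_nonneg (|x| - 1), sq_abs x]
  have h2 : phi x ≤ Real.exp (-x ^ 2 / 2) := by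
    unfold phi
    apply div_le_self (Real.exp_pos _).le
    apply Real.one_le_sqrt.2
    linarith [Real.pi_gt_three]
  rw [abs_mul, abs_of_pos (phi_pos x)]
  calc |x| * phi x ≤ Real.exp (x ^ 2 / 2) * Real.exp (-x ^ 2 / 2) :=
        mul_le_mul h1 h2 (phi_pos x).le (Real.exp_pos _).le
    _ = 1 := by rw [← Real.exp_add]; simp [neg_div]

lemma abs_phi_sub_le (x y : ℝ) : |phi x - phi y| ≤ |x - y| := by
  have := Convex.norm_image_sub_le_of_norm_hasDerivWithin_le (f := phi)
    (f' := fun x => -x * phi x) (s := univ) (C := 1) (x := y) (y := x)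
    (fun x _ => (hasDerivAt_phi x).hasDerivWithinAt)
    (fun x _ => by
      rw [Real.norm_eq_abs, neg_mul, abs_neg]; exact abs_mul_phi_le x) convex_univ
    (mem_univ _) (mem_univ _)
  simpa [Real.norm_eq_abs] using this

/-- second order Taylor bound -/
lemma Q_add_le (a t : ℝ) : Q (a + t) ≤ Q a - t * phi a + t ^ 2 := by
  have hd : ∀ s, HasDerivAt (fun s => Q (a + s) + s * phi a) (phi a - phi (a + s)) s := fun s => by
    have h1 := (hasDerivAt_Q (a + s)).comp s ((hasDerivAt_id s).const_add a)
    have := h1.add ((hasDerivAt_id s).mul_const (phi a))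
    refine this.congr_deriv ?_
    ring
  have := Convex.norm_image_sub_le_of_norm_hasDerivWithin_le
    (f := fun s => Q (a + s) + s * phi a) (f' := fun s => phi a - phi (a + s))
    (s := Icc (-|t|) |t|) (C := |t|) (x := 0) (y := t)
    (fun x _ => (hd x).hasDerivWithinAt)
    (fun x hx => by
      rw [Real.norm_eq_abs]
      refine (abs_phi_sub_le _ _).trans ?_
      rw [show a - (a + x) = -x by ring, abs_neg]
      exact abs_le.2 hx) (convex_Icc _ _)
    ⟨by linarith [abs_nonneg t], abs_nonneg t⟩ ⟨neg_abs_le t, le_abs_self t⟩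
  simp only [add_zero, zero_mul, sub_zero, Real.norm_eq_abs] at this
  have h2 := (abs_le.1 this).2
  rw [← sq, sq_abs] at h2
  linarith

lemma cc_pos : 0 < cc := by
  unfold cc
  have := sqrt_two_pi_pos
  positivity
lemma cc_sq : cc ^ 2 = 9 / (8 * Real.pi) := by
  unfold cc
  rw [div_pow, mul_pow, Real.sq_sqrt (by positivity)]
  ring

end Crest.Agent.R215
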