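import Crest.Agent.R215.BorellN
import Crest.Agent.R215.G1b

/-! Row 215: the consequence of Ehrhard's inequality that is used.
Plan: `U t = Eh γ (fun y => -a y - t)`, so `Phi (U t) = ∫ Q (a y + t)`, `U 0 = -a0`. `borell` with
`V1 = -a - t`, `V0 = -a`, `V = -a - αt` gives `α U t + (1-α) U 0 ≤ U (αt)`. Let `m = ∫ phi (a y) > 0`.
`Q_add_le` gives `Phi (U s) ≤ Q a0 - s m + s²`. If `U t > -a0 - (m / phi a0) t` put `ρ = (U t + a0)/t > -m/phi a0`;
then `Phi (-a0 + ρ s) ≤ Phi (U s) ≤ Phi (-a0) - s m + s²` for `0 < s < t`; compare derivatives at `s = 0⁺`: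
`ρ phi a0 ≤ -m`, contradiction. Hence `∫ Q (a y + t) ≤ Q (a0 + (m/phi a0) t)` (`ehrhard_line`). Integrate over
`t > 0` (Fubini, `integral_Q_shift`; integrability: `G (a y) ≤ 1 + |a y| ≤ C (1 + ‖y‖)`, `IsGaussian.integrable_id`). -/

set_option autoImplicit false

namespace Crest.Agent.R215

open MeasureTheory ProbabilityTheory Set Filter Topology
open scoped RealInnerProductSpace NNReal

variable {E : Type*} [NormedAddCommGroup E] [InnerProductSpace ℝ E] [FiniteDimensional ℝ E]
  [MeasurableSpace E] [BorelSpace E]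

lemma jineq_integrable_Q {a : E → ℝ} (ha : Measurable a) :
    Integrable (fun y => Q (a y)) (stdGaussian E) :=
  integrable_Phi_comp (stdGaussian E) (V := fun y => -a y) ha.neg

lemma jineq_integrable_phi {a : E → ℝ} (ha : Measurable a) :
    Integrable (fun y => phi (a y)) (stdGaussian E) := by
  refine Integrable.of_bound (continuous_phi.measurable.comp ha).aestronglyMeasurable
    (1 / Real.sqrt (2 * Real.pi)) (ae_of_all _ fun ω => ?_)
  rw [Real.norm_eq_abs, abs_of_pos (phi_pos _)]
  exact phi_le _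

lemma jineq_integral_phi_pos {a : E → ℝ} (ha : Measurable a) :
    0 < ∫ y, phi (a y) ∂stdGaussian E := by
  rw [integral_pos_iff_support_of_nonneg (fun y => (phi_pos (a y)).le) (jineq_integrable_phi ha)]
  have : Function.support (fun y => phi (a y)) = univ := by
    ext y
    simp [(phi_pos (a y)).ne']
  rw [this]
  simp

lemma jineq_lip {L : ℝ≥0} {a : E → ℝ} (hL : LipschitzWith L a) (t : ℝ) :
    LipschitzWith L (fun y => -(a y + t)) := by
  refine LipschitzWith.of_dist_le_mul fun x y => ?_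
  have := hL.dist_le_mul x y
  rw [dist_neg_neg, dist_add_right]
  exact this

lemma jineq_Q_ge (a t : ℝ) : Q a - t * phi a - t ^ 2 ≤ Q (a + t) := by
  have h := Q_add_le (-a) (-t)
  have h1 := Phi_add_Phi_neg a
  have h2 := Phi_add_Phi_neg (a + t)
  rw [phi_neg] at h
  simp only [Q, neg_neg] at h ⊢
  have e : -(-a + -t) = a + t := by ring
  rw [e] at h
  nlinarith

lemma ehrhard_line {L : ℝ≥0} {a : E → ℝ} (hL : LipschitzWith L a) (hc : ConvexOn ℝ univ a) {a0 : ℝ}
    (h0 : Q a0 = ∫ y, Q (a y) ∂stdGaussian E) {t : ℝ} (ht : 0 ≤ t) :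
    ∫ y, Q (a y + t) ∂stdGaussian E ≤
      Q (a0 + (∫ y, phi (a y) ∂stdGaussian E) / phi a0 * t) := by
  rcases ht.eq_or_lt with rfl | ht
  · simp [h0]
  have ha : Measurable a := hL.continuous.measurable
  set m := ∫ y, phi (a y) ∂stdGaussian E with hm
  let U : ℝ → ℝ := fun s => Eh (stdGaussian E) (fun y => -(a y + s))
  have hU : ∀ s, Phi (U s) = ∫ y, Q (a y + s) ∂stdGaussian E := fun s =>
    Phi_Eh (stdGaussian E) (jineq_lip hL s).continuous.measurable
  have hU0 : U 0 = -a0 := by
    apply strictMono_Phi.injective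
    rw [hU]
    simp only [add_zero]
    exact h0.symm
  have hφ := phi_pos a0
  by_contra hcon
  rw [not_le, ← hU, Q, strictMono_Phi.lt_iff_lt] at hcon
  set ρ := (U t + a0) / t with hρ
  have hε : 0 < ρ * phi a0 + m := by
    have h1 : -(m / phi a0) < ρ := by
      rw [hρ, lt_div_iff₀ ht]
      linarith
    have h2 : -(m / phi a0) * phi a0 < ρ * phi a0 := mul_lt_mul_of_pos_right h1 hφ
    have h3 : -(m / phi a0) * phi a0 = -m := by field_simp
    linarith
  have key : ∀ s, 0 < s → s < t → ρ * phi a0 + m ≤ (1 + ρ ^ 2) * s := by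
    intro s hs hst
    have hα0 : 0 < s / t := div_pos hs ht
    have hα1 : s / t < 1 := (div_lt_one ht).2 hst
    have hb := borell (jineq_lip hL s) (jineq_lip hL 0) (jineq_lip hL t) hα0 hα1 (fun x y => by
      have h1 := hc.2 (mem_univ x) (mem_univ y) hα0.le (sub_nonneg.2 hα1.le) (by ring)
      simp only [smul_eq_mul] at h1
      have h2 : s / t * t = s := by field_simp
      nlinarith)
    change s / t * U t + (1 - s / t) * U 0 ≤ U s at hb
    have e : s / t * U t + (1 - s / t) * U 0 = -(a0 + -(ρ * s)) := by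
      rw [hU0, hρ]
      field_simp
      ring
    rw [e] at hb
    have h1 : Q (a0 + -(ρ * s)) ≤ Phi (U s) := strictMono_Phi.monotone hb
    have h2 := jineq_Q_ge a0 (-(ρ * s))
    have hi1 : Integrable (fun y => Q (a y) - s * phi (a y)) (stdGaussian E) :=
      (jineq_integrable_Q ha).sub ((jineq_integrable_phi ha).const_mul s)
    have h3 : Phi (U s) ≤ Q a0 - s * m + s ^ 2 := by
      rw [hU]
      calc ∫ y, Q (a y + s) ∂stdGaussian E
          ≤ ∫ y, (Q (a y) - s * phi (a y) + s ^ 2) ∂stdGaussian E :=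
            integral_mono (jineq_integrable_Q (ha.add_const s)) (hi1.add (integrable_const _))
              fun y => Q_add_le (a y) s
        _ = Q a0 - s * m + s ^ 2 := by
            rw [integral_add hi1 (integrable_const _), integral_sub (jineq_integrable_Q ha)
              ((jineq_integrable_phi ha).const_mul s), integral_const_mul, ← h0]
            simp [hm]
    have h4 : s * (ρ * phi a0 + m) ≤ s * ((1 + ρ ^ 2) * s) := by nlinarith
    exact le_of_mul_le_mul_left h4 hs
  have hpos : 0 < 1 + ρ ^ 2 := by positivity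
  have hs0 : 0 < (ρ * phi a0 + m) / (2 * (1 + ρ ^ 2)) := by positivity
  have h1 := key (min (t / 2) ((ρ * phi a0 + m) / (2 * (1 + ρ ^ 2))))
    (lt_min (by linarith) hs0) ((min_le_left _ _).trans_lt (by linarith))
  have h2 : (1 + ρ ^ 2) * min (t / 2) ((ρ * phi a0 + m) / (2 * (1 + ρ ^ 2))) ≤
      (1 + ρ ^ 2) * ((ρ * phi a0 + m) / (2 * (1 + ρ ^ 2))) :=
    mul_le_mul_of_nonneg_left (min_le_right _ _) hpos.le
  have h3 : (1 + ρ ^ 2) * ((ρ * phi a0 + m) / (2 * (1 + ρ ^ 2))) = (ρ * phi a0 + m) / 2 := by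
    field_simp
  linarith

lemma jineq_integrable_G {L : ℝ≥0} {a : E → ℝ} (hL : LipschitzWith L a) :
    Integrable (fun y => G (a y)) (stdGaussian E) := by
  have h1 : Integrable (fun y : E => (1 + |a 0|) + L * ‖y‖) (stdGaussian E) :=
    (integrable_const _).add ((IsGaussian.integrable_id (μ := stdGaussian E)).norm.const_mul _)
  refine h1.mono' (continuous_G.comp hL.continuous).aestronglyMeasurable (ae_of_all _ fun y => ?_)
  rw [Real.norm_eq_abs, abs_of_pos (G_pos _)]
  have h2 := hL.dist_le_mul y 0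
  rw [Real.dist_eq, dist_zero_right] at h2
  have h3 := G_le (a y)
  have h4 : |a y| ≤ |a y - a 0| + |a 0| := by
    simpa using abs_add_le (a y - a 0) (a 0)
  linarith

theorem jineq {L : ℝ≥0} {a : E → ℝ} (hL : LipschitzWith L a) (hc : ConvexOn ℝ univ a) {a0 : ℝ}
    (h0 : Q a0 = ∫ y, Q (a y) ∂stdGaussian E) :
    (∫ y, phi (a y) ∂stdGaussian E) * (∫ y, G (a y) ∂stdGaussian E) ≤ phi a0 * G a0 := by
  have ha : Measurable a := hL.continuous.measurable
  have hm := jineq_integral_phi_pos ha
  set m := ∫ y, phi (a y) ∂stdGaussian E with hmdef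
  have hφ := phi_pos a0
  have hs : 0 < m / phi a0 := div_pos hm hφ
  have hG : ∀ y, ∫ t in Ioi (0 : ℝ), Q (a y + t) = G (a y) := by
    intro y
    simpa using integral_Q_shift (a y) 1 one_pos
  have hI : Integrable (Function.uncurry fun (y : E) (t : ℝ) => Q (a y + t))
      ((stdGaussian E).prod (volume.restrict (Ioi 0))) := by
    have hcont : Continuous (Function.uncurry fun (y : E) (t : ℝ) => Q (a y + t)) :=
      continuous_Q.comp ((hL.continuous.comp continuous_fst).add continuous_snd)
    rw [integrable_prod_iff hcont.aestronglyMeasurable]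
    refine ⟨ae_of_all _ fun y => ?_, ?_⟩
    · simpa [IntegrableOn] using integrableOn_Q_shift (a y) 1 one_pos
    · have : (fun y => ∫ t in Ioi (0 : ℝ),
          ‖Function.uncurry (fun (y : E) (t : ℝ) => Q (a y + t)) (y, t)‖) = fun y => G (a y) := by
        funext y
        rw [← hG y]
        congr 1
        funext t
        simp [abs_of_pos (Q_pos _)]
      rw [this]
      exact jineq_integrable_G hL
  have h1 : ∫ y, G (a y) ∂stdGaussian E =
      ∫ t in Ioi (0 : ℝ), ∫ y, Q (a y + t) ∂stdGaussian E := by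
    rw [← integral_integral_swap hI]
    simp only [hG]
  have h2 : ∫ t in Ioi (0 : ℝ), ∫ y, Q (a y + t) ∂stdGaussian E ≤
      ∫ t in Ioi (0 : ℝ), Q (a0 + m / phi a0 * t) := by
    refine setIntegral_mono_on hI.integral_prod_right (integrableOn_Q_shift a0 _ hs)
      measurableSet_Ioi fun t ht => ehrhard_line hL hc h0 (le_of_lt ht)
  rw [integral_Q_shift a0 _ hs, ← h1, le_div_iff₀ hs, mul_div_assoc', div_le_iff₀ hφ] at h2
  linarith

end Crest.Agent.R215
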