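import Crest.Agent.R215.Split

/-! Row 215: partitions and the functional `F`.
Plan: `x ↦ ⨆ i, ⟪v i, x⟫` is continuous (`Continuous.finset_sup'`/`continuous_iSup`-like, or Lipschitz directly:
`|sup - sup| ≤ (∑ ‖v i‖) ‖x - y‖`), bounded by `(∑ ‖v i‖) ‖x‖`. `integral_iUnion_ae`/`integral_finset_biUnion`,
`integral_inner`, `hyperplane_null` (two cells meet inside `⟪v i - v j, x⟫ = 0`), `exists_eq_ciSup_of_finite`,
`le_ciSup (Set.finite_range _).bddAbove`. When `ι` is empty the supremum is `0` (`Real.iSup_of_isEmpty`).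
`F_del`: `max_all = max_{j≠i} + max (min_{j≠i} (⟪v i,x⟫ - ⟪v j,x⟫)) 0`. -/

set_option autoImplicit false

namespace Crest.Agent.R215

open MeasureTheory ProbabilityTheory Set Filter Topology
open scoped RealInnerProductSpace NNReal

variable {E : Type*} [NormedAddCommGroup E] [InnerProductSpace ℝ E] [FiniteDimensional ℝ E]
  [MeasurableSpace E] [BorelSpace E]

variable {ι : Type} [Fintype ι]

lemma part_le_sup (f : ι → ℝ) (i : ι) : f i ≤ ⨆ j, f j :=
  le_ciSup (Set.finite_range f).bddAbove i

lemma part_sup_le_add {f g : ι → ℝ} {c : ℝ} (hc : 0 ≤ c) (h : ∀ i, f i ≤ g i + c) :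
    (⨆ i, f i) ≤ (⨆ i, g i) + c := by
  cases isEmpty_or_nonempty ι with
  | inl _ => simpa using hc
  | inr _ => exact ciSup_le fun i => (h i).trans (by linarith [part_le_sup g i])

lemma part_continuous_sup : Continuous (fun f : ι → ℝ => ⨆ i, f i) := by
  refine (LipschitzWith.of_le_add_mul' 1 fun f g => ?_).continuous
  refine part_sup_le_add (by positivity) fun i => ?_
  have h1 := dist_le_pi_dist f g i
  rw [Real.dist_eq] at h1
  have h2 := le_abs_self (f i - g i)
  linarith

omit [FiniteDimensional ℝ E] [MeasurableSpace E] [BorelSpace E] in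
lemma part_continuous_sup_inner (v : ι → E) : Continuous (fun x => ⨆ i, ⟪v i, x⟫) :=
  part_continuous_sup.comp (continuous_pi fun _ => continuous_const.inner continuous_id)

omit [FiniteDimensional ℝ E] [MeasurableSpace E] [BorelSpace E] in
lemma part_sup_inner_le (v w : ι → E) (x : E) :
    (⨆ i, ⟪v i, x⟫) ≤ (⨆ i, ⟪w i, x⟫) + ‖x‖ * dist v w := by
  refine part_sup_le_add (by positivity) fun i => ?_
  have h1 := dist_le_pi_dist v w i
  rw [dist_eq_norm] at h1
  have h2 := real_inner_le_norm (v i - w i) x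
  rw [inner_sub_left] at h2
  have h3 : ‖v i - w i‖ * ‖x‖ ≤ dist v w * ‖x‖ := mul_le_mul_of_nonneg_right h1 (norm_nonneg _)
  linarith

lemma integrable_sup (v : ι → E) : Integrable (fun x => ⨆ i, ⟪v i, x⟫) (stdGaussian E) := by
  refine ((integrable_id_gauss (E := E)).norm.mul_const (dist v 0)).mono'
    (part_continuous_sup_inner v).aestronglyMeasurable (ae_of_all _ fun x => ?_)
  have h1 := part_sup_inner_le v 0 x
  have h2 := part_sup_inner_le 0 v x
  simp only [Pi.zero_apply, inner_zero_left, Real.iSup_const_zero] at h1 h2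
  rw [dist_comm] at h2
  rw [Real.norm_eq_abs, abs_le]
  constructor <;> linarith

lemma AEPart.integral_eq {A : ι → Set E} (h : AEPart A) {f : E → ℝ}
    (hf : Integrable f (stdGaussian E)) :
    ∫ x, f x ∂stdGaussian E = ∑ i, ∫ x in A i, f x ∂stdGaussian E := by
  have := integral_iUnion_ae (μ := stdGaussian E) (f := f)
    (fun i => (h.meas i).nullMeasurableSet) h.disj hf.integrableOn
  rw [h.cover, Measure.restrict_univ, tsum_fintype] at this
  exact this

lemma AEPart.sum_prob {A : ι → Set E} (h : AEPart A) :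
    ∑ i, (stdGaussian E).real (A i) = 1 := by
  have := h.integral_eq (f := fun _ => (1 : ℝ)) (integrable_const _)
  simpa using this.symm

lemma AEPart.sum_inner_le {A : ι → Set E} (h : AEPart A) (y : ι → E) :
    ∑ i, ⟪y i, ∫ x in A i, x ∂stdGaussian E⟫ ≤ F y := by
  unfold F
  rw [h.integral_eq (integrable_sup y)]
  refine Finset.sum_le_sum fun i _ => ?_
  rw [← integral_inner (integrable_id_gauss (E := E)).integrableOn]
  exact integral_mono (integrable_inner_gauss (y i)).integrableOn (integrable_sup y).integrableOn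
    fun x => part_le_sup (fun j => ⟪y j, x⟫) i

lemma measurableSet_cell (v : ι → E) (i : ι) : MeasurableSet (cell v i) := by
  have : cell v i = ⋂ j, {x | ⟪v j, x⟫ ≤ ⟪v i, x⟫} := by
    ext x; simp [cell]
  rw [this]
  exact (isClosed_iInter fun j => isClosed_le (continuous_const.inner continuous_id)
    (continuous_const.inner continuous_id)).measurableSet

lemma aePart_cell [Nonempty ι] {v : ι → E} (hv : Function.Injective v) : AEPart (cell v) := by
  refine ⟨measurableSet_cell v, fun i j hij => ?_, ?_⟩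
  · have hw : v i - v j ≠ 0 := sub_ne_zero.2 (hv.ne hij)
    refine measure_mono_null (fun x hx => ?_) (hyperplane_null hw)
    have h1 := hx.1 j
    have h2 := hx.2 i
    simp only [mem_setOf_eq, inner_sub_left]
    linarith
  · refine eq_univ_of_forall fun x => ?_
    obtain ⟨i, hi⟩ := Finite.exists_max (fun i => ⟪v i, x⟫)
    exact mem_iUnion.2 ⟨i, hi⟩

lemma F_eq_sum [Nonempty ι] {v : ι → E} (hv : Function.Injective v) :
    F v = ∑ i, ⟪v i, ∫ x in cell v i, x ∂stdGaussian E⟫ := by
  unfold F
  rw [(aePart_cell hv).integral_eq (integrable_sup v)]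
  refine Finset.sum_congr rfl fun i _ => ?_
  rw [← integral_inner (integrable_id_gauss (E := E)).integrableOn]
  refine setIntegral_congr_fun (measurableSet_cell v i) fun x hx => ?_
  exact le_antisymm (ciSup_le hx) (part_le_sup (fun j => ⟪v j, x⟫) i)

lemma continuous_F : Continuous (fun v : ι → E => F v) := by
  refine (LipschitzWith.of_le_add_mul' (∫ x, ‖x‖ ∂stdGaussian E) fun v w => ?_).continuous
  have hi : Integrable (fun x : E => ‖x‖ * dist v w) (stdGaussian E) :=
    (integrable_id_gauss (E := E)).norm.mul_const _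
  unfold F
  rw [← integral_mul_const, ← integral_add (integrable_sup w) hi]
  exact integral_mono (integrable_sup v) ((integrable_sup w).add hi) (part_sup_inner_le v w)

lemma F_smul {t : ℝ} (ht : 0 ≤ t) (v : ι → E) : F (fun i => t • v i) = t * F v := by
  unfold F
  rw [← integral_const_mul]
  congr 1
  funext x
  rw [Real.mul_iSup_of_nonneg ht]
  simp only [real_inner_smul_left]

lemma F_sub_const (v : ι → E) (m : E) : F (fun i => v i - m) = F v := by
  cases isEmpty_or_nonempty ι with
  | inl _ => simp [F]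
  | inr _ =>
    unfold F
    have h : ∀ x, (⨆ i, ⟪v i - m, x⟫) = (⨆ i, ⟪v i, x⟫) - ⟪m, x⟫ := by
      intro x
      rw [ciSup_sub (Set.finite_range _).bddAbove]
      simp only [inner_sub_left]
    simp only [h]
    rw [integral_sub (integrable_sup v) (integrable_inner_gauss m), integral_inner_gauss, sub_zero]

lemma F_mono {κ : Type} [Fintype κ] [Nonempty ι] {v : ι → E} {w : κ → E}
    (h : ∀ i, ∃ j, v i = w j) : F v ≤ F w := by
  refine integral_mono (integrable_sup v) (integrable_sup w) fun x => ciSup_le fun i => ?_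
  obtain ⟨j, hj⟩ := h i
  rw [hj]
  exact part_le_sup (fun j => ⟪w j, x⟫) j

lemma part_sup_del (f : ι → ℝ) (i : ι) [Nonempty {j // j ≠ i}] :
    max (⨅ j : {j // j ≠ i}, (f i - f j)) 0 = (⨆ j, f j) - ⨆ j : {j // j ≠ i}, f j := by
  classical
  obtain ⟨j0, hj0⟩ := Finite.exists_max (fun j : {j // j ≠ i} => f j)
  have h1 : (⨆ j : {j // j ≠ i}, f j) = f j0 :=
    le_antisymm (ciSup_le hj0) (part_le_sup (fun j : {j // j ≠ i} => f j) j0)
  have h2 : (⨅ j : {j // j ≠ i}, (f i - f j)) = f i - f j0 :=
    le_antisymm (ciInf_le (Set.finite_range _).bddBelow j0)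
      (le_ciInf fun j => by linarith [hj0 j])
  haveI : Nonempty ι := ⟨i⟩
  have h3 : (⨆ j, f j) = max (f i) (f j0) := by
    refine le_antisymm (ciSup_le fun j => ?_) (max_le (part_le_sup f i) (part_le_sup f j0))
    by_cases hj : j = i
    · rw [hj]; exact le_max_left _ _
    · exact (hj0 ⟨j, hj⟩).trans (le_max_right _ _)
  rw [h1, h2, h3, ← max_sub_sub_right, sub_self]

lemma F_del (v : ι → E) (i : ι) [Nonempty {j // j ≠ i}] :
    F v = F (fun j : {j // j ≠ i} => v j) + gap v i := by
  classical
  unfold F gap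
  have h : ∀ x, max (⨅ j : {j // j ≠ i}, ⟪v i - v j, x⟫) 0 =
      (⨆ j, ⟪v j, x⟫) - ⨆ j : {j // j ≠ i}, ⟪v j, x⟫ := by
    intro x
    simp only [inner_sub_left]
    exact part_sup_del (fun j => ⟪v j, x⟫) i
  simp only [h]
  rw [integral_sub (integrable_sup v) (integrable_sup (fun j : {j // j ≠ i} => v j))]
  ring

end Crest.Agent.R215
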