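import Crest.Agent.R215.Slice
import Crest.Agent.R215.Part
import Crest.Agent.R215.Jineq

/-! Row 215: the analytic facts on a critical configuration.
Plan. `quad`: expand, use `∑ v = 0`. `Crit.exists_w`: the `v i - v j` (`j ≠ i`) are linearly independent: a relation
`∑ c j • (v i - v j) = 0` is `∑ d l • v l = 0` with `d j = -c j`, `d i = ∑ c`; by `quad` and `obt` all `d l` are equal, so
`s = ∑ c = -(k-1) s`, `s = 0`. Then take a linear functional equal to `1` on them (`LinearIndependent.repr`/`Basis.constr`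
on the span, `LinearMap.exists_extend`) and Riesz (`InnerProductSpace.toDual`, `LinearMap.toContinuousLinearMap`).
`Crit.facts`: `e = w/‖w‖`, `σ = 1/‖w‖`, `W j = v i - v j` (`j : {j // j ≠ i}`), `cell v i = {x | ∀ j, 0 ≤ ⟪W j, x⟫}`,
`⟪W j, e⟫ = σ`; `∑ W j = k • v i` so `⟪v i, e⟫ = σ/κ`, `κ = k/(k-1)`. `slice_mom` + `mom`: `∫ phi (slc) = lam σ/κ`;
`slice_gap`: `gap = σ ∫ G (slc)`; `slice_prob`: `p = ∫ Q (slc) > 0`; `p ≤ 1/2` (`halfspace_half`), so `p = Q a`, `a ≥ 0`.
`jineq`: `phi a G a ≥ lam gap/κ ≥ c² (1 - √(1-κu))/κ = c² u/(1+√(1-κu)) ≥ c² u/(1+√(1-u)) = c² (1-√(1-u))`,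
using `κ u ≤ 1` (`Crit.kappa_le`: `‖v i‖² = ‖∑_{j≠i} v j‖² ≤ (k-1)(1-u)`). `iso`: `moment_le` with `e = v i/‖v i‖`. -/

set_option autoImplicit false

namespace Crest.Agent.R215

open MeasureTheory ProbabilityTheory Set Filter Topology
open scoped RealInnerProductSpace NNReal

variable {E : Type*} [NormedAddCommGroup E] [InnerProductSpace ℝ E] [FiniteDimensional ℝ E]
  [MeasurableSpace E] [BorelSpace E]

variable {ι : Type} [Fintype ι] {v : ι → E} {lam : ℝ}

omit [FiniteDimensional ℝ E] [MeasurableSpace E] [BorelSpace E] in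
lemma quad' (hv : ∑ i, v i = 0) (c : ι → ℝ) :
    ‖∑ l, c l • v l‖ ^ 2 = (∑ l, ∑ m, -⟪v l, v m⟫ * (c l - c m) ^ 2) / 2 := by
  have h1 : ∀ l, ∑ m, ⟪v l, v m⟫ = 0 := fun l => by rw [← inner_sum, hv, inner_zero_right]
  have h2 : ∀ m, ∑ l, ⟪v l, v m⟫ = 0 := fun m => by rw [← sum_inner, hv, inner_zero_left]
  have h3 : ‖∑ l, c l • v l‖ ^ 2 = ∑ l, ∑ m, c l * c m * ⟪v l, v m⟫ := by
    rw [← real_inner_self_eq_norm_sq, sum_inner]
    refine Finset.sum_congr rfl fun l _ => ?_
    rw [inner_sum]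
    refine Finset.sum_congr rfl fun m _ => ?_
    rw [real_inner_smul_left, real_inner_smul_right]
    ring
  have h4 : ∑ l, ∑ m, c l ^ 2 * ⟪v l, v m⟫ = 0 :=
    Finset.sum_eq_zero fun l _ => by rw [← Finset.mul_sum, h1, mul_zero]
  have h5 : ∑ l, ∑ m, c m ^ 2 * ⟪v l, v m⟫ = 0 := by
    rw [Finset.sum_comm]
    exact Finset.sum_eq_zero fun m _ => by rw [← Finset.mul_sum, h2, mul_zero]
  have h6 : ∑ l, ∑ m, -⟪v l, v m⟫ * (c l - c m) ^ 2 =
      2 * ∑ l, ∑ m, c l * c m * ⟪v l, v m⟫ - ∑ l, ∑ m, c l ^ 2 * ⟪v l, v m⟫ -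
        ∑ l, ∑ m, c m ^ 2 * ⟪v l, v m⟫ := by
    simp only [Finset.mul_sum, ← Finset.sum_sub_distrib]
    refine Finset.sum_congr rfl fun l _ => Finset.sum_congr rfl fun m _ => ?_
    ring
  rw [h3, h6, h4, h5]
  ring

lemma quad (hv : ∑ i, v i = 0) (c : ι → ℝ) :
    ‖∑ l, c l • v l‖ ^ 2 = (∑ l, ∑ m, -⟪v l, v m⟫ * (c l - c m) ^ 2) / 2 := quad' hv c

lemma Crit.exists_ne (h : Crit v lam) (i : ι) : ∃ j, j ≠ i := by
  have := h.card
  exact Fintype.exists_ne_of_one_lt_card (by omega) i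

lemma Crit.norm_pos (h : Crit v lam) (i : ι) : 0 < ‖v i‖ := by
  obtain ⟨j, hj⟩ := h.exists_ne i
  have := h.obt j i hj
  rw [norm_pos_iff]
  intro h0
  rw [h0, inner_zero_right] at this
  exact lt_irrefl _ this

lemma Crit.term_nonneg (h : Crit v lam) (c : ι → ℝ) (l m : ι) :
    0 ≤ -⟪v l, v m⟫ * (c l - c m) ^ 2 := by
  by_cases hlm : l = m
  · simp [hlm]
  · exact mul_nonneg (by linarith [h.obt l m hlm]) (sq_nonneg _)

lemma critF_sum_split {M : Type*} [AddCommMonoid M] [DecidableEq ι] (i : ι) (f : ι → M) :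
    ∑ l, f l = f i + ∑ j : {j // j ≠ i}, f j := by
  rw [← Finset.add_sum_erase _ _ (Finset.mem_univ i)]
  congr 1
  exact Finset.sum_subtype _ (by simp) f

lemma critF_card [DecidableEq ι] (i : ι) :
    (Fintype.card {j // j ≠ i} : ℝ) = Fintype.card ι - 1 := by
  have := critF_sum_split i (fun _ => (1 : ℝ))
  simp only [Finset.sum_const, Finset.card_univ, nsmul_eq_mul, mul_one] at this
  linarith

lemma Crit.kappa_le (h : Crit v lam) (i : ι) :
    (Fintype.card ι : ℝ) / (Fintype.card ι - 1) * ‖v i‖ ^ 2 ≤ 1 := by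
  classical
  have hk : (4 : ℝ) ≤ Fintype.card ι := by exact_mod_cast h.card
  have h1 := critF_sum_split i v
  have h2 := critF_sum_split i (fun l => ‖v l‖ ^ 2)
  rw [h.sum] at h1
  rw [h.norm] at h2
  have h3 : ‖v i‖ ≤ ∑ j : {j // j ≠ i}, ‖v j‖ := by
    rw [eq_neg_of_add_eq_zero_left h1.symm, norm_neg]
    exact norm_sum_le _ _
  have h4 := sq_sum_le_card_mul_sum_sq (s := Finset.univ) (f := fun j : {j // j ≠ i} => ‖v j‖)
  rw [Finset.card_univ, critF_card] at h4
  have h5 : ‖v i‖ ^ 2 ≤ (∑ j : {j // j ≠ i}, ‖v j‖) ^ 2 := by gcongr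
  rw [div_mul_eq_mul_div, div_le_one (by linarith)]
  have h6 : ∑ j : {j // j ≠ i}, ‖v j‖ ^ 2 = 1 - ‖v i‖ ^ 2 := by linarith
  rw [h6] at h4
  nlinarith

lemma Crit.exists_w (h : Crit v lam) (i : ι) : ∃ w : E, ∀ j, j ≠ i → ⟪v i - v j, w⟫ = 1 := by
  classical
  have hk : (4 : ℝ) ≤ Fintype.card ι := by exact_mod_cast h.card
  have hli : LinearIndependent ℝ (fun j : {j // j ≠ i} => v i - v j) := by
    rw [Fintype.linearIndependent_iff]
    intro g hg
    set d : ι → ℝ := fun l => if hl : l = i then ∑ j, g j else -g ⟨l, hl⟩ with hd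
    have di : d i = ∑ j, g j := by simp [hd]
    have dj : ∀ j : {j // j ≠ i}, d j = -g j := fun j => by simp [hd, j.2]
    have h1 : ∑ l, d l • v l = 0 := by
      rw [critF_sum_split i, di, Finset.sum_smul, ← Finset.sum_add_distrib, ← hg]
      refine Finset.sum_congr rfl fun j _ => ?_
      rw [dj, smul_sub, neg_smul, sub_eq_add_neg]
    have h2 := quad h.sum d
    rw [h1, norm_zero] at h2
    have h3 : ∑ l, ∑ m, -⟪v l, v m⟫ * (d l - d m) ^ 2 = 0 := by linarith
    rw [Finset.sum_eq_zero_iff_of_nonneg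
      (fun l _ => Finset.sum_nonneg fun m _ => h.term_nonneg d l m)] at h3
    have h4 := h3 i (Finset.mem_univ _)
    rw [Finset.sum_eq_zero_iff_of_nonneg (fun m _ => h.term_nonneg d i m)] at h4
    have h5 : ∀ j : {j // j ≠ i}, g j = -∑ j, g j := fun j => by
      have h6 := h4 j (Finset.mem_univ _)
      have h7 := h.obt i j (Ne.symm j.2)
      rcases mul_eq_zero.1 h6 with h8 | h8
      · linarith
      · have h9 := pow_eq_zero_iff (two_ne_zero) |>.1 h8
        rw [di, dj] at h9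
        linarith
    have h6 : ∑ j, g j = (Fintype.card ι - 1) * -∑ j, g j := by
      conv_lhs => rw [Finset.sum_congr rfl fun j _ => h5 j]
      rw [Finset.sum_const, Finset.card_univ, nsmul_eq_mul, critF_card]
    have h7 : ∑ j, g j = 0 := by
      have : (Fintype.card ι : ℝ) * ∑ j, g j = 0 := by linarith
      rcases mul_eq_zero.1 this with h8 | h8
      · linarith
      · exact h8
    intro j
    rw [h5, h7, neg_zero]
  obtain ⟨f, hf⟩ := Module.exists_dual_forall_apply_eq_one (s := univ)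
    (linearIndepOn_univ_iff.2 hli)
  refine ⟨(InnerProductSpace.toDual ℝ E).symm (LinearMap.toContinuousLinearMap f), fun j hj => ?_⟩
  rw [real_inner_comm, InnerProductSpace.toDual_symm_apply]
  exact hf ⟨j, hj⟩ (mem_univ _)

lemma critF_real {κ u lam g : ℝ} (hκ : 1 ≤ κ) (hu : 0 < u) (hκu : κ * u ≤ 1) (hl : cc < lam)
    (hg : lam - cc * Real.sqrt (1 - κ * u) ≤ g) :
    cc ^ 2 * (1 - Real.sqrt (1 - u)) ≤ lam / κ * g := by
  have hc := cc_pos
  have hu1 : u ≤ κ * u := by nlinarith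
  have s1 := Real.sq_sqrt (show 0 ≤ 1 - κ * u by linarith)
  have s2 := Real.sq_sqrt (show 0 ≤ 1 - u by linarith)
  have s3 : Real.sqrt (1 - κ * u) ≤ Real.sqrt (1 - u) := Real.sqrt_le_sqrt (by linarith)
  have s4 := Real.sqrt_nonneg (1 - κ * u)
  have s5 : Real.sqrt (1 - u) ≤ 1 := Real.sqrt_le_one.2 (by linarith)
  set a := Real.sqrt (1 - κ * u)
  set b := Real.sqrt (1 - u)
  have h1 : κ * (1 - b) ≤ 1 - a := by
    have e : κ * (1 - b) * (1 + b) = (1 - a) * (1 + a) := by nlinarith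
    have e2 : (1 - a) * (1 + a) ≤ (1 - a) * (1 + b) :=
      mul_le_mul_of_nonneg_left (by linarith) (by linarith)
    exact le_of_mul_le_mul_right (e.le.trans e2) (by linarith)
  have h2 : cc * (1 - a) ≤ g := by linarith
  have h3 : 0 ≤ cc * (1 - a) := mul_nonneg hc.le (by linarith)
  rw [div_mul_eq_mul_div, le_div_iff₀ (by linarith)]
  calc cc ^ 2 * (1 - b) * κ = cc * (cc * (κ * (1 - b))) := by ring
    _ ≤ cc * (cc * (1 - a)) := by gcongr
    _ ≤ lam * g := mul_le_mul hl.le h2 h3 (by linarith)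

theorem Crit.facts (h : Crit v lam) (i : ι) :
    Facts (‖v i‖ ^ 2) ((stdGaussian E).real (cell v i)) := by
  classical
  have hk : (4 : ℝ) ≤ Fintype.card ι := by exact_mod_cast h.card
  have hn := h.norm_pos i
  have hc := cc_pos
  have hl := h.lam_gt
  have hmom : ∀ e : E, ∫ x in cell v i, ⟪e, x⟫ ∂stdGaussian E = lam * ⟪e, v i⟫ := fun e => by
    rw [integral_inner (integrable_id_gauss (E := E)).integrableOn, h.mom, real_inner_smul_right]
  refine ⟨by positivity, ?_, fun a _ => ?_⟩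
  · obtain ⟨w, hw⟩ := h.exists_w i
    obtain ⟨j0, hj0⟩ := h.exists_ne i
    haveI : Nonempty {j // j ≠ i} := ⟨⟨j0, hj0⟩⟩
    have hw0 : w ≠ 0 := by
      intro h0
      have := hw j0 hj0
      rw [h0, inner_zero_right] at this
      exact zero_ne_one this
    have hwn : 0 < ‖w‖ := norm_pos_iff.2 hw0
    set σ := ‖w‖⁻¹ with hσ
    have hσ0 : 0 < σ := inv_pos.2 hwn
    set e := σ • w with he
    have he1 : ‖e‖ = 1 := by
      rw [he, norm_smul, Real.norm_eq_abs, abs_of_pos hσ0, hσ, inv_mul_cancel₀ hwn.ne']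
    set W : {j // j ≠ i} → E := fun j => v i - v j with hW
    have hWe : ∀ j, ⟪W j, e⟫ = σ := fun j => by
      rw [he, real_inner_smul_right, hw j j.2, mul_one]
    have hWp : ∀ j, 0 < ⟪W j, e⟫ := fun j => by rw [hWe]; exact hσ0
    have hcell : cell v i = {x | ∀ j, 0 ≤ ⟪W j, x⟫} := by
      ext x
      simp only [cell, mem_setOf_eq, hW, inner_sub_left, sub_nonneg]
      refine ⟨fun hx j => hx j, fun hx j => ?_⟩
      by_cases hj : j = i
      · rw [hj]
      · exact hx ⟨j, hj⟩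
    set κ : ℝ := Fintype.card ι / (Fintype.card ι - 1) with hκ
    have hκ1 : 1 ≤ κ := by
      rw [hκ, le_div_iff₀ (by linarith)]; linarith
    have hve : ⟪e, v i⟫ = σ / κ := by
      have e1 : ∑ j, ⟪W j, e⟫ = (Fintype.card ι - 1) * σ := by
        rw [Finset.sum_congr rfl fun j _ => hWe j, Finset.sum_const, Finset.card_univ,
          nsmul_eq_mul, critF_card]
      have e2 := critF_sum_split i (fun l => ⟪v l, e⟫)
      rw [← sum_inner, h.sum, inner_zero_left] at e2
      simp only [hW, inner_sub_left, Finset.sum_sub_distrib, Finset.sum_const, Finset.card_univ,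
        nsmul_eq_mul, critF_card] at e1
      rw [real_inner_comm, hκ, div_div_eq_mul_div, eq_div_iff (by linarith)]
      linarith
    obtain ⟨L, hL⟩ := slc_lipschitz hWp
    have hp := slice_prob he1 hWp
    have hm := slice_mom he1 hWp
    have hg := slice_gap he1 hσ0 hWe
    rw [← hcell] at hp hm
    rw [hmom, hve] at hm
    have hp0 : 0 < (stdGaussian E).real (cell v i) := by
      by_contra h0
      have h1 : (stdGaussian E) (cell v i) = 0 :=
        (measureReal_eq_zero_iff (by finiteness)).1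
          (le_antisymm (not_lt.1 h0) measureReal_nonneg)
      have h2 := hmom (v i)
      rw [Measure.restrict_eq_zero.2 h1, integral_zero_measure, real_inner_self_eq_norm_sq] at h2
      have : 0 < lam * ‖v i‖ ^ 2 := mul_pos (by linarith) (by positivity)
      linarith
    have hp1 : (stdGaussian E).real (cell v i) ≤ 1 / 2 := by
      have hW0 : W ⟨j0, hj0⟩ ≠ 0 := by
        intro h0
        have := hWp ⟨j0, hj0⟩
        rw [h0, inner_zero_left] at this
        exact lt_irrefl _ this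
      rw [← halfspace_half hW0, hcell]
      exact measureReal_mono (fun x hx => hx _)
    obtain ⟨a, ha⟩ := exists_Q_eq hp0 (by linarith)
    have ha0 : 0 ≤ a := by
      by_contra h0
      have := strictAnti_Q (not_le.1 h0)
      rw [Q_zero] at this
      linarith
    refine ⟨a, ha0, ha, ?_⟩
    have hj := jineq hL (slc_convex hWp) (ha.trans hp)
    have hgap : gap v i = σ * ∫ y, G (slc e W y) ∂stdGaussian E := hg
    refine le_trans (critF_real hκ1 (by positivity) (h.kappa_le i) hl (h.del i)) ?_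
    rw [hgap]
    rw [← hm] at hj
    calc lam / κ * (σ * ∫ y, G (slc e W y) ∂stdGaussian E) =
        lam * (σ / κ) * ∫ y, G (slc e W y) ∂stdGaussian E := by ring
      _ ≤ _ := hj
  · have he1 : ‖‖v i‖⁻¹ • v i‖ = 1 := by
      rw [norm_smul, norm_inv, norm_norm, inv_mul_cancel₀ hn.ne']
    have h1 := moment_le he1 (measurableSet_cell v i) a
    rw [hmom, real_inner_smul_left, real_inner_self_eq_norm_sq] at h1
    rw [Real.sqrt_sq hn.le]
    have h2 : ‖v i‖⁻¹ * ‖v i‖ ^ 2 = ‖v i‖ := by field_simp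
    rw [h2] at h1
    nlinarith

end Crest.Agent.R215
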