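import Crest.Agent.R215.Defs

/-! Row 215: Heron type quadratic form. -/

set_option autoImplicit false

namespace Crest.Agent.R215

open MeasureTheory ProbabilityTheory Set Filter Topology
open scoped RealInnerProductSpace NNReal

/-- Heron type form -/
noncomputable def He (x y z : ℝ) : ℝ := x * y - ((x + y - z) / 2) ^ 2

lemma He_eq_e2 (a b c : ℝ) : He (a + b) (a + c) (b + c) = e2 a b c := by
  unfold He e2; ring

lemma He_sub_ge {u1 u2 u3 x1 x2 x3 τ : ℝ} (h12 : u2 ≤ u1) (h23 : u3 ≤ u2) (h3 : 0 ≤ u3)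
    (h1 : 0 ≤ x1) (h2 : 0 ≤ x2) (h3' : 0 ≤ x3) (hτ : x1 + x2 + x3 ≤ τ) :
    He u1 u2 (u3 - τ) ≤ He (u1 - x1) (u2 - x2) (u3 - x3) := by
  unfold He
  have e1 : 0 ≤ x1 * (u1 - u3) := mul_nonneg h1 (by linarith)
  have e2 : 0 ≤ x2 * (u2 - u3) := mul_nonneg h2 (by linarith)
  have e3 : 0 ≤ (τ - (x1 + x2 + x3)) * (u1 + u2 - u3) := mul_nonneg (by linarith) (by linarith)
  have e4 : 0 ≤ (τ - (x1 + x2 + x3)) * (τ + (x1 + x2 + x3)) := mul_nonneg (by linarith) (by linarith)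
  nlinarith [mul_nonneg h1 h2, mul_nonneg h1 h3', mul_nonneg h2 h3']

end Crest.Agent.R215
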