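import Crest.Agent.R215.CritF
import Crest.Agent.R215.Cap
import Crest.Agent.R215.He

/-! Row 215: trihedral tests on a critical configuration. Notation `a l m = -⟪v l, v m⟫ > 0` (`l ≠ m`),
`u l = ‖v l‖² = ∑_{m ≠ l} a l m` (because `∑ v = 0`).
Plan. `group_quad`: with `w S = ∑ a ∈ S, (v j - v a)`, `S = S1 ∪ S2 ∪ S3`, one has
`η = w S1 + w S2 + w S3 = (|S|+1) • v j + ∑_{l ∉ insert j S} v l`, so `c1 • w S1 + c2 • w S2 - t • η = ∑ d l • v l` with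
`d = -c1` on `S1`, `-c2` on `S2`, `0` on `S3`; apply `quad` and keep only the pairs lying in two different groups (all
terms are `≥ 0`; each unordered pair occurs twice). `Crit.test`: `cell v j ⊆ {∀ g, 0 ≤ ⟪w Sg, x⟫}`, `cone3`, and
`‖η‖² ≤ (|S|+1)² u j + ∑ u l` because distinct vectors have negative inner products.
`t4`: singletons; `e2 a12 a13 a23 = He (u1-ξ1) (u2-ξ2) (u3-ξ3)` with `ξₐ = ∑_{l ∉ {i1,i2,i3}} a iₐ l`,
`ξ1+ξ2+ξ3 ≤ ∑_{l ∉ {i1,i2,i3}} u l` (`He_eq_e2`, `He_sub_ge`).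
`t5`: `j = i5`; merge `i4` with the `c ∈ {i1,i2,i3}` minimising `a c i4`; e.g. `c = i1`: `S1 = {i1,i4}`, `S2 = {i2}`,
`S3 = {i3}`, `ξₐ = ∑_{l ∉ {i1,..,i4}} a iₐ l`, `δ1 = a24 + a34 - a14`, `δ2 = δ3 = 0`;
`A12 + A13 = u1 - ξ1 + δ1`, `A12 + A23 = u2 - ξ2`, `A13 + A23 = u3 - ξ3`; `a14 + a24 + a34 = u4 - ξ4`,
`ξ1 + ξ2 + ξ3 + ξ4 ≤ u5 + τ`.
`cap`: `card = 4`: enumerate the other indices `j1 j2 j3`, `wₐ = v i - v jₐ`, `η = 4 • v i`, the cell is exactly the cone,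
`group_quad`, `cap3`, `mom`: `∫_{cell} ⟪η, x⟫ = 4 lam u`, `‖η‖ = 4 √u`, `lam > c = 3/(2√(2π))`. -/

set_option autoImplicit false

namespace Crest.Agent.R215

open MeasureTheory ProbabilityTheory Set Filter Topology
open scoped RealInnerProductSpace NNReal

variable {E : Type*} [NormedAddCommGroup E] [InnerProductSpace ℝ E] [FiniteDimensional ℝ E]
  [MeasurableSpace E] [BorelSpace E]

variable {ι : Type} [Fintype ι] [DecidableEq ι] {v : ι → E} {lam : ℝ}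

/-- total weight between two groups -/
noncomputable def grp (v : ι → E) (S T : Finset ι) : ℝ := ∑ a ∈ S, ∑ b ∈ T, -⟪v a, v b⟫

lemma critT_sum3_le {f : ι → ℝ} (hf : ∀ l, 0 ≤ f l) {S1 S2 S3 : Finset ι} (h12 : Disjoint S1 S2)
    (h13 : Disjoint S1 S3) (h23 : Disjoint S2 S3) :
    ∑ l ∈ S1, f l + ∑ l ∈ S2, f l + ∑ l ∈ S3, f l ≤ ∑ l, f l := by
  rw [← Finset.sum_union h12, ← Finset.sum_union (Finset.disjoint_union_left.2 ⟨h13, h23⟩)]
  exact Finset.sum_le_sum_of_subset_of_nonneg (Finset.subset_univ _) fun l _ _ => hf l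

lemma critT_blocks {T : ι → ι → ℝ} (hT : ∀ l m, 0 ≤ T l m) (hs : ∀ l m, T l m = T m l)
    {S1 S2 S3 : Finset ι} (h12 : Disjoint S1 S2) (h13 : Disjoint S1 S3) (h23 : Disjoint S2 S3) :
    ∑ a ∈ S1, ∑ b ∈ S2, T a b + ∑ a ∈ S1, ∑ b ∈ S3, T a b + ∑ a ∈ S2, ∑ b ∈ S3, T a b ≤
      (∑ l, ∑ m, T l m) / 2 := by
  have h0 := critT_sum3_le (f := fun l => ∑ m, T l m)
    (fun l => Finset.sum_nonneg fun m _ => hT l m) h12 h13 h23
  have h1 : ∀ S : Finset ι, ∑ a ∈ S, ∑ b ∈ S1, T a b + ∑ a ∈ S, ∑ b ∈ S2, T a b +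
      ∑ a ∈ S, ∑ b ∈ S3, T a b ≤ ∑ a ∈ S, ∑ m, T a m := fun S => by
    rw [← Finset.sum_add_distrib, ← Finset.sum_add_distrib]
    exact Finset.sum_le_sum fun a _ => critT_sum3_le (hT a) h12 h13 h23
  have h2 : ∀ S S' : Finset ι, ∑ a ∈ S, ∑ b ∈ S', T a b = ∑ a ∈ S', ∑ b ∈ S, T a b :=
    fun S S' => by
    rw [Finset.sum_comm]
    exact Finset.sum_congr rfl fun a _ => Finset.sum_congr rfl fun b _ => hs _ _
  have h3 : ∀ S : Finset ι, 0 ≤ ∑ a ∈ S, ∑ b ∈ S, T a b := fun S =>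
    Finset.sum_nonneg fun a _ => Finset.sum_nonneg fun b _ => hT a b
  linarith [h1 S1, h1 S2, h1 S3, h2 S1 S2, h2 S1 S3, h2 S2 S3, h3 S1, h3 S2, h3 S3]

omit [FiniteDimensional ℝ E] [MeasurableSpace E] [BorelSpace E] in
lemma critT_ind (v : ι → E) (S : Finset ι) (e : ℝ) :
    ∑ l, (if l ∈ S then e else 0) • v l = e • ∑ a ∈ S, v a := by
  simp only [ite_smul, zero_smul, Finset.sum_ite_mem, Finset.univ_inter, Finset.smul_sum]

omit [FiniteDimensional ℝ E] [MeasurableSpace E] [BorelSpace E] [Fintype ι] [DecidableEq ι] in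
lemma critT_blk (v : ι → E) {d : ι → ℝ} {S S' : Finset ι} {e e' : ℝ} (h : ∀ a ∈ S, d a = e)
    (h' : ∀ a ∈ S', d a = e') :
    ∑ a ∈ S, ∑ b ∈ S', -⟪v a, v b⟫ * (d a - d b) ^ 2 = grp v S S' * (e - e') ^ 2 := by
  unfold grp
  rw [Finset.sum_mul]
  refine Finset.sum_congr rfl fun a ha => ?_
  rw [Finset.sum_mul]
  refine Finset.sum_congr rfl fun b hb => ?_
  rw [h a ha, h' b hb]

lemma Crit.group_quad (h : Crit v lam) (j : ι) {S1 S2 S3 : Finset ι} (h12 : Disjoint S1 S2)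
    (h13 : Disjoint S1 S3) (h23 : Disjoint S2 S3) (hj1 : j ∉ S1) (hj2 : j ∉ S2) (hj3 : j ∉ S3)
    (c1 c2 t : ℝ) :
    grp v S1 S2 * (c1 - c2) ^ 2 + grp v S1 S3 * c1 ^ 2 + grp v S2 S3 * c2 ^ 2 ≤
      ‖c1 • (∑ a ∈ S1, (v j - v a)) + c2 • (∑ a ∈ S2, (v j - v a)) -
        t • (∑ a ∈ S1, (v j - v a) + ∑ a ∈ S2, (v j - v a) + ∑ a ∈ S3, (v j - v a))‖ ^ 2 := by
  set c : ℝ := (c1 - t) * S1.card + (c2 - t) * S2.card + (-t) * S3.card with hc
  set d : ι → ℝ := fun l => (if l ∈ ({j} : Finset ι) then c else 0) +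
    (if l ∈ S1 then -(c1 - t) else 0) + (if l ∈ S2 then -(c2 - t) else 0) +
    (if l ∈ S3 then t else 0) with hd
  have e : c1 • (∑ a ∈ S1, (v j - v a)) + c2 • (∑ a ∈ S2, (v j - v a)) -
      t • (∑ a ∈ S1, (v j - v a) + ∑ a ∈ S2, (v j - v a) + ∑ a ∈ S3, (v j - v a)) =
      ∑ l, d l • v l := by
    simp only [hd, add_smul, Finset.sum_add_distrib, critT_ind, Finset.sum_singleton,
      Finset.sum_sub_distrib, Finset.sum_const, ← Nat.cast_smul_eq_nsmul ℝ, hc]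
    module
  have d1 : ∀ a ∈ S1, d a = -(c1 - t) := fun a ha => by
    have e1 : a ≠ j := fun e => hj1 (e ▸ ha)
    simp [hd, ha, e1, Finset.disjoint_left.1 h12 ha, Finset.disjoint_left.1 h13 ha]
  have d2 : ∀ a ∈ S2, d a = -(c2 - t) := fun a ha => by
    have e1 : a ≠ j := fun e => hj2 (e ▸ ha)
    simp [hd, ha, e1, Finset.disjoint_right.1 h12 ha, Finset.disjoint_left.1 h23 ha]
  have d3 : ∀ a ∈ S3, d a = t := fun a ha => by
    have e1 : a ≠ j := fun e => hj3 (e ▸ ha)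
    simp [hd, ha, e1, Finset.disjoint_right.1 h13 ha, Finset.disjoint_right.1 h23 ha]
  rw [e, quad h.sum]
  have := critT_blocks (T := fun l m => -⟪v l, v m⟫ * (d l - d m) ^ 2) (h.term_nonneg d)
    (fun l m => by rw [real_inner_comm]; ring) h12 h13 h23
  rw [critT_blk v d1 d2, critT_blk v d1 d3, critT_blk v d2 d3] at this
  refine le_of_eq_of_le ?_ this
  ring

omit [DecidableEq ι] in
lemma Crit.grp_nonneg (h : Crit v lam) {S T : Finset ι} (hST : Disjoint S T) : 0 ≤ grp v S T :=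
  Finset.sum_nonneg fun a ha => Finset.sum_nonneg fun b hb => by
    have : a ≠ b := fun e => Finset.disjoint_left.1 hST ha (e ▸ hb)
    linarith [h.obt a b this]

lemma Crit.normsq_sum_le (h : Crit v lam) (T : Finset ι) :
    ‖∑ l ∈ T, v l‖ ^ 2 ≤ ∑ l ∈ T, ‖v l‖ ^ 2 := by
  rw [← real_inner_self_eq_norm_sq, sum_inner]
  refine Finset.sum_le_sum fun l hl => ?_
  rw [inner_sum, ← Finset.add_sum_erase _ _ hl, real_inner_self_eq_norm_sq]
  have : ∑ m ∈ T.erase l, ⟪v l, v m⟫ ≤ 0 :=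
    Finset.sum_nonpos fun m hm => (h.obt l m (Finset.ne_of_mem_erase hm).symm).le
  linarith

lemma Crit.row (h : Crit v lam) (l : ι) (S : Finset ι) :
    ∑ m ∈ Sᶜ, -⟪v l, v m⟫ = ∑ m ∈ S, ⟪v l, v m⟫ := by
  have := Finset.sum_add_sum_compl S (fun m => ⟪v l, v m⟫)
  rw [← inner_sum Finset.univ, h.sum, inner_zero_right] at this
  rw [Finset.sum_neg_distrib]
  linarith

lemma Crit.row_nonneg (h : Crit v lam) {l : ι} {S : Finset ι} (hl : l ∈ S) :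
    0 ≤ ∑ m ∈ Sᶜ, -⟪v l, v m⟫ :=
  Finset.sum_nonneg fun m hm => by
    have : l ≠ m := fun e => Finset.mem_compl.1 hm (e ▸ hl)
    linarith [h.obt l m this]

lemma Crit.col (h : Crit v lam) (S : Finset ι) :
    ∑ a ∈ S, ∑ m ∈ Sᶜ, -⟪v a, v m⟫ ≤ ∑ m ∈ Sᶜ, ‖v m‖ ^ 2 := by
  rw [Finset.sum_comm]
  refine Finset.sum_le_sum fun m hm => ?_
  have h1 := h.row_nonneg (Finset.mem_insert_self m S)
  rw [h.row, Finset.sum_insert (Finset.mem_compl.1 hm), real_inner_self_eq_norm_sq] at h1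
  rw [Finset.sum_neg_distrib, Finset.sum_congr rfl fun a _ => real_inner_comm (v m) (v a)]
  linarith

lemma critT_compl_insert (f : ι → ℝ) {S : Finset ι} {j : ι} (hj : j ∉ S) :
    ∑ l ∈ Sᶜ, f l = f j + ∑ l ∈ (insert j S)ᶜ, f l := by
  rw [Finset.compl_insert, Finset.add_sum_erase _ _ (Finset.mem_compl.2 hj)]

theorem Crit.test (h : Crit v lam) (j : ι) {S1 S2 S3 : Finset ι} (h12 : Disjoint S1 S2)
    (h13 : Disjoint S1 S3) (h23 : Disjoint S2 S3) (hj1 : j ∉ S1) (hj2 : j ∉ S2) (hj3 : j ∉ S3)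
    {D : ℝ} (hD : 0 < D) (hD2 : D ^ 2 ≤ e2 (grp v S1 S2) (grp v S1 S3) (grp v S2 S3)) :
    (stdGaussian E).real (cell v j) ≤
      pb (((((S1 ∪ S2 ∪ S3).card : ℝ) + 1) ^ 2 * ‖v j‖ ^ 2 +
        ∑ l ∈ (insert j (S1 ∪ S2 ∪ S3))ᶜ, ‖v l‖ ^ 2) / (2 * Real.pi * D)) := by
  set S := S1 ∪ S2 ∪ S3 with hS
  have hjS : j ∉ S := by simp [hS, hj1, hj2, hj3]
  have hη : ∑ a ∈ S1, (v j - v a) + ∑ a ∈ S2, (v j - v a) + ∑ a ∈ S3, (v j - v a) =
      ((S.card : ℝ) + 1) • v j + ∑ l ∈ (insert j S)ᶜ, v l := by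
    rw [← Finset.sum_union h12, ← Finset.sum_union (Finset.disjoint_union_left.2 ⟨h13, h23⟩),
      ← hS]
    have := Finset.sum_add_sum_compl (insert j S) v
    rw [h.sum, Finset.sum_insert hjS] at this
    rw [Finset.sum_sub_distrib, Finset.sum_const, ← Nat.cast_smul_eq_nsmul ℝ,
      eq_neg_of_add_eq_zero_right this]
    module
  have hH : ‖∑ a ∈ S1, (v j - v a) + ∑ a ∈ S2, (v j - v a) + ∑ a ∈ S3, (v j - v a)‖ ^ 2 ≤
      ((S.card : ℝ) + 1) ^ 2 * ‖v j‖ ^ 2 + ∑ l ∈ (insert j S)ᶜ, ‖v l‖ ^ 2 := by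
    rw [hη, norm_add_sq_real, norm_smul, mul_pow, Real.norm_eq_abs, sq_abs, real_inner_smul_left,
      inner_sum]
    have e1 := h.row_nonneg (Finset.mem_insert_self j S)
    rw [Finset.sum_neg_distrib] at e1
    have e2 := h.normsq_sum_le (insert j S)ᶜ
    have e3 : (0 : ℝ) ≤ (S.card : ℝ) + 1 := by positivity
    nlinarith
  refine le_trans (measureReal_mono ?_) (cone3 _ _ _ (h.grp_nonneg h12) (h.grp_nonneg h13)
    (h.grp_nonneg h23) (h.group_quad j h12 h13 h23 hj1 hj2 hj3) hD hD2 hH)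
  intro x hx
  have key : ∀ T : Finset ι, 0 ≤ ⟪∑ a ∈ T, (v j - v a), x⟫ := fun T => by
    rw [sum_inner]
    exact Finset.sum_nonneg fun a _ => by rw [inner_sub_left]; linarith [hx a]
  exact ⟨key _, key _, key _⟩

theorem Crit.t4 (h : Crit v lam) {i1 i2 i3 i4 : ι} (h12 : i1 ≠ i2) (h13 : i1 ≠ i3) (h14 : i1 ≠ i4)
    (h23 : i2 ≠ i3) (h24 : i2 ≠ i4) (h34 : i3 ≠ i4) (hu12 : ‖v i2‖ ^ 2 ≤ ‖v i1‖ ^ 2)
    (hu23 : ‖v i3‖ ^ 2 ≤ ‖v i2‖ ^ 2) {τ : ℝ}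
    (hτ : τ = ∑ l ∈ ({i1, i2, i3, i4} : Finset ι)ᶜ, ‖v l‖ ^ 2) (D : ℝ) (hD : 0 < D)
    (hD2 : D ^ 2 ≤ He (‖v i1‖ ^ 2) (‖v i2‖ ^ 2) (‖v i3‖ ^ 2 - (‖v i4‖ ^ 2 + τ))) :
    (stdGaussian E).real (cell v i4) ≤ pb ((16 * ‖v i4‖ ^ 2 + τ) / (2 * Real.pi * D)) := by
  have h21 := h12.symm
  have h31 := h13.symm
  have h32 := h23.symm
  have h41 := h14.symm
  have h42 := h24.symm
  have h43 := h34.symm
  have s3 : ∀ f : ι → ℝ, ∑ l ∈ ({i1, i2, i3} : Finset ι), f l = f i1 + f i2 + f i3 := fun f => by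
    rw [Finset.sum_insert (by simp [*]), Finset.sum_insert (by simp [*]), Finset.sum_singleton]
    ring
  have r1 := h.row i1 {i1, i2, i3}
  have r2 := h.row i2 {i1, i2, i3}
  have r3 := h.row i3 {i1, i2, i3}
  have n1 := h.row_nonneg (l := i1) (S := {i1, i2, i3}) (by simp)
  have n2 := h.row_nonneg (l := i2) (S := {i1, i2, i3}) (by simp)
  have n3 := h.row_nonneg (l := i3) (S := {i1, i2, i3}) (by simp)
  have hc := h.col {i1, i2, i3}
  have eS : insert i4 ({i1, i2, i3} : Finset ι) = {i1, i2, i3, i4} := by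
    ext; simp; tauto
  rw [s3, critT_compl_insert (fun m => ‖v m‖ ^ 2) (j := i4) (by simp [*]), eS, ← hτ] at hc
  rw [s3, real_inner_self_eq_norm_sq] at r1 r2 r3
  have hH := He_sub_ge hu12 hu23 (sq_nonneg _) n1 n2 n3 hc
  have eU : ({i1} ∪ {i2} ∪ {i3} : Finset ι) = {i1, i2, i3} := by
    ext; simp
  have c3 : ({i1, i2, i3} : Finset ι).card = 3 := by
    rw [Finset.card_insert_of_notMem (by simp [*]), Finset.card_insert_of_notMem (by simp [*]),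
      Finset.card_singleton]
  have := h.test i4 (S1 := {i1}) (S2 := {i2}) (S3 := {i3}) (by simp [*]) (by simp [*])
    (by simp [*]) (by simp [*]) (by simp [*]) (by simp [*]) hD (by
      refine hD2.trans (hH.trans_eq ?_)
      rw [← He_eq_e2, r1, r2, r3]
      simp only [grp, Finset.sum_singleton]
      rw [real_inner_comm (v i1) (v i2), real_inner_comm (v i1) (v i3),
        real_inner_comm (v i2) (v i3)]
      congr 1 <;> ring)
  rw [eU, eS, c3, ← hτ] at this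
  convert this using 4
  norm_num

theorem Crit.t5 (h : Crit v lam) {i1 i2 i3 i4 i5 : ι} (h12 : i1 ≠ i2) (h13 : i1 ≠ i3)
    (h14 : i1 ≠ i4) (h15 : i1 ≠ i5) (h23 : i2 ≠ i3) (h24 : i2 ≠ i4) (h25 : i2 ≠ i5) (h34 : i3 ≠ i4)
    (h35 : i3 ≠ i5) (h45 : i4 ≠ i5) {τ : ℝ}
    (hτ : τ = ∑ l ∈ ({i1, i2, i3, i4, i5} : Finset ι)ᶜ, ‖v l‖ ^ 2) :
    ∃ ξ1 ξ2 ξ3 δ1 δ2 δ3 : ℝ, 0 ≤ ξ1 ∧ 0 ≤ ξ2 ∧ 0 ≤ ξ3 ∧ 0 ≤ δ1 ∧ 0 ≤ δ2 ∧ 0 ≤ δ3 ∧
      ξ1 + ξ2 + ξ3 ≤ ‖v i5‖ ^ 2 + τ ∧ (‖v i4‖ ^ 2 - (‖v i5‖ ^ 2 + τ)) / 3 ≤ δ1 + δ2 + δ3 ∧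
      δ1 + δ2 + δ3 ≤ ‖v i4‖ ^ 2 ∧ ∀ D : ℝ, 0 < D →
        D ^ 2 ≤ He (‖v i1‖ ^ 2 - ξ1 + δ1) (‖v i2‖ ^ 2 - ξ2 + δ2) (‖v i3‖ ^ 2 - ξ3 + δ3) →
        (stdGaussian E).real (cell v i5) ≤ pb ((25 * ‖v i5‖ ^ 2 + τ) / (2 * Real.pi * D)) := by
  have h21 := h12.symm
  have h31 := h13.symm
  have h32 := h23.symm
  have h41 := h14.symm
  have h42 := h24.symm
  have h43 := h34.symm
  have h51 := h15.symm
  have h52 := h25.symm
  have h53 := h35.symm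
  have h54 := h45.symm
  have s4 : ∀ f : ι → ℝ, ∑ l ∈ ({i1, i2, i3, i4} : Finset ι), f l =
      f i1 + f i2 + f i3 + f i4 := fun f => by
    rw [Finset.sum_insert (by simp [*]), Finset.sum_insert (by simp [*]),
      Finset.sum_insert (by simp [*]), Finset.sum_singleton]
    ring
  have r1 := h.row i1 {i1, i2, i3, i4}
  have r2 := h.row i2 {i1, i2, i3, i4}
  have r3 := h.row i3 {i1, i2, i3, i4}
  have r4 := h.row i4 {i1, i2, i3, i4}
  have n1 := h.row_nonneg (l := i1) (S := {i1, i2, i3, i4}) (by simp)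
  have n2 := h.row_nonneg (l := i2) (S := {i1, i2, i3, i4}) (by simp)
  have n3 := h.row_nonneg (l := i3) (S := {i1, i2, i3, i4}) (by simp)
  have n4 := h.row_nonneg (l := i4) (S := {i1, i2, i3, i4}) (by simp)
  have hc := h.col {i1, i2, i3, i4}
  have eS : insert i5 ({i1, i2, i3, i4} : Finset ι) = {i1, i2, i3, i4, i5} := by
    ext; simp; tauto
  rw [s4, critT_compl_insert (fun m => ‖v m‖ ^ 2) (j := i5) (by simp [*]), eS, ← hτ] at hc
  rw [s4, real_inner_self_eq_norm_sq] at r1 r2 r3 r4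
  have c4 : ({i1, i2, i3, i4} : Finset ι).card = 4 := by
    rw [Finset.card_insert_of_notMem (by simp [*]), Finset.card_insert_of_notMem (by simp [*]),
      Finset.card_insert_of_notMem (by simp [*]), Finset.card_singleton]
  have key : ∀ S1 S2 S3 : Finset ι, Disjoint S1 S2 → Disjoint S1 S3 → Disjoint S2 S3 →
      S1 ∪ S2 ∪ S3 = {i1, i2, i3, i4} → ∀ D : ℝ, 0 < D →
      D ^ 2 ≤ He (grp v S1 S2 + grp v S1 S3) (grp v S1 S2 + grp v S2 S3)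
        (grp v S1 S3 + grp v S2 S3) →
      (stdGaussian E).real (cell v i5) ≤ pb ((25 * ‖v i5‖ ^ 2 + τ) / (2 * Real.pi * D)) := by
    intro S1 S2 S3 d12 d13 d23 hU D hD hD2
    have hj : i5 ∉ S1 ∪ S2 ∪ S3 := by rw [hU]; simp [*]
    simp only [Finset.mem_union, not_or] at hj
    have := h.test i5 d12 d13 d23 hj.1.1 hj.1.2 hj.2 hD (by rwa [← He_eq_e2])
    rw [hU, eS, c4, ← hτ] at this
    convert this using 4
    norm_num
  rw [real_inner_comm (v i1) (v i2)] at r2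
  rw [real_inner_comm (v i1) (v i3), real_inner_comm (v i2) (v i3)] at r3
  rw [real_inner_comm (v i1) (v i4), real_inner_comm (v i2) (v i4),
    real_inner_comm (v i3) (v i4)] at r4
  have o1 := h.obt i1 i4 h14
  have o2 := h.obt i2 i4 h24
  have o3 := h.obt i3 i4 h34
  set ξ1 := ∑ m ∈ ({i1, i2, i3, i4} : Finset ι)ᶜ, -⟪v i1, v m⟫
  set ξ2 := ∑ m ∈ ({i1, i2, i3, i4} : Finset ι)ᶜ, -⟪v i2, v m⟫
  set ξ3 := ∑ m ∈ ({i1, i2, i3, i4} : Finset ι)ᶜ, -⟪v i3, v m⟫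
  set ξ4 := ∑ m ∈ ({i1, i2, i3, i4} : Finset ι)ᶜ, -⟪v i4, v m⟫
  clear_value ξ1 ξ2 ξ3 ξ4
  have hcase : (⟪v i2, v i4⟫ ≤ ⟪v i1, v i4⟫ ∧ ⟪v i3, v i4⟫ ≤ ⟪v i1, v i4⟫) ∨
      (⟪v i1, v i4⟫ ≤ ⟪v i2, v i4⟫ ∧ ⟪v i3, v i4⟫ ≤ ⟪v i2, v i4⟫) ∨
      (⟪v i1, v i4⟫ ≤ ⟪v i3, v i4⟫ ∧ ⟪v i2, v i4⟫ ≤ ⟪v i3, v i4⟫) := by
    by_contra hcon
    simp only [not_or, not_and_or, not_le] at hcon
    obtain ⟨a | a, b | b, c | c⟩ := hcon <;> linarith
  rcases hcase with ⟨a, b⟩ | ⟨a, b⟩ | ⟨a, b⟩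
  · refine ⟨ξ1, ξ2, ξ3, ⟪v i1, v i4⟫ - ⟪v i2, v i4⟫ - ⟪v i3, v i4⟫, 0, 0, n1, n2, n3, by linarith,
      le_rfl, le_rfl, by linarith, by linarith, by linarith, fun D hD hD2 => ?_⟩
    refine key {i1, i4} {i2} {i3} (by simp [*]) (by simp [*]) (by simp [*])
      (by ext; simp; tauto) D hD (hD2.trans_eq ?_)
    simp only [grp, Finset.sum_singleton, Finset.sum_pair h14]
    rw [real_inner_comm (v i2) (v i4), real_inner_comm (v i3) (v i4)]
    congr 1 <;> linarith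
  · refine ⟨ξ1, ξ2, ξ3, 0, ⟪v i2, v i4⟫ - ⟪v i1, v i4⟫ - ⟪v i3, v i4⟫, 0, n1, n2, n3, le_rfl,
      by linarith, le_rfl, by linarith, by linarith, by linarith, fun D hD hD2 => ?_⟩
    refine key {i1} {i2, i4} {i3} (by simp [*]) (by simp [*]) (by simp [*])
      (by ext; simp; tauto) D hD (hD2.trans_eq ?_)
    simp only [grp, Finset.sum_singleton, Finset.sum_pair h24]
    rw [real_inner_comm (v i3) (v i4)]
    congr 1 <;> linarith
  · refine ⟨ξ1, ξ2, ξ3, 0, 0, ⟪v i3, v i4⟫ - ⟪v i1, v i4⟫ - ⟪v i2, v i4⟫, n1, n2, n3, le_rfl,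
      le_rfl, by linarith, by linarith, by linarith, by linarith, fun D hD hD2 => ?_⟩
    refine key {i1} {i2} {i3, i4} (by simp [*]) (by simp [*]) (by simp [*])
      (by ext; simp; tauto) D hD (hD2.trans_eq ?_)
    simp only [grp, Finset.sum_singleton, Finset.sum_pair h34]
    congr 1 <;> linarith

theorem Crit.cap (h : Crit v lam) (h4 : Fintype.card ι = 4) (i : ι) :
    3 / 8 * Real.sqrt (‖v i‖ ^ 2) <
      (stdGaussian E).real (cell v i) * (1 - (stdGaussian E).real (cell v i)) := by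
  obtain ⟨j1, j2, j3, h12, h13, h23, hU⟩ := Finset.card_eq_three.1
    (show (Finset.univ.erase i).card = 3 by
      rw [Finset.card_erase_of_mem (Finset.mem_univ _), Finset.card_univ, h4])
  have hm : ∀ l, l ≠ i ↔ l = j1 ∨ l = j2 ∨ l = j3 := fun l => by
    have := Finset.ext_iff.1 hU l
    simpa using this
  have n1 : j1 ≠ i := (hm _).2 (Or.inl rfl)
  have n2 : j2 ≠ i := (hm _).2 (Or.inr (Or.inl rfl))
  have n3 : j3 ≠ i := (hm _).2 (Or.inr (Or.inr rfl))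
  have hs : v i + (v j1 + (v j2 + v j3)) = 0 := by
    have := Finset.add_sum_erase _ v (Finset.mem_univ i)
    rw [h.sum, hU, Finset.sum_insert (by simp [*]), Finset.sum_pair h23] at this
    exact this
  have hη : (v i - v j1) + (v i - v j2) + (v i - v j3) = (4 : ℝ) • v i := by
    rw [eq_neg_of_add_eq_zero_left hs]
    module
  have hq := h.group_quad i (S1 := {j1}) (S2 := {j2}) (S3 := {j3}) (by simp [*]) (by simp [*])
    (by simp [*]) (by simp [n1.symm]) (by simp [n2.symm]) (by simp [n3.symm])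
  simp only [grp, Finset.sum_singleton] at hq
  have hn := h.norm_pos i
  have hb : ∀ j, j ≠ i → 0 < ⟪v i - v j, (v i - v j1) + (v i - v j2) + (v i - v j3)⟫ :=
    fun j hj => by
    rw [hη, real_inner_smul_right, inner_sub_left, real_inner_self_eq_norm_sq]
    have := h.obt j i hj
    have : 0 < ‖v i‖ ^ 2 := by positivity
    linarith
  have hC : cell v i = {x | 0 ≤ ⟪v i - v j1, x⟫ ∧ 0 ≤ ⟪v i - v j2, x⟫ ∧ 0 ≤ ⟪v i - v j3, x⟫} := by
    ext x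
    simp only [cell, mem_setOf_eq, inner_sub_left, sub_nonneg]
    refine ⟨fun hx => ⟨hx _, hx _, hx _⟩, fun hx j => ?_⟩
    by_cases hj : j = i
    · rw [hj]
    · rcases (hm j).1 hj with rfl | rfl | rfl
      exacts [hx.1, hx.2.1, hx.2.2]
  have key := cap3 _ _ _ (neg_pos.2 (h.obt _ _ h12)) (neg_pos.2 (h.obt _ _ h13))
    (neg_pos.2 (h.obt _ _ h23)) hq (hb _ n1) (hb _ n2) (hb _ n3) hC
  rw [hη, integral_inner (integrable_id_gauss (E := E)).integrableOn, h.mom, real_inner_smul_right,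
    real_inner_smul_left, real_inner_self_eq_norm_sq, norm_smul, Real.norm_eq_abs,
    abs_of_pos (by norm_num : (0 : ℝ) < 4)] at key
  rw [Real.sqrt_sq hn.le]
  have hl := h.lam_gt
  have hs2 := sqrt_two_pi_pos
  unfold cc at hl
  set P := (stdGaussian E).real (cell v i) * (1 - (stdGaussian E).real (cell v i))
  set s := Real.sqrt (2 * Real.pi)
  have e1 : lam * ‖v i‖ ≤ 4 / s * P := by
    have : (4 * ‖v i‖) * (lam * ‖v i‖) ≤ (4 * ‖v i‖) * (4 / s * P) := by linarith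
    exact le_of_mul_le_mul_left this (by positivity)
  have e2 : 3 / (2 * s) * ‖v i‖ < 4 / s * P := lt_of_lt_of_le (by gcongr) e1
  have e3 : 4 / s * (3 / 8 * ‖v i‖) < 4 / s * P := by
    refine lt_of_eq_of_lt ?_ e2
    field_simp
    norm_num
  exact lt_of_mul_lt_mul_left e3 (by positivity)

end Crest.Agent.R215
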