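import Mathlib

/-! Row 215 (propeller conjecture in all dimensions): definitions. -/

set_option autoImplicit false

namespace Crest.Agent.R215

open MeasureTheory ProbabilityTheory Set
open scoped RealInnerProductSpace

/-- standard normal density -/
noncomputable def phi (x : ℝ) : ℝ := Real.exp (-x ^ 2 / 2) / Real.sqrt (2 * Real.pi)
/-- standard normal distribution function -/
noncomputable def Phi (x : ℝ) : ℝ := ∫ t in Iic x, phi t
/-- upper tail -/
noncomputable def Q (x : ℝ) : ℝ := Phi (-x)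
/-- `G a = E (Z - a)₊` -/
noncomputable def G (x : ℝ) : ℝ := phi x - x * Q x
/-- inverse of `Phi` on `(0,1)` -/
noncomputable def PhiInv (p : ℝ) : ℝ := Function.invFun Phi p
/-- the standard Gaussian measure on the line -/
noncomputable abbrev g1 : Measure ℝ := gaussianReal 0 1
/-- Ehrhard functional `Φ⁻¹ (∫ Φ ∘ V dμ)` -/
noncomputable def Eh {Ω : Type*} [MeasurableSpace Ω] (μ : Measure Ω) (V : Ω → ℝ) : ℝ :=
  PhiInv (∫ ω, Phi (V ω) ∂μ)
/-- the constant `c = 3 / (2 √(2π))`, `c² = 9/(8π)` -/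
noncomputable def cc : ℝ := 3 / (2 * Real.sqrt (2 * Real.pi))
/-- bound for the Gaussian measure of a trihedral cone whose unit cross-section has area `π y` -/
noncomputable def pb (y : ℝ) : ℝ := (1 - 1 / Real.sqrt (1 + y)) / 2
/-- second elementary symmetric function -/
def e2 (x y z : ℝ) : ℝ := x * y + x * z + y * z

section
variable {E : Type*} [NormedAddCommGroup E] [InnerProductSpace ℝ E] [FiniteDimensional ℝ E]
  [MeasurableSpace E] [BorelSpace E]

/-- expected maximum of the Gaussian variables `⟪v i, x⟫` -/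
noncomputable def F {ι : Type} (v : ι → E) : ℝ := ∫ x, (⨆ i, ⟪v i, x⟫) ∂stdGaussian E

/-- Voronoi type cell -/
def cell {ι : Type} (v : ι → E) (i : ι) : Set E := {x | ∀ j, ⟪v j, x⟫ ≤ ⟪v i, x⟫}

/-- expected gain of the vector `v i` over the other ones -/
noncomputable def gap {ι : Type} (v : ι → E) (i : ι) : ℝ :=
  ∫ x, max (⨅ j : {j // j ≠ i}, ⟪v i - v j, x⟫) 0 ∂stdGaussian E

/-- a measurable partition up to null sets -/
structure AEPart {ι : Type} (A : ι → Set E) : Prop where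
  meas : ∀ i, MeasurableSet (A i)
  disj : Pairwise fun i j => AEDisjoint (stdGaussian E) (A i) (A j)
  cover : ⋃ i, A i = univ

/-- the bound to be proved, for index types of cardinality `k` -/
def Bound (E : Type*) [NormedAddCommGroup E] [InnerProductSpace ℝ E] [FiniteDimensional ℝ E]
    [MeasurableSpace E] [BorelSpace E] (k : ℕ) : Prop :=
  ∀ (ι : Type) [Fintype ι], Fintype.card ι = k → ∀ v : ι → E,
    F v ≤ cc * Real.sqrt (∑ i, ‖v i‖ ^ 2)

/-- a critical configuration (a maximiser in a minimal counterexample) -/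
structure Crit {ι : Type} [Fintype ι] (v : ι → E) (lam : ℝ) : Prop where
  card : 4 ≤ Fintype.card ι
  lam_gt : cc < lam
  norm : ∑ i, ‖v i‖ ^ 2 = 1
  sum : ∑ i, v i = 0
  obt : ∀ i j, i ≠ j → ⟪v i, v j⟫ < 0
  mom : ∀ i, ∫ x in cell v i, x ∂stdGaussian E = lam • v i
  prob : ∑ i, (stdGaussian E).real (cell v i) = 1
  del : ∀ i, lam - cc * Real.sqrt (1 - (Fintype.card ι : ℝ) / (Fintype.card ι - 1) * ‖v i‖ ^ 2)
    ≤ gap v i
end

/-- analytic facts relating the squared norm `u` of a vector of a critical configuration and the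
probability `p` of its cell -/
structure Facts (u p : ℝ) : Prop where
  pos : 0 < u
  jb : ∃ a, 0 ≤ a ∧ Q a = p ∧ cc ^ 2 * (1 - Real.sqrt (1 - u)) ≤ phi a * G a
  iso : ∀ a, 0 ≤ a → cc * Real.sqrt u ≤ G a + a * p

/-- numerical consequences of `Facts` -/
structure Lines (u p : ℝ) : Prop where
  pos : 0 < u
  le : u ≤ 4 / 9
  s0 : 0.4231 * Real.sqrt u ≤ p
  s1 : 0.005 ≤ u → 0.45 * Real.sqrt u ≤ p
  s2 : 0.015 ≤ u → 0.455 * Real.sqrt u ≤ p
  l1 : 0.15 ≤ u → 0.097 + 0.6 * u ≤ p
  l2 : -0.057 + 1.05 * u ≤ p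
  l3 : -0.138 + 1.27 * u ≤ p
  l4 : -0.237 + 1.52 * u ≤ p
  l5 : -0.522 + 2.2 * u ≤ p

end Crest.Agent.R215
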