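import Crest.Agent.R215.EndLem

/-! Row 215: endgame, branch A (`u4 ≤ 0.04`). -/

set_option autoImplicit false

namespace Crest.Agent.R215

open MeasureTheory ProbabilityTheory Set Filter Topology
open scoped RealInnerProductSpace NNReal

theorem endA {u1 u2 u3 u4 p1 p2 p3 p4 τ R P : ℝ} (L1 : Lines u1 p1) (L2 : Lines u2 p2)
    (L3 : Lines u3 p3) (L4 : Lines u4 p4) (h12 : u2 ≤ u1) (h23 : u3 ≤ u2) (h34 : u4 ≤ u3)
    (hτ : 0 ≤ τ) (hR : 0 ≤ R) (hP : 0.4231 * R ≤ P) (hτ1 : τ ≤ Real.sqrt u4 * R) (hτ2 : τ ≤ R ^ 2)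
    (hu : u1 + u2 + u3 + u4 + τ = 1) (hp : p1 + p2 + p3 + p4 + P = 1) (h4 : u4 ≤ 0.04)
    (T4 : ∀ D : ℝ, 0 < D → D ^ 2 ≤ He u1 u2 (u3 - (u4 + τ)) →
      p4 ≤ pb ((16 * u4 + τ) / (2 * Real.pi * D))) : False := by
  obtain ⟨hx0, hx2⟩ := sqrt_facts L4.pos
  have s4 := L4.s0
  have s4' := L4.s2
  set x := Real.sqrt u4
  have hx : x ≤ 0.2 := le_of_sq_eq hx2 (by norm_num) (by linarith)
  have hP2 : 2.115 * τ ≤ P := by linarith [mul_nonneg hR (sub_nonneg.2 hx)]
  have hp4 := L4.small h4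
  have u4p := L4.pos
  have a1 := L1.le
  have a2 := L1.l2
  have a3 := L1.l3
  have a4 := L1.l4
  have a5 := L1.l5
  have b2 := L2.l2
  have b3 := L2.l3
  have b4 := L2.l4
  have b5 := L2.l5
  have c2 := L3.l2
  have h3 : 0.15 ≤ u3 := by
    by_contra hc
    push Not at hc
    rcases le_total u3 0.04 with h | h
    · have := L3.small h; linarith
    · have := L3.l0 h hc.le; linarith
  have a1' := L1.l1 (by linarith)
  have b1 := L2.l1 (by linarith)
  have c1 := L3.l1 h3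
  have e2 : u2 = 1 - (u4 + τ) - u1 - u3 := by linarith
  rcases le_total u4 0.015 with h | h
  · have hx' : x ≤ 0.1225 := le_of_sq_eq hx2 (by norm_num) (by linarith)
    have k1 : u4 + τ ≤ 0.1225 * (x + R) := by
      linarith [mul_nonneg hR (sub_nonneg.2 hx'), mul_nonneg hx0.le (sub_nonneg.2 hx')]
    have k2 : 3.45 * (u4 + τ) ≤ p4 + P := by linarith
    have k3 : x + R ≤ 0.312 := by linarith
    have k4 : 0.042 ≤ He u1 u2 (u3 - (u4 + τ)) := by
      rw [e2]
      apply heA1 <;> linarith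
    have k5 := pb_test (r := 1) (by linarith) (by norm_num) one_pos
      (T4 0.2049 (by norm_num) (by linarith))
    have k6 : 16 * u4 + τ ≤ 2.1495 * x := by
      linarith [mul_nonneg hx0.le (sub_nonneg.2 hx'), mul_nonneg hx0.le (sub_nonneg.2 k3)]
    norm_num at k5
    linarith
  · have s4'' := s4' h
    have hx' : 0.1224 ≤ x := ge_of_sq_eq hx0 hx2 (by linarith)
    have k1 : 0.0345 + 1.412 * u4 ≤ p4 := by
      linarith [mul_nonneg (sub_nonneg.2 hx') (sub_nonneg.2 hx)]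
    have k4 : 0.049 ≤ He u1 u2 (u3 - (u4 + τ)) := by
      rw [e2]
      apply heA2 <;> linarith
    have k5 := pb_test (r := 5 / 6) (by linarith) (by norm_num) (by norm_num)
      (T4 0.2213 (by norm_num) (by linarith))
    norm_num at k5
    linarith

end Crest.Agent.R215
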