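import Crest.Agent.R215.EndLem

/-! Row 215: endgame, branch B with four cells. -/

set_option autoImplicit false

namespace Crest.Agent.R215

open MeasureTheory ProbabilityTheory Set Filter Topology
open scoped RealInnerProductSpace NNReal

lemma lt_of_cap {p l t : ℝ} (hl : l ≤ 1 / 2) (h : l * (1 - l) ≤ t) (hp : t < p * (1 - p)) : l < p := by
  by_contra hc
  push Not at hc
  nlinarith [mul_nonneg (sub_nonneg.2 hc) (show 0 ≤ 1 - l - p by linarith)]

lemma cap_line1 {u p : ℝ} (h1 : 0.101 ≤ u) (h2 : u ≤ 4 / 9)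
    (c : 3 / 8 * Real.sqrt u < p * (1 - p)) : 1 / 16 + 3 / 4 * u < p := by
  obtain ⟨h3, h4⟩ := sqrt_facts (show 0 < u by linarith)
  set t := Real.sqrt u
  have h5 : 0.3178 ≤ t := by nlinarith
  refine lt_of_cap (by linarith) ?_ c
  rw [← h4]
  have h6 : 0 ≤ 36 * t ^ 2 + 36 * t - 15 := by nlinarith
  nlinarith [mul_nonneg (sq_nonneg (2 * t - 1)) h6]

lemma cap_line2 {u p : ℝ} (h1 : 0.04 ≤ u) (h2 : u ≤ 4 / 9)
    (c : 3 / 8 * Real.sqrt u < p * (1 - p)) : 3 / 80 + 375 / 448 * u < p := by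
  obtain ⟨h3, h4⟩ := sqrt_facts (show 0 < u by linarith)
  set t := Real.sqrt u
  have h5 : 0.2 ≤ t := by nlinarith
  refine lt_of_cap (by linarith) ?_ c
  rw [← h4]
  have h6 : 0 ≤ t ^ 2 + 28 / 25 * t - 77 / 468.75 := by nlinarith
  nlinarith [mul_nonneg (sq_nonneg (t - 14 / 25)) h6]

theorem endB4 {u1 u2 u3 u4 p1 p2 p3 p4 : ℝ} (L1 : Lines u1 p1) (L2 : Lines u2 p2)
    (L3 : Lines u3 p3) (L4 : Lines u4 p4) (h12 : u2 ≤ u1) (h23 : u3 ≤ u2) (h34 : u4 ≤ u3)
    (hu : u1 + u2 + u3 + u4 = 1) (hp : p1 + p2 + p3 + p4 = 1) (h4 : 0.04 ≤ u4)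
    (c1 : 3 / 8 * Real.sqrt u1 < p1 * (1 - p1)) (c2 : 3 / 8 * Real.sqrt u2 < p2 * (1 - p2))
    (c3 : 3 / 8 * Real.sqrt u3 < p3 * (1 - p3)) (c4 : 3 / 8 * Real.sqrt u4 < p4 * (1 - p4)) :
    False := by
  rcases le_total 0.101 u4 with h | h
  · have := cap_line1 (by linarith) L1.le c1
    have := cap_line1 (by linarith) L2.le c2
    have := cap_line1 (by linarith) L3.le c3
    have := cap_line1 (by linarith) L4.le c4
    linarith
  · have := cap_line2 (by linarith) L1.le c1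
    have := cap_line2 (by linarith) L2.le c2
    have := cap_line2 (by linarith) L3.le c3
    have := L4.l0 h4 (by linarith)
    linarith

end Crest.Agent.R215
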