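import Crest.Agent.R215.EndLem

/-! Row 215: endgame, branch B with at least five cells. -/

set_option autoImplicit false
set_option linter.unusedVariables false

namespace Crest.Agent.R215

open MeasureTheory ProbabilityTheory Set Filter Topology
open scoped RealInnerProductSpace NNReal

section
variable {u1 u2 u3 u4 u5 p1 p2 p3 p4 p5 τ R P ξ1 ξ2 ξ3 δ1 δ2 δ3 x : ℝ}

lemma endB5_2 (L1 : Lines u1 p1)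
    (L2 : Lines u2 p2) (L3 : Lines u3 p3) (L4 : Lines u4 p4) (h12 : u2 ≤ u1)
    (h23 : u3 ≤ u2) (h34 : u4 ≤ u3) (hx0 : 0 < x) (hx2 : x ^ 2 = u5) (hx : x ≤ 0.2)
    (s0 : 0.4231 * x ≤ p5) (s1 : 0.005 ≤ u5 → 0.45 * x ≤ p5)
    (hτ : 0 ≤ τ) (hR : 0 ≤ R) (hP : 0.4231 * R ≤ P) (hτ1 : τ ≤ x * R)
    (hu : u1 + u2 + u3 + u4 + u5 + τ = 1) (hp : p1 + p2 + p3 + p4 + p5 + P = 1) (h4 : 0.04 ≤ u4)
    (x1 : 0 ≤ ξ1) (x2 : 0 ≤ ξ2) (x3 : 0 ≤ ξ3) (d1 : 0 ≤ δ1) (d2 : 0 ≤ δ2) (d3 : 0 ≤ δ3)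
    (hξ : ξ1 + ξ2 + ξ3 ≤ u5 + τ) (hδ : (u4 - (u5 + τ)) / 3 ≤ δ1 + δ2 + δ3)
    (hδ' : δ1 + δ2 + δ3 ≤ u4)
    (T5 : ∀ D : ℝ, 0 < D → D ^ 2 ≤ He (u1 - ξ1 + δ1) (u2 - ξ2 + δ2) (u3 - ξ3 + δ3) →
      p5 ≤ pb ((25 * u5 + τ) / (2 * Real.pi * D))) (h3 : u3 ≤ 0.15) : False := by
  have a1 := L1.le
  have a2 := L1.l2
  have a5 := L1.l5
  have b2 := L2.l2
  have c0 := L3.l0 (by linarith) h3
  have d0 := L4.l0 h4 (by linarith)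
  have hx' : x ≤ 0.075 := by
    by_contra hc
    push Not at hc
    have := s1 (by linarith [mul_pos (sub_pos.2 hc) hx0])
    linarith [mul_nonneg (sub_nonneg.2 hc.le) (sub_nonneg.2 hx), mul_nonneg hR (sub_nonneg.2 hx)]
  have k1 : u5 + τ ≤ 0.075 * (x + R) := by
    linarith [mul_nonneg hR (sub_nonneg.2 hx'), mul_nonneg hx0.le (sub_nonneg.2 hx')]
  have k3 : x + R ≤ 0.078 := by linarith
  have k4 : 0.034 ≤ He (u1 - ξ1 + δ1) (u2 - ξ2 + δ2) (u3 - ξ3 + δ3) := by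
    apply heR2 (u4 := u4) <;> linarith
  have k5 := pb_test (r := 1) (by linarith [sq_nonneg x]) (by norm_num) one_pos
    (T5 0.1843 (by norm_num) (by linarith))
  have k6 : 25 * u5 + τ ≤ 1.878 * x := by
    linarith [mul_nonneg hx0.le (sub_nonneg.2 hx'), mul_nonneg hx0.le (sub_nonneg.2 k3)]
  norm_num at k5
  linarith

lemma endB5_1 (L1 : Lines u1 p1)
    (L2 : Lines u2 p2) (L3 : Lines u3 p3) (L4 : Lines u4 p4) (h12 : u2 ≤ u1)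
    (h23 : u3 ≤ u2) (h34 : u4 ≤ u3) (hx0 : 0 < x) (hx2 : x ^ 2 = u5) (hx' : x ≤ 0.0708)
    (s0 : 0.4231 * x ≤ p5)
    (hτ : 0 ≤ τ) (hR : 0 ≤ R) (hP : 0.4231 * R ≤ P) (hτ1 : τ ≤ x * R)
    (hu : u1 + u2 + u3 + u4 + u5 + τ = 1) (hp : p1 + p2 + p3 + p4 + p5 + P = 1) (h4 : 0.04 ≤ u4)
    (x1 : 0 ≤ ξ1) (x2 : 0 ≤ ξ2) (x3 : 0 ≤ ξ3) (d1 : 0 ≤ δ1) (d2 : 0 ≤ δ2) (d3 : 0 ≤ δ3)
    (hξ : ξ1 + ξ2 + ξ3 ≤ u5 + τ) (hδ : (u4 - (u5 + τ)) / 3 ≤ δ1 + δ2 + δ3)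
    (hδ' : δ1 + δ2 + δ3 ≤ u4)
    (T5 : ∀ D : ℝ, 0 < D → D ^ 2 ≤ He (u1 - ξ1 + δ1) (u2 - ξ2 + δ2) (u3 - ξ3 + δ3) →
      p5 ≤ pb ((25 * u5 + τ) / (2 * Real.pi * D))) (h3 : 0.15 ≤ u3) : False := by
  have a0 := L1.le
  have a1 := L1.l1 (by linarith)
  have a3 := L1.l3
  have a5 := L1.l5
  have b1 := L2.l1 (by linarith)
  have b3 := L2.l3
  have c1 := L3.l1 h3
  have d6 := L4.l6 h4
  have k1 : u5 + τ ≤ 0.0708 * (x + R) := by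
    linarith [mul_nonneg hR (sub_nonneg.2 hx'), mul_nonneg hx0.le (sub_nonneg.2 hx')]
  have k3 : x + R ≤ 0.1157 := by linarith
  have k4 : 0.0296 ≤ He (u1 - ξ1 + δ1) (u2 - ξ2 + δ2) (u3 - ξ3 + δ3) := by
    apply heR1 (u4 := u4) <;> linarith
  have k5 := pb_test (r := 1) (by linarith [sq_nonneg x]) (by norm_num) one_pos
    (T5 0.172 (by norm_num) (by linarith))
  have k6 : 25 * u5 + τ ≤ 1.815 * x := by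
    linarith [mul_nonneg hx0.le (sub_nonneg.2 hx'), mul_nonneg hx0.le (sub_nonneg.2 k3)]
  norm_num at k5
  linarith

lemma endB5_3 (L1 : Lines u1 p1)
    (L2 : Lines u2 p2) (L3 : Lines u3 p3) (L4 : Lines u4 p4) (h12 : u2 ≤ u1)
    (h23 : u3 ≤ u2) (h34 : u4 ≤ u3) (hx0 : 0.0708 ≤ x) (hx2 : x ^ 2 = u5) (hx : x ≤ 0.2)
    (s1 : 0.005 ≤ u5 → 0.45 * x ≤ p5)
    (hτ : 0 ≤ τ) (hR : 0 ≤ R) (hP : 0.4231 * R ≤ P) (hτ1 : τ ≤ x * R)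
    (hu : u1 + u2 + u3 + u4 + u5 + τ = 1) (hp : p1 + p2 + p3 + p4 + p5 + P = 1) (h4 : 0.04 ≤ u4)
    (x1 : 0 ≤ ξ1) (x2 : 0 ≤ ξ2) (x3 : 0 ≤ ξ3) (d1 : 0 ≤ δ1) (d2 : 0 ≤ δ2) (d3 : 0 ≤ δ3)
    (hξ : ξ1 + ξ2 + ξ3 ≤ u5 + τ) (hδ : (u4 - (u5 + τ)) / 3 ≤ δ1 + δ2 + δ3)
    (hδ' : δ1 + δ2 + δ3 ≤ u4)
    (T5 : ∀ D : ℝ, 0 < D → D ^ 2 ≤ He (u1 - ξ1 + δ1) (u2 - ξ2 + δ2) (u3 - ξ3 + δ3) →
      p5 ≤ pb ((25 * u5 + τ) / (2 * Real.pi * D))) (h3 : 0.15 ≤ u3) : False := by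
  have a1 := L1.l1 (by linarith)
  have a2 := L1.l2
  have a5 := L1.l5
  have b1 := L2.l1 (by linarith)
  have b2 := L2.l2
  have c1 := L3.l1 h3
  have h5 : 0.005 ≤ u5 := by
    linarith [mul_nonneg (sub_nonneg.2 hx0) (show 0 ≤ x by linarith)]
  have s1' := s1 h5
  have r1 := mul_nonneg hR (sub_nonneg.2 hx)
  rcases le_total 0.15 u4 with h | h
  · have d1 := L4.l1 h
    linarith [mul_nonneg (sub_nonneg.2 hx0) (sub_nonneg.2 hx)]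
  have d0 := L4.l0 h4 h
  have hx' : x ≤ 0.11 := by
    by_contra hc
    push Not at hc
    linarith [mul_nonneg (sub_nonneg.2 hc.le) (sub_nonneg.2 hx)]
  have r2 := mul_nonneg hR (sub_nonneg.2 hx')
  have r3 := mul_nonneg (sub_nonneg.2 hx0) (sub_nonneg.2 hx')
  have k2 : 0.0193 + 2.49 * (u5 + τ) ≤ p5 + P := by linarith
  have k3 : R ≤ 0.04 := by linarith
  have k4 : 0.05 ≤ He (u1 - ξ1 + δ1) (u2 - ξ2 + δ2) (u3 - ξ3 + δ3) := by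
    apply heR3 (u4 := u4) <;> linarith
  have k5 := pb_test (r := 0.92) (by linarith) (by norm_num) (by norm_num)
    (T5 0.2236 (by norm_num) (by linarith))
  norm_num at k5
  linarith

end

theorem endB5 {u1 u2 u3 u4 u5 p1 p2 p3 p4 p5 τ R P ξ1 ξ2 ξ3 δ1 δ2 δ3 : ℝ} (L1 : Lines u1 p1)
    (L2 : Lines u2 p2) (L3 : Lines u3 p3) (L4 : Lines u4 p4) (L5 : Lines u5 p5) (h12 : u2 ≤ u1)
    (h23 : u3 ≤ u2) (h34 : u4 ≤ u3) (h45 : u5 ≤ u4)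
    (hτ : 0 ≤ τ) (hR : 0 ≤ R) (hP : 0.4231 * R ≤ P) (hτ1 : τ ≤ Real.sqrt u5 * R) (hτ2 : τ ≤ R ^ 2)
    (hu : u1 + u2 + u3 + u4 + u5 + τ = 1) (hp : p1 + p2 + p3 + p4 + p5 + P = 1) (h4 : 0.04 ≤ u4)
    (x1 : 0 ≤ ξ1) (x2 : 0 ≤ ξ2) (x3 : 0 ≤ ξ3) (d1 : 0 ≤ δ1) (d2 : 0 ≤ δ2) (d3 : 0 ≤ δ3)
    (hξ : ξ1 + ξ2 + ξ3 ≤ u5 + τ) (hδ : (u4 - (u5 + τ)) / 3 ≤ δ1 + δ2 + δ3)
    (hδ' : δ1 + δ2 + δ3 ≤ u4)
    (T5 : ∀ D : ℝ, 0 < D → D ^ 2 ≤ He (u1 - ξ1 + δ1) (u2 - ξ2 + δ2) (u3 - ξ3 + δ3) →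
      p5 ≤ pb ((25 * u5 + τ) / (2 * Real.pi * D))) : False := by
  obtain ⟨hx0, hx2⟩ := sqrt_facts L5.pos
  have s0 := L5.s0
  have s1 := L5.s1
  set x := Real.sqrt u5
  have h5 : u5 ≤ 0.04 := by
    by_contra hc
    push Not at hc
    have := L1.l6 (by linarith)
    have := L2.l6 (by linarith)
    have := L3.l6 (by linarith)
    have := L4.l6 (by linarith)
    have := L5.l6 (by linarith)
    have hx : x ≤ 0.45 := le_of_sq_eq hx2 (by norm_num) (by linarith)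
    linarith [mul_nonneg hR (sub_nonneg.2 hx)]
  have hx : x ≤ 0.2 := le_of_sq_eq hx2 (by norm_num) (by linarith)
  rcases le_total u3 0.15 with h3 | h3
  · exact endB5_2 L1 L2 L3 L4 h12 h23 h34 hx0 hx2 hx s0 s1 hτ hR hP hτ1 hu hp h4 x1 x2 x3 d1 d2 d3
      hξ hδ hδ' T5 h3
  rcases le_total x 0.0708 with h | h
  · exact endB5_1 L1 L2 L3 L4 h12 h23 h34 hx0 hx2 h s0 hτ hR hP hτ1 hu hp h4 x1 x2 x3 d1 d2 d3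
      hξ hδ hδ' T5 h3
  · exact endB5_3 L1 L2 L3 L4 h12 h23 h34 h hx2 hx s1 hτ hR hP hτ1 hu hp h4 x1 x2 x3 d1 d2 d3
      hξ hδ hδ' T5 h3

end Crest.Agent.R215
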