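import Crest.Agent.R215.HeLP

/-! Row 215: elementary lemmas for the endgame. -/

set_option autoImplicit false

namespace Crest.Agent.R215

lemma pb_le_tan {y r : ℝ} (hy : 0 ≤ y) (hr : 0 < r) :
    pb y ≤ 1 / 2 - 3 * r / 4 + r ^ 3 / 4 * (1 + y) := by
  unfold pb
  have h1 : 0 < 1 + y := by linarith
  have h2 := Real.sq_sqrt h1.le
  have h3 := Real.sqrt_pos.2 h1
  set s := Real.sqrt (1 + y)
  rw [← h2]
  have h4 : 1 / 2 - 3 * r / 4 + r ^ 3 / 4 * s ^ 2 - (1 - 1 / s) / 2 =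
      (r * s - 1) ^ 2 * (r * s + 2) / (4 * s) := by
    field_simp
    ring
  have h5 : 0 ≤ (r * s - 1) ^ 2 * (r * s + 2) / (4 * s) := by positivity
  linarith

lemma pb_test {p N D r : ℝ} (hN : 0 ≤ N) (hD : 0 < D) (hr : 0 < r)
    (h : p ≤ pb (N / (2 * Real.pi * D))) :
    p ≤ 1 / 2 - 3 * r / 4 + r ^ 3 / 4 + r ^ 3 / 4 / (6.283 * D) * N := by
  have hpi := Real.pi_gt_d4
  have h1 := pb_le_tan (y := N / (2 * Real.pi * D)) (by positivity) hr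
  have h2 : N / (2 * Real.pi * D) ≤ N / (6.283 * D) := by
    apply div_le_div_of_nonneg_left hN (by positivity)
    nlinarith
  have h3 : r ^ 3 / 4 * (N / (2 * Real.pi * D)) ≤ r ^ 3 / 4 * (N / (6.283 * D)) :=
    mul_le_mul_of_nonneg_left h2 (by positivity)
  have h4 : r ^ 3 / 4 / (6.283 * D) * N = r ^ 3 / 4 * (N / (6.283 * D)) := by ring
  linarith

lemma sqrt_facts {u : ℝ} (hu : 0 < u) : 0 < Real.sqrt u ∧ Real.sqrt u ^ 2 = u :=
  ⟨Real.sqrt_pos.2 hu, Real.sq_sqrt hu.le⟩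

lemma le_of_sq_eq {x u c : ℝ} (hx : x ^ 2 = u) (hc : 0 ≤ c) (h : u ≤ c ^ 2) : x ≤ c :=
  (abs_le_of_sq_le_sq' (by linarith) hc).2

lemma ge_of_sq_eq {x u c : ℝ} (hx0 : 0 < x) (hx : x ^ 2 = u) (h : c ^ 2 ≤ u) : c ≤ x :=
  (abs_le_of_sq_le_sq' (by linarith) hx0.le).2

lemma Lines.l0 {u p : ℝ} (L : Lines u p) (h1 : 0.04 ≤ u) (h2 : u ≤ 0.15) : 0.06 + 0.774 * u ≤ p := by
  obtain ⟨h3, h4⟩ := sqrt_facts L.pos
  have h5 := L.s2 (by linarith)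
  set x := Real.sqrt u
  have h6 : 0.2 ≤ x := by nlinarith
  have h7 : x ≤ 0.3873 := by nlinarith
  nlinarith [mul_nonneg (sub_nonneg.2 h6) (sub_nonneg.2 h7)]

lemma Lines.l6 {u p : ℝ} (L : Lines u p) (h1 : 0.04 ≤ u) : 0.061 + 0.7 * u ≤ p := by
  rcases le_total u 0.15 with h | h
  · have := L.l0 h1 h; linarith
  · have := L.l1 h; have := L.l2
    rcases le_total u 0.35 with h' | h' <;> linarith

lemma Lines.small {u p : ℝ} (L : Lines u p) (h2 : u ≤ 0.04) : 2.115 * u ≤ p := by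
  obtain ⟨h3, h4⟩ := sqrt_facts L.pos
  have h5 := L.s0
  set x := Real.sqrt u
  have h7 : x ≤ 0.2 := by nlinarith
  nlinarith

end Crest.Agent.R215
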