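import Crest.Agent.R215.Defs

/-! Row 215: elementary calculus of `phi`, `Phi`, `Q`, `PhiInv`.
Plan: `phi = gaussianPDFReal 0 1`; `integral_gaussianReal_eq_integral_smul`; derivative of `Phi` from
`Phi x = Phi 0 + ∫ t in 0..x, phi t` (`intervalIntegral.integral_Iic_sub_Iic`, FTC); limits from
`aecover`/`tendsto_setIntegral_of_monotone` or via `ProbabilityTheory.cdf` (`Phi = cdf g1`);
`PhiInv` : `Function.invFun` + injectivity + IVT; continuity of the inverse of a strictly monotone continuous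
map (e.g. `StrictMono.orderIso`, `continuousAt_of_monotoneOn_of_image_mem_nhds`, or an ε-argument);
derivative by `HasDerivAt.of_local_left_inverse`. -/

set_option autoImplicit false

namespace Crest.Agent.R215

open MeasureTheory ProbabilityTheory Set Filter Topology
open scoped RealInnerProductSpace NNReal

lemma sqrt_two_pi_pos : 0 < Real.sqrt (2 * Real.pi) := Real.sqrt_pos.2 (by positivity)

lemma phi_pos (x : ℝ) : 0 < phi x := div_pos (Real.exp_pos _) sqrt_two_pi_pos
lemma phi_neg (x : ℝ) : phi (-x) = phi x := by simp [phi]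
lemma phi_le (x : ℝ) : phi x ≤ 1 / Real.sqrt (2 * Real.pi) := by
  unfold phi
  apply div_le_div_of_nonneg_right _ sqrt_two_pi_pos.le
  apply Real.exp_le_one_iff.2
  nlinarith [sq_nonneg x]
lemma phi_zero : phi 0 = 1 / Real.sqrt (2 * Real.pi) := by simp [phi]
lemma phi_eq_pdf (x : ℝ) : phi x = gaussianPDFReal 0 1 x := by
  simp only [phi, gaussianPDFReal, NNReal.coe_one, mul_one, sub_zero]
  rw [div_eq_mul_inv, mul_comm]
lemma hasDerivAt_phi (x : ℝ) : HasDerivAt phi (-x * phi x) x := by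
  have h1 : HasDerivAt (fun x : ℝ => -x ^ 2 / 2) (-x) x := by
    have := ((hasDerivAt_pow 2 x).neg).div_const 2
    refine this.congr_deriv ?_
    simp; ring
  have h2 := (h1.exp).div_const (Real.sqrt (2 * Real.pi))
  refine h2.congr_deriv ?_
  unfold phi; ring
lemma continuous_phi : Continuous phi :=
  continuous_iff_continuousAt.2 fun x => (hasDerivAt_phi x).continuousAt
lemma phi_eq_pdf' : phi = gaussianPDFReal 0 1 := funext phi_eq_pdf
lemma integrable_phi : Integrable phi := by
  rw [phi_eq_pdf']; exact integrable_gaussianPDFReal 0 1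
lemma integral_phi : ∫ x, phi x = 1 := by
  rw [phi_eq_pdf']; exact integral_gaussianPDFReal_eq_one 0 one_ne_zero
lemma integral_g1 (f : ℝ → ℝ) : ∫ x, f x ∂g1 = ∫ x, phi x * f x := by
  rw [integral_gaussianReal_eq_integral_smul one_ne_zero]
  simp [phi_eq_pdf]
lemma Phi_eq_add (x : ℝ) : Phi x = Phi 0 + ∫ t in (0 : ℝ)..x, phi t := by
  have := intervalIntegral.integral_Iic_sub_Iic (f := phi) (μ := volume) (a := 0) (b := x)
    integrable_phi.integrableOn integrable_phi.integrableOn
  unfold Phi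
  linarith
lemma hasDerivAt_Phi (x : ℝ) : HasDerivAt Phi (phi x) x := by
  have h : Phi = fun x => Phi 0 + ∫ t in (0 : ℝ)..x, phi t := funext Phi_eq_add
  rw [h]
  exact (continuous_phi.integral_hasStrictDerivAt 0 x).hasDerivAt.const_add _
lemma continuous_Phi : Continuous Phi :=
  continuous_iff_continuousAt.2 fun x => (hasDerivAt_Phi x).continuousAt
lemma strictMono_Phi : StrictMono Phi :=
  strictMono_of_deriv_pos fun x => by rw [(hasDerivAt_Phi x).deriv]; exact phi_pos x
lemma Phi_nonneg (x : ℝ) : 0 ≤ Phi x := integral_nonneg fun t => (phi_pos t).le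
lemma Phi_pos (x : ℝ) : 0 < Phi x :=
  lt_of_le_of_lt (Phi_nonneg (x - 1)) (strictMono_Phi (by linarith))
lemma Phi_add_Phi_neg (x : ℝ) : Phi x + Phi (-x) = 1 := by
  have h1 : Phi (-x) = ∫ t in Ioi x, phi t := by
    unfold Phi
    have := integral_comp_neg_Ioi x phi
    simp only [phi_neg] at this
    exact this.symm
  rw [h1, ← integral_phi]
  unfold Phi
  exact intervalIntegral.integral_Iic_add_Ioi integrable_phi.integrableOn
    integrable_phi.integrableOn
lemma Phi_lt_one (x : ℝ) : Phi x < 1 := by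
  have := Phi_add_Phi_neg x
  have := Phi_pos (-x)
  linarith
lemma Phi_zero : Phi 0 = 1 / 2 := by
  have := Phi_add_Phi_neg 0
  rw [neg_zero] at this
  linarith
lemma tendsto_Phi_atTop : Tendsto Phi atTop (𝓝 1) := by
  have := (aecover_Iic (μ := (volume : Measure ℝ)) (l := atTop) (b := fun x : ℝ => x)
    tendsto_id).integral_tendsto_of_countably_generated integrable_phi
  rw [integral_phi] at this
  exact this
lemma tendsto_Phi_atBot : Tendsto Phi atBot (𝓝 0) := by
  have h : Phi = fun x => 1 - Phi (-x) := funext fun x => by linarith [Phi_add_Phi_neg x]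
  rw [h]
  have := (tendsto_Phi_atTop.comp tendsto_neg_atBot_atTop).const_sub 1
  simpa using this
lemma hasDerivAt_Q (x : ℝ) : HasDerivAt Q (-phi x) x := by
  have := (hasDerivAt_Phi (-x)).comp x (hasDerivAt_neg x)
  refine this.congr_deriv ?_
  rw [phi_neg]; ring
lemma continuous_Q : Continuous Q :=
  continuous_iff_continuousAt.2 fun x => (hasDerivAt_Q x).continuousAt
lemma strictAnti_Q : StrictAnti Q := fun _ _ h => strictMono_Phi (neg_lt_neg h)
lemma Q_pos (x : ℝ) : 0 < Q x := Phi_pos _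
lemma Q_lt_one (x : ℝ) : Q x < 1 := Phi_lt_one _
lemma Q_zero : Q 0 = 1 / 2 := by unfold Q; rw [neg_zero, Phi_zero]
lemma tendsto_Q_atTop : Tendsto Q atTop (𝓝 0) :=
  tendsto_Phi_atBot.comp tendsto_neg_atTop_atBot
lemma Q_eq (a : ℝ) : Q a = 1 / 2 - ∫ t in (0 : ℝ)..a, phi t := by
  have h1 := Phi_add_Phi_neg a
  have h2 := Phi_eq_add a
  rw [Phi_zero] at h2
  unfold Q
  linarith
lemma PhiInv_Phi (x : ℝ) : PhiInv (Phi x) = x :=
  Function.leftInverse_invFun strictMono_Phi.injective x
lemma exists_Phi_eq {p : ℝ} (h0 : 0 < p) (h1 : p < 1) : ∃ a, Phi a = p := by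
  have := intermediate_value_univ₂_eventually₂ (l₁ := atBot) (l₂ := atTop) continuous_Phi
    (continuous_const (y := p))
    ((tendsto_Phi_atBot.eventually (gt_mem_nhds h0)).mono fun x hx => hx.le)
    ((tendsto_Phi_atTop.eventually (lt_mem_nhds h1)).mono fun x hx => hx.le)
  exact this
lemma Phi_PhiInv {p : ℝ} (h0 : 0 < p) (h1 : p < 1) : Phi (PhiInv p) = p :=
  Function.invFun_eq (exists_Phi_eq h0 h1)
lemma continuousAt_PhiInv {p : ℝ} (h0 : 0 < p) (h1 : p < 1) : ContinuousAt PhiInv p := by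
  obtain ⟨a, rfl⟩ := exists_Phi_eq h0 h1
  rw [ContinuousAt, PhiInv_Phi, tendsto_order]
  constructor
  · intro b hb
    filter_upwards [Ioo_mem_nhds (strictMono_Phi hb) h1] with q hq
    have hq0 : 0 < q := (Phi_pos b).trans hq.1
    rw [← strictMono_Phi.lt_iff_lt, Phi_PhiInv hq0 hq.2]
    exact hq.1
  · intro b hb
    filter_upwards [Ioo_mem_nhds h0 (strictMono_Phi hb)] with q hq
    have hq1 : q < 1 := hq.2.trans (Phi_lt_one b)
    rw [← strictMono_Phi.lt_iff_lt, Phi_PhiInv hq.1 hq1]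
    exact hq.2
lemma hasDerivAt_PhiInv {p : ℝ} (h0 : 0 < p) (h1 : p < 1) :
    HasDerivAt PhiInv (phi (PhiInv p))⁻¹ p := by
  refine HasDerivAt.of_local_left_inverse (continuousAt_PhiInv h0 h1) (hasDerivAt_Phi _)
    (phi_pos _).ne' ?_
  filter_upwards [Ioo_mem_nhds h0 h1] with q hq
  exact Phi_PhiInv hq.1 hq.2
lemma exists_Q_eq {p : ℝ} (h0 : 0 < p) (h1 : p < 1) : ∃ a, Q a = p := by
  obtain ⟨a, ha⟩ := exists_Phi_eq h0 h1
  exact ⟨-a, by unfold Q; rw [neg_neg, ha]⟩

end Crest.Agent.R215
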