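import Crest.Agent.R215.He

/-! Row 215: lower bounds for the Heron form on polytopes (certificates found by linear programming). -/

set_option autoImplicit false
set_option linter.unusedVariables false

namespace Crest.Agent.R215

lemma heA1 {u1 u3 s : ℝ}
    (o12 : 0 ≤ -1 + s + 2 * u1 + u3)
    (o23 : 0 ≤ 1 - s - u1 - 2 * u3)
    (hu1 : 0 ≤ 4 / 9 - u1)
    (l111 : 0 ≤ 109 / 1000 - 57 / 20 * s)
    (l421 : 0 ≤ 147 / 1000 - 12 / 5 * s - 47 / 100 * u1 + 9 / 20 * u3)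
    (l441 : 0 ≤ -143 / 1000 - 193 / 100 * s + 23 / 25 * u3)
    (l511 : 0 ≤ 91 / 125 - 57 / 20 * s - 8 / 5 * u1)
    (l541 : 0 ≤ 71 / 500 - 193 / 100 * s - 17 / 25 * u1 + 23 / 25 * u3)
    (l551 : 0 ≤ -253 / 1000 - 5 / 4 * s + 8 / 5 * u3) :
    0.042 ≤ He u1 (1 - s - u1 - u3) (u3 - s) := by
  unfold He
  linarith [mul_nonneg o12 hu1, mul_nonneg o12 l421, mul_nonneg o23 l441,
    mul_nonneg o23 l541, mul_nonneg o23 l551, mul_nonneg hu1 l441,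
    mul_nonneg l111 l551, mul_nonneg l511 l551]

lemma heA2 {u1 u3 u4 t : ℝ}
    (o12 : 0 ≤ -1 + t + 2 * u1 + u3 + u4)
    (o23 : 0 ≤ 1 - t - u1 - 2 * u3 - u4)
    (hu1 : 0 ≤ 4 / 9 - u1)
    (u4b : 0 ≤ 1 / 25 - u4)
    (l221 : 0 ≤ -27 / 400 - 213 / 200 * t + 9 / 20 * u3 - 181 / 500 * u4)
    (l311 : 0 ≤ 619 / 2000 - 303 / 200 * t - 67 / 100 * u1 - 203 / 250 * u4)
    (l321 : 0 ≤ 27 / 2000 - 213 / 200 * t - 11 / 50 * u1 + 9 / 20 * u3 - 181 / 500 * u4)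
    (l331 : 0 ≤ -251 / 2000 - 169 / 200 * t + 67 / 100 * u3 - 71 / 500 * u4)
    (l441 : 0 ≤ -71 / 400 - 119 / 200 * t + 23 / 25 * u3 + 27 / 250 * u4)
    (l511 : 0 ≤ 1387 / 2000 - 303 / 200 * t - 8 / 5 * u1 - 203 / 250 * u4)
    (l552 : 0 ≤ -267 / 2000 + 17 / 200 * t + 23 / 20 * u3 + 197 / 250 * u4) :
    0.049 ≤ He u1 (1 - (u4 + t) - u1 - u3) (u3 - (u4 + t)) := by
  unfold He
  linarith [mul_nonneg o12 u4b, mul_nonneg o12 l311, mul_nonneg o12 l441,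
    mul_nonneg o12 l511, mul_nonneg o12 l552, mul_nonneg o23 u4b,
    mul_nonneg o23 l321, mul_nonneg o23 l331, mul_nonneg hu1 l221,
    mul_nonneg u4b u4b, mul_nonneg u4b l331, mul_nonneg l221 l552]

lemma heR1 {u1 u2 u3 u4 x1 x2 x3 d1 d2 d3 : ℝ}
    (o12 : 0 ≤ u1 - u2)
    (o23 : 0 ≤ u2 - u3)
    (o34 : 0 ≤ u3 - u4)
    (hu1 : 0 ≤ 4 / 9 - u1)
    (hx1 : 0 ≤ x1)
    (hx2 : 0 ≤ x2)
    (hx3 : 0 ≤ x3)
    (hd1 : 0 ≤ d1)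
    (hd2 : 0 ≤ d2)
    (hd3 : 0 ≤ d3)
    (xs : 0 ≤ 1 - u1 - u2 - u3 - u4 - x1 - x2 - x3)
    (da : 0 ≤ 1 / 3 + d1 + d2 + d3 - 1 / 3 * u1 - 1 / 3 * u2 - 1 / 3 * u3 - 2 / 3 * u4)
    (db : 0 ≤ -d1 - d2 - d3 + u4)
    (hu3 : 0 ≤ -3 / 20 + u3)
    (l1116 : 0 ≤ -2661 / 500 + 537 / 100 * u1 + 537 / 100 * u2 + 537 / 100 * u3 + 527 / 100 * u4)
    (l3116 : 0 ≤ -5087 / 1000 + 47 / 10 * u1 + 537 / 100 * u2 + 537 / 100 * u3 + 527 / 100 * u4)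
    (l5316 : 0 ≤ -1117 / 250 + 377 / 100 * u1 + 47 / 10 * u2 + 537 / 100 * u3 + 527 / 100 * u4) :
    0.0296 ≤ He (u1 - x1 + d1) (u2 - x2 + d2) (u3 - x3 + d3) := by
  unfold He
  linarith [mul_nonneg o12 o23, mul_nonneg o12 o34, mul_nonneg o12 hx1, mul_nonneg o12 hx2,
    mul_nonneg o12 hx3, mul_nonneg o12 hd2, mul_nonneg o12 hd3, mul_nonneg o12 xs,
    mul_nonneg o12 db, mul_nonneg o12 l3116, mul_nonneg o23 o34, mul_nonneg o23 hu1,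
    mul_nonneg o23 hx1, mul_nonneg o23 hx2, mul_nonneg o23 hd1, mul_nonneg o23 hd2,
    mul_nonneg o23 hd3, mul_nonneg o23 xs, mul_nonneg o23 hu3, mul_nonneg o23 l1116,
    mul_nonneg o34 o34, mul_nonneg o34 hx1, mul_nonneg o34 hx2, mul_nonneg o34 hd1,
    mul_nonneg o34 hd2, mul_nonneg o34 hd3, mul_nonneg o34 xs, mul_nonneg o34 l1116,
    mul_nonneg hx1 hx1, mul_nonneg hx1 hx2, mul_nonneg hx1 hx3, mul_nonneg hx1 hd1,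
    mul_nonneg hx1 hd2, mul_nonneg hx1 xs, mul_nonneg hx1 db, mul_nonneg hx2 hx2,
    mul_nonneg hx2 hx3, mul_nonneg hx2 hd1, mul_nonneg hx2 hd2, mul_nonneg hx2 xs,
    mul_nonneg hx2 db, mul_nonneg hx3 hd1, mul_nonneg hx3 xs, mul_nonneg hx3 da,
    mul_nonneg hx3 l1116, mul_nonneg hd1 hd2, mul_nonneg hd1 hd3, mul_nonneg hd1 xs,
    mul_nonneg hd1 l3116, mul_nonneg hd2 hd3, mul_nonneg hd2 xs,
    mul_nonneg hd2 l1116, mul_nonneg hd2 l5316, mul_nonneg xs xs, mul_nonneg xs da,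
    mul_nonneg da db]

lemma heR2 {u1 u2 u3 u4 x1 x2 x3 d1 d2 d3 : ℝ}
    (o12 : 0 ≤ u1 - u2)
    (o23 : 0 ≤ u2 - u3)
    (o34 : 0 ≤ u3 - u4)
    (hu4 : 0 ≤ -1 / 25 + u4)
    (hu1 : 0 ≤ 4 / 9 - u1)
    (hx1 : 0 ≤ x1)
    (hx2 : 0 ≤ x2)
    (hx3 : 0 ≤ x3)
    (hd1 : 0 ≤ d1)
    (hd2 : 0 ≤ d2)
    (hd3 : 0 ≤ d3)
    (xs : 0 ≤ 1 - u1 - u2 - u3 - u4 - x1 - x2 - x3)
    (da : 0 ≤ 1 / 3 + d1 + d2 + d3 - 1 / 3 * u1 - 1 / 3 * u2 - 1 / 3 * u3 - 2 / 3 * u4)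
    (db : 0 ≤ -d1 - d2 - d3 + u4)
    (hu3 : 0 ≤ 3 / 20 - u3)
    (l2200 : 0 ≤ -2303 / 500 + 91 / 20 * u1 + 91 / 20 * u2 + 2413 / 500 * u3 + 2413 / 500 * u4)
    (l5200 : 0 ≤ -4141 / 1000 + 17 / 5 * u1 + 91 / 20 * u2 + 2413 / 500 * u3 + 2413 / 500 * u4) :
    0.034 ≤ He (u1 - x1 + d1) (u2 - x2 + d2) (u3 - x3 + d3) := by
  unfold He
  linarith [mul_nonneg o12 o34, mul_nonneg o12 hx1, mul_nonneg o12 hx2, mul_nonneg o12 hx3,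
    mul_nonneg o12 hd2, mul_nonneg o12 hd3, mul_nonneg o12 xs, mul_nonneg o12 db,
    mul_nonneg o12 hu3, mul_nonneg o12 l5200, mul_nonneg o23 o34, mul_nonneg o23 hx1,
    mul_nonneg o23 hx2, mul_nonneg o23 hd2, mul_nonneg o23 hd3, mul_nonneg o23 xs,
    mul_nonneg o23 db, mul_nonneg o23 l5200, mul_nonneg o34 hu4, mul_nonneg o34 hx1,
    mul_nonneg o34 hx2, mul_nonneg o34 hd1, mul_nonneg o34 hd2, mul_nonneg o34 xs,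
    mul_nonneg o34 da, mul_nonneg o34 l2200, mul_nonneg hu1 hu3, mul_nonneg hx1 hx2,
    mul_nonneg hx1 hx3, mul_nonneg hx1 hd1, mul_nonneg hx1 hd2, mul_nonneg hx1 xs,
    mul_nonneg hx1 l2200, mul_nonneg hx2 hx3, mul_nonneg hx2 hd1, mul_nonneg hx2 hd2,
    mul_nonneg hx2 xs, mul_nonneg hx2 l2200, mul_nonneg hx3 xs, mul_nonneg hx3 da,
    mul_nonneg hx3 l2200, mul_nonneg hd1 hd2, mul_nonneg hd1 hd3, mul_nonneg hd1 xs,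
    mul_nonneg hd1 hu3, mul_nonneg hd1 l5200, mul_nonneg hd2 hd3, mul_nonneg hd2 xs,
    mul_nonneg hd2 l2200, mul_nonneg hd3 xs, mul_nonneg hd3 l2200, mul_nonneg xs xs,
    mul_nonneg da db]

lemma heR3 {u1 u2 u3 u4 x1 x2 x3 d1 d2 d3 : ℝ}
    (o12 : 0 ≤ u1 - u2)
    (o23 : 0 ≤ u2 - u3)
    (o34 : 0 ≤ u3 - u4)
    (hu4 : 0 ≤ -1 / 25 + u4)
    (hx1 : 0 ≤ x1)
    (hx2 : 0 ≤ x2)
    (hx3 : 0 ≤ x3)
    (hd1 : 0 ≤ d1)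
    (hd2 : 0 ≤ d2)
    (hd3 : 0 ≤ d3)
    (xs : 0 ≤ 1 - u1 - u2 - u3 - u4 - x1 - x2 - x3)
    (da : 0 ≤ 1 / 3 + d1 + d2 + d3 - 1 / 3 * u1 - 1 / 3 * u2 - 1 / 3 * u3 - 2 / 3 * u4)
    (db : 0 ≤ -d1 - d2 - d3 + u4)
    (u4b : 0 ≤ 3 / 20 - u4)
    (ht : 0 ≤ 199 / 200 - u1 - u2 - u3 - u4)
    (l1110 : 0 ≤ -18603 / 10000 + 189 / 100 * u1 + 189 / 100 * u2 + 189 / 100 * u3 + 429 / 250 * u4)
    (l2110 : 0 ≤ -17063 / 10000 + 36 / 25 * u1 + 189 / 100 * u2 + 189 / 100 * u3 + 429 / 250 * u4)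
    (l2210 : 0 ≤ -15523 / 10000 + 36 / 25 * u1 + 36 / 25 * u2 + 189 / 100 * u3 + 429 / 250 * u4)
    (l5110 : 0 ≤ -12413 / 10000 + 29 / 100 * u1 + 189 / 100 * u2 + 189 / 100 * u3 + 429 / 250 * u4) :
    0.05 ≤ He (u1 - x1 + d1) (u2 - x2 + d2) (u3 - x3 + d3) := by
  unfold He
  linarith [mul_nonneg o12 hx1, mul_nonneg o12 hd2, mul_nonneg o12 hd3, mul_nonneg o12 xs,
    mul_nonneg o12 db, mul_nonneg o12 u4b, mul_nonneg o12 ht, mul_nonneg o12 l5110,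
    mul_nonneg o23 hx1, mul_nonneg o23 hx2, mul_nonneg o23 hd3, mul_nonneg o23 xs,
    mul_nonneg o23 da, mul_nonneg o23 ht, mul_nonneg o23 l2210, mul_nonneg o34 da,
    mul_nonneg hu4 ht, mul_nonneg hu4 l1110, mul_nonneg hu4 l2210,
    mul_nonneg hx1 hx2, mul_nonneg hx1 hx3, mul_nonneg hx1 hd1, mul_nonneg hx1 xs,
    mul_nonneg hx1 ht, mul_nonneg hx2 hx3, mul_nonneg hx2 hd2, mul_nonneg hx2 xs,
    mul_nonneg hx2 ht, mul_nonneg hx3 hd3, mul_nonneg hx3 xs, mul_nonneg hx3 ht,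
    mul_nonneg hd1 hd2, mul_nonneg hd1 hd3, mul_nonneg hd2 hd3, mul_nonneg xs da,
    mul_nonneg xs ht, mul_nonneg da db, mul_nonneg da u4b, mul_nonneg da l5110,
    mul_nonneg db ht]

end Crest.Agent.R215
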