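import Crest.Agent.R215.Part

/-! Row 215: a minimal counterexample yields a critical configuration.
Plan: `¬ Bound` gives `ι`, `v0` with `F v0 > c √(∑‖v0‖²)`; `v0 ≠ 0` (`F_smul 0`). `K = {v | ∑ ‖v i‖² = 1}` is compact
(closed, bounded, `ι → E` proper), `F` attains its maximum `lam > c` on `K` at `v` and
`(*) F y ≤ lam √(∑‖y‖²)` for all `y` (`F_smul`).
* `sum`: `m = k⁻¹ ∑ v`, `lam = F (v - m) ≤ lam √(1 - k‖m‖²)`.
* `v` injective: if `v i = v j`, `i ≠ j`, `F v ≤ F (v restricted to {l // l ≠ i}) ≤ c` (`F_mono`, `hB`,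
  `Fintype.card_subtype_compl`, `Finset.sum_subtype`/`Fintype.sum_subtype_add_sum_subtype`).
* `mom`: `z i = ∫ x in cell v i, x`; `lam = ∑⟪v i, z i⟫` (`F_eq_sum`); `∑‖z‖² ≤ F z ≤ lam √(∑‖z‖²)`; expand
  `∑‖z i - lam • v i‖² ≤ 0`.
* `obt`: `y = z` except `y i = y j = z i + z j`. `S := ∑⟪y l, z l⟫ = ∑_{l ≠ j} ‖y l‖² = lam² (1 + 2⟪v i, v j⟫)` and
  `S ≤ F y ≤ F (y restricted to {l // l ≠ j}) ≤ c √S`, so `S ≤ c² < lam²`.
* `del`: `F_del`, `F_sub_const` with `m = -(k-1)⁻¹ • v i` (the mean of the others), `hB`. -/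

set_option autoImplicit false

namespace Crest.Agent.R215

open MeasureTheory ProbabilityTheory Set Filter Topology
open scoped RealInnerProductSpace NNReal

variable {E : Type*} [NormedAddCommGroup E] [InnerProductSpace ℝ E] [FiniteDimensional ℝ E]
  [MeasurableSpace E] [BorelSpace E]

omit [FiniteDimensional ℝ E] [MeasurableSpace E] [BorelSpace E] in
lemma max_sum_sub {κ : Type} [Fintype κ] (y : κ → E) (m : E) :
    ∑ l, ‖y l - m‖ ^ 2 =
      ∑ l, ‖y l‖ ^ 2 - 2 * ⟪∑ l, y l, m⟫ + (Fintype.card κ : ℝ) * ‖m‖ ^ 2 := by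
  simp only [norm_sub_sq_real, Finset.sum_add_distrib, Finset.sum_sub_distrib, sum_inner,
    Finset.mul_sum, Finset.sum_const, Finset.card_univ, nsmul_eq_mul]

lemma max_sum_ne {ι M : Type*} [Fintype ι] [DecidableEq ι] [AddCommGroup M] (f : ι → M) (j : ι) :
    ∑ l : {l // l ≠ j}, f l = ∑ l, f l - f j := by
  rw [← Finset.sum_subtype (Finset.univ.erase j) (by simp) f,
    Finset.sum_erase_eq_sub (Finset.mem_univ j)]

lemma max_card_ne {ι : Type} [Fintype ι] [DecidableEq ι] {k : ℕ} (h : Fintype.card ι = k + 1)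
    (j : ι) : Fintype.card {l // l ≠ j} = k := by
  rw [Fintype.card_subtype_compl, Fintype.card_subtype_eq, h]
  rfl

lemma max_exists {ι : Type} [Fintype ι] (v0 : ι → E)
    (h0 : cc * Real.sqrt (∑ i, ‖v0 i‖ ^ 2) < F v0) :
    ∃ v : ι → E, ∑ i, ‖v i‖ ^ 2 = 1 ∧ cc < F v ∧
      ∀ y : ι → E, F y ≤ F v * Real.sqrt (∑ i, ‖y i‖ ^ 2) := by
  have hz : ∀ y : ι → E, ∑ i, ‖y i‖ ^ 2 = 0 → F y = 0 := by
    intro y hy
    rw [Finset.sum_eq_zero_iff_of_nonneg (fun i _ => sq_nonneg _)] at hy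
    have h1 : y = fun i => (0 : ℝ) • y i := by
      funext i
      have := hy i (Finset.mem_univ i)
      rw [sq_eq_zero_iff, norm_eq_zero] at this
      simp [this]
    rw [h1, F_smul le_rfl, zero_mul]
  have hnorm : ∀ y : ι → E, 0 < ∑ i, ‖y i‖ ^ 2 →
      ∑ i, ‖(Real.sqrt (∑ i, ‖y i‖ ^ 2))⁻¹ • y i‖ ^ 2 = 1 := by
    intro y hy
    simp only [norm_smul, mul_pow, norm_inv, Real.norm_eq_abs, sq_abs, inv_pow, Real.sq_sqrt hy.le]
    rw [← Finset.mul_sum, inv_mul_cancel₀ hy.ne']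
  have hv0 : 0 < ∑ i, ‖v0 i‖ ^ 2 := by
    refine (Finset.sum_nonneg fun i _ => sq_nonneg _).lt_of_ne fun h => ?_
    rw [hz v0 h.symm, ← h] at h0
    simp at h0
  have hK : IsCompact {v : ι → E | ∑ i, ‖v i‖ ^ 2 = 1} := by
    refine Metric.isCompact_of_isClosed_isBounded (isClosed_eq (by fun_prop) continuous_const)
      ((Metric.isBounded_closedBall (x := (0 : ι → E)) (r := 1)).subset fun v hv => ?_)
    rw [mem_closedBall_zero_iff, pi_norm_le_iff_of_nonneg zero_le_one]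
    intro i
    have h1 : ‖v i‖ ^ 2 ≤ ∑ i, ‖v i‖ ^ 2 :=
      Finset.single_le_sum (f := fun i => ‖v i‖ ^ 2) (fun i _ => sq_nonneg _) (Finset.mem_univ i)
    rw [hv.out] at h1
    nlinarith [norm_nonneg (v i)]
  obtain ⟨v, hv, hmax⟩ := hK.exists_isMaxOn ⟨_, hnorm v0 hv0⟩ continuous_F.continuousOn
  have hall : ∀ y : ι → E, F y ≤ F v * Real.sqrt (∑ i, ‖y i‖ ^ 2) := by
    intro y
    rcases (Finset.sum_nonneg fun i (_ : i ∈ Finset.univ) => sq_nonneg ‖y i‖).eq_or_lt with h | h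
    · rw [hz y h.symm, ← h]
      simp
    · have hs := Real.sqrt_pos.2 h
      have h1 : F (fun i => (Real.sqrt (∑ i, ‖y i‖ ^ 2))⁻¹ • y i) ≤ F v := hmax (hnorm y h)
      rw [F_smul (inv_nonneg.2 hs.le), inv_mul_le_iff₀ hs] at h1
      linarith
  refine ⟨v, hv, ?_, hall⟩
  exact lt_of_mul_lt_mul_right (h0.trans_le (hall v0)) (Real.sqrt_nonneg _)

theorem exists_crit {k : ℕ} (hk : 3 ≤ k) (hB : Bound E k) (hn : ¬ Bound E (k + 1)) :
    ∃ (ι : Type) (_ : Fintype ι) (v : ι → E) (lam : ℝ), Crit v lam := by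
  classical
  unfold Bound at hn
  push Not at hn
  obtain ⟨ι, _, hcard, v0, h0⟩ := hn
  obtain ⟨v, hv, hlam, hall⟩ := max_exists v0 h0
  have hc := cc_pos
  have hlam0 : 0 < F v := hc.trans hlam
  haveI : Nonempty ι := Fintype.card_pos_iff.1 (by omega)
  have hkpos : (0 : ℝ) < k := by exact_mod_cast (by omega : 0 < k)
  have hne : ∀ j : ι, Nonempty {l // l ≠ j} := fun j =>
    Fintype.card_pos_iff.1 (by rw [max_card_ne hcard]; omega)
  have hres : ∀ (y : ι → E) (j : ι), F (fun l : {l // l ≠ j} => y l) ≤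
      cc * Real.sqrt (∑ l, ‖y l‖ ^ 2 - ‖y j‖ ^ 2) := by
    intro y j
    have := hB _ (max_card_ne hcard j) (fun l : {l // l ≠ j} => y l)
    rwa [max_sum_ne (fun l => ‖y l‖ ^ 2) j] at this
  -- the sum vanishes
  have hsum : ∑ i, v i = 0 := by
    set m : E := ((k : ℝ) + 1)⁻¹ • ∑ i, v i with hm
    have hk1 : (0 : ℝ) < k + 1 := by linarith
    have hm' : ∑ i, v i = ((k : ℝ) + 1) • m := by
      rw [hm, smul_smul, mul_inv_cancel₀ hk1.ne', one_smul]
    have h1 := hall (fun i => v i - m)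
    rw [F_sub_const, max_sum_sub, hv, hm', real_inner_smul_left, real_inner_self_eq_norm_sq,
      hcard] at h1
    have h2 : 1 ≤ Real.sqrt (1 - 2 * ((k + 1) * ‖m‖ ^ 2) + ((k + 1 : ℕ) : ℝ) * ‖m‖ ^ 2) := by
      by_contra h
      push Not at h
      nlinarith
    rw [Real.one_le_sqrt] at h2
    push_cast at h2
    have h3 : ‖m‖ ^ 2 ≤ 0 := by nlinarith
    have h4 : m = 0 := by
      rw [← norm_eq_zero]
      nlinarith [norm_nonneg m]
    rw [hm', h4, smul_zero]
  -- injectivity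
  have hinj : Function.Injective v := by
    intro i j hij
    by_contra hne'
    have h1 : F v ≤ F (fun l : {l // l ≠ i} => v l) := by
      refine F_mono fun l => ?_
      by_cases hl : l = i
      · exact ⟨⟨j, fun h => hne' h.symm⟩, by rw [hl, hij]⟩
      · exact ⟨⟨l, hl⟩, rfl⟩
    have h2 := hres v i
    rw [hv] at h2
    have h3 : Real.sqrt (1 - ‖v i‖ ^ 2) ≤ 1 := Real.sqrt_le_one.2 (by nlinarith)
    nlinarith
  -- first moments
  have hmom : ∀ i, ∫ x in cell v i, x ∂stdGaussian E = F v • v i := by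
    set z : ι → E := fun i => ∫ x in cell v i, x ∂stdGaussian E with hz
    have h1 : F v = ∑ i, ⟪v i, z i⟫ := F_eq_sum hinj
    have h2 : ∑ i, ‖z i‖ ^ 2 ≤ F z := by
      have := (aePart_cell hinj).sum_inner_le z
      simpa [hz, real_inner_self_eq_norm_sq] using this
    have h3 := hall z
    have h4 : 0 ≤ ∑ i, ‖z i‖ ^ 2 := Finset.sum_nonneg fun i _ => sq_nonneg _
    have h5 := Real.sq_sqrt h4
    have h6 := Real.sqrt_nonneg (∑ i, ‖z i‖ ^ 2)
    have h7 : ∑ i, ‖z i‖ ^ 2 ≤ F v ^ 2 := by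
      have : Real.sqrt (∑ i, ‖z i‖ ^ 2) ≤ F v := by
        by_contra h
        push Not at h
        nlinarith
      nlinarith
    have h8 : ∑ i, ‖z i - F v • v i‖ ^ 2 =
        ∑ i, ‖z i‖ ^ 2 - 2 * (F v * ∑ i, ⟪v i, z i⟫) + F v ^ 2 * ∑ i, ‖v i‖ ^ 2 := by
      simp only [norm_sub_sq_real, Finset.sum_add_distrib, Finset.sum_sub_distrib,
        Finset.mul_sum, real_inner_smul_right, norm_smul, mul_pow, Real.norm_eq_abs, sq_abs,
        real_inner_comm (z _) (v _)]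
    rw [← h1, hv] at h8
    have h9 : ∑ i, ‖z i - F v • v i‖ ^ 2 = 0 :=
      le_antisymm (by nlinarith) (Finset.sum_nonneg fun i _ => sq_nonneg _)
    rw [Finset.sum_eq_zero_iff_of_nonneg (fun i _ => sq_nonneg _)] at h9
    intro i
    have := h9 i (Finset.mem_univ i)
    rwa [sq_eq_zero_iff, norm_eq_zero, sub_eq_zero] at this
  refine ⟨ι, inferInstance, v, F v, ⟨by omega, hlam, hv, hsum, ?_, hmom,
    (aePart_cell hinj).sum_prob, ?_⟩⟩
  · intro i j hij
    by_contra hcon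
    push Not at hcon
    let y : ι → E := fun l => if l = i ∨ l = j then v i + v j else v l
    have hyi : y i = v i + v j := by simp [y]
    have hyj : y j = v i + v j := by simp [y]
    have hyl : ∀ l, l ≠ i ∧ l ≠ j → y l = v l := fun l hl => by simp [y, hl.1, hl.2]
    have h1 := (aePart_cell hinj).sum_inner_le y
    simp only [hmom, real_inner_smul_right] at h1
    rw [← Finset.mul_sum] at h1
    have h2 : ∑ l, ⟪y l, v l⟫ = 1 + 2 * ⟪v i, v j⟫ := by
      have := Fintype.sum_eq_add (f := fun l => ⟪y l, v l⟫ - ‖v l‖ ^ 2) i j hij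
        (fun l hl => by rw [hyl l hl, real_inner_self_eq_norm_sq, sub_self])
      rw [Finset.sum_sub_distrib, hv, hyi, hyj, inner_add_left, inner_add_left,
        real_inner_self_eq_norm_sq, real_inner_self_eq_norm_sq, real_inner_comm (v i) (v j)] at this
      linarith
    have h3 : ∑ l, ‖y l‖ ^ 2 - ‖y j‖ ^ 2 = 1 + 2 * ⟪v i, v j⟫ := by
      have := Fintype.sum_eq_add (f := fun l => ‖y l‖ ^ 2 - ‖v l‖ ^ 2) i j hij
        (fun l hl => by rw [hyl l hl, sub_self])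
      rw [Finset.sum_sub_distrib, hv, hyi, hyj] at this
      rw [hyj]
      have h := norm_add_sq_real (v i) (v j)
      linarith
    have h4 : F y ≤ F (fun l : {l // l ≠ j} => y l) := by
      refine F_mono fun l => ?_
      by_cases hl : l = j
      · exact ⟨⟨i, hij⟩, by rw [hl, hyj]; exact hyi.symm⟩
      · exact ⟨⟨l, hl⟩, rfl⟩
    have h5 := hres y j
    rw [h3] at h5
    rw [h2] at h1
    have h6 : Real.sqrt (1 + 2 * ⟪v i, v j⟫) ≤ 1 + 2 * ⟪v i, v j⟫ := by
      rw [Real.sqrt_le_left (by linarith)]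
      nlinarith
    nlinarith
  · intro i
    haveI := hne i
    have h1 := F_del v i
    set m : E := -((k : ℝ)⁻¹ • v i) with hm
    have h2 := hB _ (max_card_ne hcard i) (fun l : {l // l ≠ i} => v l - m)
    rw [F_sub_const, max_sum_sub, max_sum_ne (fun l => ‖v l‖ ^ 2) i, max_sum_ne v i, hv, hsum,
      max_card_ne hcard] at h2
    have h3 : 1 - ‖v i‖ ^ 2 - 2 * ⟪0 - v i, m⟫ + (k : ℝ) * ‖m‖ ^ 2 =
        1 - (Fintype.card ι : ℝ) / (Fintype.card ι - 1) * ‖v i‖ ^ 2 := by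
      rw [hm, zero_sub, inner_neg_neg, real_inner_smul_right, real_inner_self_eq_norm_sq, norm_neg,
        norm_smul, hcard, norm_inv, Real.norm_natCast]
      push_cast
      rw [add_sub_cancel_right]
      field_simp
      ring
    rw [h3] at h2
    linarith

end Crest.Agent.R215
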