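import Crest.Agent.R215.NumJ

/-! Row 215: numerical consequences of `Facts`. -/

set_option autoImplicit false

namespace Crest.Agent.R215

open MeasureTheory ProbabilityTheory Set Filter Topology
open scoped RealInnerProductSpace NNReal

variable {u p : ℝ}

lemma Facts.le (h : Facts u p) : u ≤ 4 / 9 := by
  have h1 := h.iso 0 le_rfl
  rw [G_zero, cc_eq_KK] at h1
  change 3 / 2 * KK * Real.sqrt u ≤ KK + 0 * p at h1
  have h2 := KK_pos
  have h3 : Real.sqrt u ≤ 2 / 3 := by nlinarith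
  have h4 := Real.sq_sqrt h.pos.le
  have h5 := Real.sqrt_nonneg u
  nlinarith

/-- chord bound for the square root -/
lemma sqrt_chord {u s1 s2 : ℝ} (h0 : 0 < s1) (h12 : s1 < s2) (h1 : s1 ^ 2 ≤ u) (h2 : u ≤ s2 ^ 2) :
    (u + s1 * s2) / (s1 + s2) ≤ Real.sqrt u := by
  have hu : 0 ≤ u := le_trans (by positivity) h1
  have h3 : s1 ≤ Real.sqrt u := Real.le_sqrt_of_sq_le h1
  have h4 : Real.sqrt u ≤ s2 := Real.sqrt_le_iff.2 ⟨by linarith, h2⟩
  have h5 := Real.sq_sqrt hu
  rw [div_le_iff₀ (by linarith)]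
  nlinarith [mul_nonneg (sub_nonneg.2 h3) (sub_nonneg.2 h4)]

lemma Facts.seg (h : Facts u p) {a s1 s2 g : ℝ} (ha : 0 ≤ a) (hg : G a ≤ g) (h0 : 0 < s1)
    (h12 : s1 < s2) (h1 : s1 ^ 2 ≤ u) (h2 : u ≤ s2 ^ 2) :
    0.5984134 * ((u + s1 * s2) / (s1 + s2)) ≤ g + a * p := by
  have h3 := sqrt_chord h0 h12 h1 h2
  have h4 := h.iso a ha
  have h5 := Real.sqrt_nonneg u
  nlinarith [cc_ge]

lemma Facts.l2' (h : Facts u p) (h1 : 0.342 ≤ u) (h2 : u ≤ 0.369) : -0.057 + 1.05 * u ≤ p := by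
  obtain ⟨e1, e2, e3, e4⟩ := encl_048
  have := h.seg (a := 0.48) (s1 := 0.584) (s2 := 0.608) (g := 0.2040383) (by norm_num)
    (by unfold G; linarith) (by norm_num) (by norm_num) (by linarith) (by linarith)
  norm_num at this ⊢
  linarith

lemma Facts.l3' (h : Facts u p) (h1 : 0.368 ≤ u) (h2 : u ≤ 0.396) : -0.138 + 1.27 * u ≤ p := by
  obtain ⟨e1, e2, e3, e4⟩ := encl_038
  have := h.seg (a := 0.38) (s1 := 0.606) (s2 := 0.63) (g := 0.2374046) (by norm_num)
    (by unfold G; linarith) (by norm_num) (by norm_num) (by linarith) (by linarith)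
  norm_num at this ⊢
  linarith

lemma Facts.l4' (h : Facts u p) (h1 : 0.396 ≤ u) (h2 : u ≤ 0.42) : -0.237 + 1.52 * u ≤ p := by
  obtain ⟨e1, e2, e3, e4⟩ := encl_031
  have := h.seg (a := 0.31) (s1 := 0.629) (s2 := 0.649) (g := 0.2629598) (by norm_num)
    (by unfold G; linarith) (by norm_num) (by norm_num) (by linarith) (by linarith)
  norm_num at this ⊢
  linarith

lemma Facts.l5' (h : Facts u p) (h1 : 0.419 ≤ u) (h2 : u ≤ 4 / 9) : -0.522 + 2.2 * u ≤ p := by
  obtain ⟨e1, e2, e3, e4⟩ := encl_021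
  have := h.seg (a := 0.21) (s1 := 0.647) (s2 := 0.667) (g := 0.3027071) (by norm_num)
    (by unfold G; linarith) (by norm_num) (by norm_num) (by linarith) (by linarith)
  norm_num at this ⊢
  linarith

theorem Facts.lines {u p : ℝ} (h : Facts u p) : Lines u p := by
  have hle := h.le
  have hpos := h.pos
  have hu : u ≤ 1 := by linarith
  have hs0 := h.s0 hu
  have key : (0.15 ≤ u → 0.097 + 0.6 * u ≤ p) ∧ -0.057 + 1.05 * u ≤ p ∧ -0.138 + 1.27 * u ≤ p ∧
      -0.237 + 1.52 * u ≤ p ∧ -0.522 + 2.2 * u ≤ p := by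
    rcases lt_or_ge u 0.15 with c0 | c0
    · have h1 : Real.sqrt u ≤ 0.39 := Real.sqrt_le_iff.2 ⟨by norm_num, by linarith⟩
      have h2 := Real.sq_sqrt hpos.le
      have h3 := Real.sqrt_nonneg u
      have h4 : 1.05 * u ≤ p := by nlinarith
      refine ⟨fun h => by linarith, ?_, ?_, ?_, ?_⟩ <;> linarith
    rcases le_total u 0.3422 with c1 | c1
    · have := h.l1' (by linarith) c0
      refine ⟨fun _ => ?_, ?_, ?_, ?_, ?_⟩ <;> linarith
    rcases le_total u 0.3423 with c1' | c1'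
    · have := h.l1' (by linarith) c0
      have := h.l2' (by linarith) (by linarith)
      refine ⟨fun _ => ?_, ?_, ?_, ?_, ?_⟩ <;> linarith
    rcases le_total u 0.368 with c2 | c2
    · have := h.l2' (by linarith) (by linarith)
      refine ⟨fun _ => ?_, ?_, ?_, ?_, ?_⟩ <;> linarith
    rcases le_total u 0.369 with c2' | c2'
    · have := h.l2' (by linarith) (by linarith)
      have := h.l3' (by linarith) (by linarith)
      refine ⟨fun _ => ?_, ?_, ?_, ?_, ?_⟩ <;> linarith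
    rcases le_total u 0.396 with c3 | c3
    · have := h.l3' (by linarith) (by linarith)
      refine ⟨fun _ => ?_, ?_, ?_, ?_, ?_⟩ <;> linarith
    rcases le_total u 0.419 with c4 | c4
    · have := h.l4' (by linarith) (by linarith)
      refine ⟨fun _ => ?_, ?_, ?_, ?_, ?_⟩ <;> linarith
    rcases le_total u 0.42 with c4' | c4'
    · have := h.l4' (by linarith) (by linarith)
      have := h.l5' (by linarith) (by linarith)
      refine ⟨fun _ => ?_, ?_, ?_, ?_, ?_⟩ <;> linarith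
    · have := h.l5' (by linarith) (by linarith)
      refine ⟨fun _ => ?_, ?_, ?_, ?_, ?_⟩ <;> linarith
  exact ⟨hpos, hle, hs0, h.s1 hu, h.s2 hu, key.1, key.2.1, key.2.2.1, key.2.2.2.1, key.2.2.2.2⟩

end Crest.Agent.R215
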