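import Crest.Agent.R215.CritT
import Crest.Agent.R215.Num
import Crest.Agent.R215.EndA
import Crest.Agent.R215.EndB4
import Crest.Agent.R215.EndB5
import Crest.Agent.R215.Max
import Crest.Agent.R215.Base

/-! Row 215: no critical configuration; the induction.
Plan for `Crit.false`: `u l = ‖v l‖²`, `p l = γ (cell v l)`, `Lines (u l) (p l)` (`Crit.facts`, `Facts.lines`). Choose
successively maximisers `i1, i2, i3, i4` of `u` (`exists_next`). If `u i4 ≤ 0.04`: `agg` on the complement, `t4`, `endA`.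
Else if `card = 4`: the complement is empty, `cap`, `endB4`. Else choose `i5`, `agg`, `t5`, `endB5`.
(`Finset.sum_add_sum_compl`, `Finset.sum_insert`.) -/

set_option autoImplicit false

namespace Crest.Agent.R215

open MeasureTheory ProbabilityTheory Set Filter Topology
open scoped RealInnerProductSpace NNReal

variable {E : Type*} [NormedAddCommGroup E] [InnerProductSpace ℝ E] [FiniteDimensional ℝ E]
  [MeasurableSpace E] [BorelSpace E]

lemma exists_next {ι : Type} [Fintype ι] [DecidableEq ι] (u : ι → ℝ) (S : Finset ι)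
    (hS : S.card < Fintype.card ι) : ∃ i, i ∉ S ∧ ∀ l, l ∉ S → u l ≤ u i := by
  have hne : (Sᶜ).Nonempty := by
    rw [← Finset.card_pos, Finset.card_compl]; omega
  obtain ⟨i, hi, hmax⟩ := Finset.exists_max_image Sᶜ u hne
  exact ⟨i, Finset.mem_compl.1 hi, fun l hl => hmax l (Finset.mem_compl.2 hl)⟩

lemma agg {ι : Type} {u p : ι → ℝ} (T : Finset ι) (hL : ∀ l, Lines (u l) (p l)) {m : ℝ}
    (hm : ∀ l ∈ T, u l ≤ m) :
    0 ≤ ∑ l ∈ T, u l ∧ 0 ≤ ∑ l ∈ T, Real.sqrt (u l) ∧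
      0.4231 * ∑ l ∈ T, Real.sqrt (u l) ≤ ∑ l ∈ T, p l ∧
      ∑ l ∈ T, u l ≤ Real.sqrt m * ∑ l ∈ T, Real.sqrt (u l) ∧
      ∑ l ∈ T, u l ≤ (∑ l ∈ T, Real.sqrt (u l)) ^ 2 := by
  refine ⟨Finset.sum_nonneg fun l _ => (hL l).pos.le,
    Finset.sum_nonneg fun l _ => Real.sqrt_nonneg _, ?_, ?_, ?_⟩
  · rw [Finset.mul_sum]
    exact Finset.sum_le_sum fun l _ => (hL l).s0
  · rw [Finset.mul_sum]
    refine Finset.sum_le_sum fun l hl => ?_
    calc u l = Real.sqrt (u l) * Real.sqrt (u l) := (Real.mul_self_sqrt (hL l).pos.le).symm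
      _ ≤ _ := mul_le_mul_of_nonneg_right (Real.sqrt_le_sqrt (hm l hl)) (Real.sqrt_nonneg _)
  · rw [sq, Finset.sum_mul]
    refine Finset.sum_le_sum fun l hl => ?_
    calc u l = Real.sqrt (u l) * Real.sqrt (u l) := (Real.mul_self_sqrt (hL l).pos.le).symm
      _ ≤ _ := mul_le_mul_of_nonneg_left
        (Finset.single_le_sum (f := fun l => Real.sqrt (u l)) (fun _ _ => Real.sqrt_nonneg _) hl)
        (Real.sqrt_nonneg _)

theorem Crit.false {ι : Type} [Fintype ι] {v : ι → E} {lam : ℝ} (h : Crit v lam) : False := by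
  classical
  have hc := h.card
  set u : ι → ℝ := fun l => ‖v l‖ ^ 2 with hu
  set p : ι → ℝ := fun l => (stdGaussian E).real (cell v l) with hp
  have hL : ∀ l, Lines (u l) (p l) := fun l => (h.facts l).lines
  have su : ∑ l, u l = 1 := h.norm
  have sp : ∑ l, p l = 1 := h.prob
  obtain ⟨i1, -, m1⟩ := exists_next u ∅ (by simp; omega)
  obtain ⟨i2, n2, m2⟩ := exists_next u {i1} (by simp; omega)
  obtain ⟨i3, n3, m3⟩ := exists_next u {i1, i2} (lt_of_le_of_lt Finset.card_le_two (by omega))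
  obtain ⟨i4, n4, m4⟩ := exists_next u {i1, i2, i3}
    (lt_of_le_of_lt Finset.card_le_three (by omega))
  simp only [Finset.mem_insert, Finset.mem_singleton, not_or] at n2 n3 n4 m2 m3 m4
  have h12 : i1 ≠ i2 := Ne.symm n2
  have h13 : i1 ≠ i3 := Ne.symm n3.1
  have h23 : i2 ≠ i3 := Ne.symm n3.2
  have h14 : i1 ≠ i4 := Ne.symm n4.1
  have h24 : i2 ≠ i4 := Ne.symm n4.2.1
  have h34 : i3 ≠ i4 := Ne.symm n4.2.2
  have o12 : u i2 ≤ u i1 := m1 _ (by simp)
  have o23 : u i3 ≤ u i2 := m2 _ n3.1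
  have o34 : u i4 ≤ u i3 := m3 _ ⟨n4.1, n4.2.1⟩
  have s4 : ∀ f : ι → ℝ, f i1 + f i2 + f i3 + f i4 +
      ∑ l ∈ ({i1, i2, i3, i4} : Finset ι)ᶜ, f l = ∑ l, f l := fun f => by
    rw [← Finset.sum_add_sum_compl {i1, i2, i3, i4} f, Finset.sum_insert (by simp [*]),
      Finset.sum_insert (by simp [*]), Finset.sum_insert (by simp [*]), Finset.sum_singleton]
    ring
  have c4 : ({i1, i2, i3, i4} : Finset ι).card = 4 := by
    rw [Finset.card_insert_of_notMem (by simp [*]), Finset.card_insert_of_notMem (by simp [*]),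
      Finset.card_insert_of_notMem (by simp [*]), Finset.card_singleton]
  rcases le_total (u i4) 0.04 with h4 | h4
  · obtain ⟨a1, a2, a3, a4, a5⟩ := agg ({i1, i2, i3, i4} : Finset ι)ᶜ hL (m := u i4)
      (fun l hl => by
        simp only [Finset.mem_compl, Finset.mem_insert, Finset.mem_singleton, not_or] at hl
        exact m4 l ⟨hl.1, hl.2.1, hl.2.2.1⟩)
    exact endA (hL i1) (hL i2) (hL i3) (hL i4) o12 o23 o34 a1 a2 a3 a4 a5
      ((s4 u).trans su) ((s4 p).trans sp) h4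
      (fun D hD hD2 => h.t4 h12 h13 h14 h23 h24 h34 o12 o23 rfl D hD hD2)
  by_cases hk : Fintype.card ι = 4
  · have he : ({i1, i2, i3, i4} : Finset ι)ᶜ = ∅ := by
      rw [← Finset.card_eq_zero, Finset.card_compl, c4, hk]
    have e1 := s4 u
    have e2 := s4 p
    rw [he, Finset.sum_empty, add_zero] at e1 e2
    exact endB4 (hL i1) (hL i2) (hL i3) (hL i4) o12 o23 o34 (e1.trans su) (e2.trans sp) h4
      (h.cap hk i1) (h.cap hk i2) (h.cap hk i3) (h.cap hk i4)
  obtain ⟨i5, n5, m5⟩ := exists_next u {i1, i2, i3, i4} (by omega)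
  simp only [Finset.mem_insert, Finset.mem_singleton, not_or] at n5 m5
  have h15 : i1 ≠ i5 := Ne.symm n5.1
  have h25 : i2 ≠ i5 := Ne.symm n5.2.1
  have h35 : i3 ≠ i5 := Ne.symm n5.2.2.1
  have h45 : i4 ≠ i5 := Ne.symm n5.2.2.2
  have o45 : u i5 ≤ u i4 := m4 _ ⟨n5.1, n5.2.1, n5.2.2.1⟩
  have s5 : ∀ f : ι → ℝ, f i1 + f i2 + f i3 + f i4 + f i5 +
      ∑ l ∈ ({i1, i2, i3, i4, i5} : Finset ι)ᶜ, f l = ∑ l, f l := fun f => by
    rw [← Finset.sum_add_sum_compl {i1, i2, i3, i4, i5} f, Finset.sum_insert (by simp [*]),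
      Finset.sum_insert (by simp [*]), Finset.sum_insert (by simp [*]),
      Finset.sum_insert (by simp [*]), Finset.sum_singleton]
    ring
  obtain ⟨a1, a2, a3, a4, a5⟩ := agg ({i1, i2, i3, i4, i5} : Finset ι)ᶜ hL (m := u i5)
    (fun l hl => by
      simp only [Finset.mem_compl, Finset.mem_insert, Finset.mem_singleton, not_or] at hl
      exact m5 l ⟨hl.1, hl.2.1, hl.2.2.1, hl.2.2.2.1⟩)
  obtain ⟨ξ1, ξ2, ξ3, δ1, δ2, δ3, x1, x2, x3, d1, d2, d3, e1, e2, e3, e4⟩ :=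
    h.t5 h12 h13 h14 h15 h23 h24 h25 h34 h35 h45 rfl
  exact endB5 (hL i1) (hL i2) (hL i3) (hL i4) (hL i5) o12 o23 o34 o45 a1 a2 a3 a4 a5
    ((s5 u).trans su) ((s5 p).trans sp) h4 x1 x2 x3 d1 d2 d3 e1 e2 e3 e4

theorem bound_all (k : ℕ) : Bound E k := by
  induction k with
  | zero => exact bound_le_three (by norm_num)
  | succ k ih =>
    by_cases hk : k + 1 ≤ 3
    · exact bound_le_three hk
    · by_contra hn
      obtain ⟨ι, _, v, lam, h⟩ := exists_crit (by omega) ih hn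
      exact h.false

theorem propeller_fin {ι : Type} [Fintype ι] {A : ι → Set E} (h : AEPart A) :
    ∑ i, ‖∫ x in A i, x ∂stdGaussian E‖ ^ 2 ≤ 9 / (8 * Real.pi) := by
  set z : ι → E := fun i => ∫ x in A i, x ∂stdGaussian E with hz
  have h1 : ∑ i, ‖z i‖ ^ 2 ≤ F z := by
    have := h.sum_inner_le z
    simpa [hz, real_inner_self_eq_norm_sq] using this
  have h2 := bound_all (E := E) _ ι rfl z
  have h3 : 0 ≤ ∑ i, ‖z i‖ ^ 2 := Finset.sum_nonneg fun i _ => sq_nonneg _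
  have h4 := Real.sq_sqrt h3
  have h5 := Real.sqrt_nonneg (∑ i, ‖z i‖ ^ 2)
  have h6 := cc_pos
  rw [← cc_sq]
  set s := Real.sqrt (∑ i, ‖z i‖ ^ 2)
  have h7 : s ≤ cc := by
    by_contra h8
    push Not at h8
    nlinarith
  nlinarith

end Crest.Agent.R215
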