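import Crest.Agent.R215.G1b

/-! Row 215: numerical enclosures of `phi` and `Q`. -/

set_option autoImplicit false

namespace Crest.Agent.R215

open MeasureTheory ProbabilityTheory Set Filter Topology
open scoped RealInnerProductSpace NNReal

lemma mono_of_deriv {f f' : ℝ → ℝ} (hf : ∀ x, HasDerivAt f (f' x) x) {a b : ℝ} (hab : a ≤ b)
    (h' : ∀ x, a ≤ x → x ≤ b → 0 ≤ f' x) : f a ≤ f b := by
  have hm : MonotoneOn f (Icc a b) := by
    apply monotoneOn_of_deriv_nonneg (convex_Icc a b)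
    · exact fun x _ => (hf x).continuousAt.continuousWithinAt
    · exact fun x _ => (hf x).differentiableAt.differentiableWithinAt
    · intro x hx
      rw [(hf x).deriv]
      have := interior_subset hx
      exact h' x this.1 this.2
  exact hm ⟨le_rfl, hab⟩ ⟨hab, le_rfl⟩ hab

lemma exp_alt (n : ℕ) : ∀ {y : ℝ}, 0 ≤ y →
    0 ≤ (-1) ^ n * (Real.exp (-y) - ∑ m ∈ Finset.range n, (-y) ^ m / (m.factorial : ℝ)) := by
  induction n with
  | zero => intro y _; simp [Real.exp_nonneg]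
  | succ n ih =>
    intro y hy
    have hd : ∀ x : ℝ, HasDerivAt (fun y : ℝ => (-1) ^ (n + 1) * (Real.exp (-y) -
        ∑ m ∈ Finset.range (n + 1), (-y) ^ m / (m.factorial : ℝ)))
        ((-1) ^ n * (Real.exp (-x) - ∑ m ∈ Finset.range n, (-x) ^ m / (m.factorial : ℝ))) x := by
      intro x
      have h1 : HasDerivAt (fun y : ℝ => Real.exp (-y)) (Real.exp (-x) * -1) x :=
        (hasDerivAt_neg x).exp
      have h2 : HasDerivAt (fun y : ℝ => ∑ m ∈ Finset.range (n + 1), (-y) ^ m / (m.factorial : ℝ))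
          (∑ m ∈ Finset.range (n + 1), ((m : ℝ) * (-x) ^ (m - 1) * -1) / (m.factorial : ℝ)) x := by
        apply HasDerivAt.fun_sum
        intro m _
        exact ((hasDerivAt_neg x).fun_pow m).div_const _
      have h3 : (∑ m ∈ Finset.range (n + 1), ((m : ℝ) * (-x) ^ (m - 1) * -1) / (m.factorial : ℝ)) =
          -∑ m ∈ Finset.range n, (-x) ^ m / (m.factorial : ℝ) := by
        rw [Finset.sum_range_succ', ← Finset.sum_neg_distrib]
        simp only [Nat.cast_zero, zero_mul, zero_div, add_zero, Nat.add_sub_cancel]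
        refine Finset.sum_congr rfl fun m _ => ?_
        rw [Nat.factorial_succ]
        have : (m.factorial : ℝ) ≠ 0 := by positivity
        push_cast
        field_simp
      rw [h3] at h2
      refine ((h1.fun_sub h2).const_mul ((-1 : ℝ) ^ (n + 1))).congr_deriv ?_
      ring
    have := mono_of_deriv hd hy (fun x hx _ => ih hx)
    simpa [Finset.sum_range_succ'] using this

/-- `1/√(2π)` -/
noncomputable def KK : ℝ := 1 / Real.sqrt (2 * Real.pi)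

lemma KK_pos : 0 < KK := by unfold KK; have := Real.pi_pos; positivity

lemma KK_sq : KK ^ 2 * (2 * Real.pi) = 1 := by
  unfold KK
  have := Real.pi_pos
  rw [div_pow, Real.sq_sqrt (by positivity)]
  field_simp

lemma KK_bounds : 0.39894227 ≤ KK ∧ KK ≤ 0.39894229 := by
  have h1 := Real.pi_gt_d20
  have h2 := Real.pi_lt_d20
  have h3 := KK_sq
  have h4 := KK_pos
  constructor
  · by_contra h
    push Not at h
    nlinarith [mul_pos h4 h4, mul_lt_mul'' h h h4.le h4.le]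
  · by_contra h
    push Not at h
    nlinarith [mul_lt_mul'' h h (by norm_num) (by norm_num)]

lemma phi_eq_KK (x : ℝ) : phi x = KK * Real.exp (-(x ^ 2 / 2)) := by
  unfold phi KK; rw [neg_div]; ring

lemma cc_eq_KK : cc = 3 / 2 * KK := by
  unfold cc KK; have := Real.pi_pos; field_simp

lemma Q_alt (n : ℕ) {a : ℝ} (ha : 0 ≤ a) :
    0 ≤ (-1) ^ n * (1 / 2 - Q a - KK * ∑ m ∈ Finset.range n,
      (-1 / 2) ^ m * a ^ (2 * m + 1) / ((m.factorial : ℝ) * (2 * m + 1))) := by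
  have hd : ∀ x : ℝ, HasDerivAt (fun a : ℝ => (-1) ^ n * (1 / 2 - Q a - KK * ∑ m ∈ Finset.range n,
      (-1 / 2) ^ m * a ^ (2 * m + 1) / ((m.factorial : ℝ) * (2 * m + 1))))
      (KK * ((-1) ^ n * (Real.exp (-(x ^ 2 / 2)) -
        ∑ m ∈ Finset.range n, (-(x ^ 2 / 2)) ^ m / (m.factorial : ℝ)))) x := by
    intro x
    have h2 : HasDerivAt (fun a : ℝ => ∑ m ∈ Finset.range n,
        (-1 / 2) ^ m * a ^ (2 * m + 1) / ((m.factorial : ℝ) * (2 * m + 1)))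
        (∑ m ∈ Finset.range n, (-(x ^ 2 / 2)) ^ m / (m.factorial : ℝ)) x := by
      apply HasDerivAt.fun_sum
      intro m _
      refine (((hasDerivAt_pow (2 * m + 1) x).const_mul ((-1 / 2 : ℝ) ^ m)).div_const
        ((m.factorial : ℝ) * (2 * m + 1))).congr_deriv ?_
      have : (m.factorial : ℝ) ≠ 0 := by positivity
      have h5 : (-(x ^ 2 / 2)) ^ m = (-1 / 2) ^ m * x ^ (2 * m) := by
        rw [pow_mul, ← mul_pow]; congr 1; ring
      rw [h5]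
      push_cast
      field_simp
    refine ((((hasDerivAt_const x (1 / 2 : ℝ)).fun_sub (hasDerivAt_Q x)).fun_sub
      (h2.const_mul KK)).const_mul ((-1 : ℝ) ^ n)).congr_deriv ?_
    rw [phi_eq_KK]; ring
  have := mono_of_deriv hd ha
    (fun x _ _ => mul_nonneg KK_pos.le (exp_alt n (by positivity)))
  simpa [Q_zero] using this

lemma encl_19 : 0.0656156 ≤ phi 1.9 ∧ phi 1.9 ≤ 0.0656160 ∧ 0.0287164 ≤ Q 1.9 ∧ Q 1.9 ≤ 0.0287168 := by
  have h1 := exp_alt 16 (y := (1.9 : ℝ) ^ 2 / 2) (by positivity)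
  have h2 := exp_alt 17 (y := (1.9 : ℝ) ^ 2 / 2) (by positivity)
  have h3 := Q_alt 16 (a := (1.9 : ℝ)) (by norm_num)
  have h4 := Q_alt 17 (a := (1.9 : ℝ)) (by norm_num)
  have hK := KK_bounds
  rw [phi_eq_KK]
  set e := Real.exp (-((1.9 : ℝ) ^ 2 / 2))
  simp only [Finset.sum_range_succ, Finset.sum_range_zero, Nat.factorial] at h1 h2 h3 h4
  norm_num at h1 h2 h3 h4
  refine ⟨?_, ?_, ?_, ?_⟩ <;> nlinarith [hK.1, hK.2]

lemma encl_162 : 0.1074059 ≤ phi 1.62 ∧ phi 1.62 ≤ 0.1074063 ∧ 0.0526159 ≤ Q 1.62 ∧ Q 1.62 ≤ 0.0526163 := by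
  have h1 := exp_alt 14 (y := (1.62 : ℝ) ^ 2 / 2) (by positivity)
  have h2 := exp_alt 15 (y := (1.62 : ℝ) ^ 2 / 2) (by positivity)
  have h3 := Q_alt 14 (a := (1.62 : ℝ)) (by norm_num)
  have h4 := Q_alt 15 (a := (1.62 : ℝ)) (by norm_num)
  have hK := KK_bounds
  rw [phi_eq_KK]
  set e := Real.exp (-((1.62 : ℝ) ^ 2 / 2))
  simp only [Finset.sum_range_succ, Finset.sum_range_zero, Nat.factorial] at h1 h2 h3 h4
  norm_num at h1 h2 h3 h4
  refine ⟨?_, ?_, ?_, ?_⟩ <;> nlinarith [hK.1, hK.2]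

lemma encl_09 : 0.2660850 ≤ phi 0.9 ∧ phi 0.9 ≤ 0.2660854 ∧ 0.1840599 ≤ Q 0.9 ∧ Q 0.9 ≤ 0.1840603 := by
  have h1 := exp_alt 10 (y := (0.9 : ℝ) ^ 2 / 2) (by positivity)
  have h2 := exp_alt 11 (y := (0.9 : ℝ) ^ 2 / 2) (by positivity)
  have h3 := Q_alt 10 (a := (0.9 : ℝ)) (by norm_num)
  have h4 := Q_alt 11 (a := (0.9 : ℝ)) (by norm_num)
  have hK := KK_bounds
  rw [phi_eq_KK]
  set e := Real.exp (-((0.9 : ℝ) ^ 2 / 2))
  simp only [Finset.sum_range_succ, Finset.sum_range_zero, Nat.factorial] at h1 h2 h3 h4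
  norm_num at h1 h2 h3 h4
  refine ⟨?_, ?_, ?_, ?_⟩ <;> nlinarith [hK.1, hK.2]

lemma encl_068 : 0.3165927 ≤ phi 0.68 ∧ phi 0.68 ≤ 0.3165931 ∧ 0.2482520 ≤ Q 0.68 ∧ Q 0.68 ≤ 0.2482524 := by
  have h1 := exp_alt 8 (y := (0.68 : ℝ) ^ 2 / 2) (by positivity)
  have h2 := exp_alt 9 (y := (0.68 : ℝ) ^ 2 / 2) (by positivity)
  have h3 := Q_alt 8 (a := (0.68 : ℝ)) (by norm_num)
  have h4 := Q_alt 9 (a := (0.68 : ℝ)) (by norm_num)
  have hK := KK_bounds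
  rw [phi_eq_KK]
  set e := Real.exp (-((0.68 : ℝ) ^ 2 / 2))
  simp only [Finset.sum_range_succ, Finset.sum_range_zero, Nat.factorial] at h1 h2 h3 h4
  norm_num at h1 h2 h3 h4
  refine ⟨?_, ?_, ?_, ?_⟩ <;> nlinarith [hK.1, hK.2]

lemma encl_05 : 0.3520651 ≤ phi 0.5 ∧ phi 0.5 ≤ 0.3520655 ∧ 0.3085373 ≤ Q 0.5 ∧ Q 0.5 ≤ 0.3085377 := by
  have h1 := exp_alt 6 (y := (0.5 : ℝ) ^ 2 / 2) (by positivity)
  have h2 := exp_alt 7 (y := (0.5 : ℝ) ^ 2 / 2) (by positivity)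
  have h3 := Q_alt 6 (a := (0.5 : ℝ)) (by norm_num)
  have h4 := Q_alt 7 (a := (0.5 : ℝ)) (by norm_num)
  have hK := KK_bounds
  rw [phi_eq_KK]
  set e := Real.exp (-((0.5 : ℝ) ^ 2 / 2))
  simp only [Finset.sum_range_succ, Finset.sum_range_zero, Nat.factorial] at h1 h2 h3 h4
  norm_num at h1 h2 h3 h4
  refine ⟨?_, ?_, ?_, ?_⟩ <;> nlinarith [hK.1, hK.2]

lemma encl_048 : 0.3555323 ≤ phi 0.48 ∧ phi 0.48 ≤ 0.3555327 ∧ 0.3156135 ≤ Q 0.48 ∧ Q 0.48 ≤ 0.3156139 := by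
  have h1 := exp_alt 6 (y := (0.48 : ℝ) ^ 2 / 2) (by positivity)
  have h2 := exp_alt 7 (y := (0.48 : ℝ) ^ 2 / 2) (by positivity)
  have h3 := Q_alt 6 (a := (0.48 : ℝ)) (by norm_num)
  have h4 := Q_alt 7 (a := (0.48 : ℝ)) (by norm_num)
  have hK := KK_bounds
  rw [phi_eq_KK]
  set e := Real.exp (-((0.48 : ℝ) ^ 2 / 2))
  simp only [Finset.sum_range_succ, Finset.sum_range_zero, Nat.factorial] at h1 h2 h3 h4
  norm_num at h1 h2 h3 h4
  refine ⟨?_, ?_, ?_, ?_⟩ <;> nlinarith [hK.1, hK.2]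

lemma encl_038 : 0.3711537 ≤ phi 0.38 ∧ phi 0.38 ≤ 0.3711541 ∧ 0.3519725 ≤ Q 0.38 ∧ Q 0.38 ≤ 0.3519729 := by
  have h1 := exp_alt 6 (y := (0.38 : ℝ) ^ 2 / 2) (by positivity)
  have h2 := exp_alt 7 (y := (0.38 : ℝ) ^ 2 / 2) (by positivity)
  have h3 := Q_alt 6 (a := (0.38 : ℝ)) (by norm_num)
  have h4 := Q_alt 7 (a := (0.38 : ℝ)) (by norm_num)
  have hK := KK_bounds
  rw [phi_eq_KK]
  set e := Real.exp (-((0.38 : ℝ) ^ 2 / 2))
  simp only [Finset.sum_range_succ, Finset.sum_range_zero, Nat.factorial] at h1 h2 h3 h4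
  norm_num at h1 h2 h3 h4
  refine ⟨?_, ?_, ?_, ?_⟩ <;> nlinarith [hK.1, hK.2]

lemma encl_031 : 0.3802262 ≤ phi 0.31 ∧ phi 0.31 ≤ 0.3802266 ∧ 0.3782803 ≤ Q 0.31 ∧ Q 0.31 ≤ 0.3782807 := by
  have h1 := exp_alt 6 (y := (0.31 : ℝ) ^ 2 / 2) (by positivity)
  have h2 := exp_alt 7 (y := (0.31 : ℝ) ^ 2 / 2) (by positivity)
  have h3 := Q_alt 6 (a := (0.31 : ℝ)) (by norm_num)
  have h4 := Q_alt 7 (a := (0.31 : ℝ)) (by norm_num)
  have hK := KK_bounds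
  rw [phi_eq_KK]
  set e := Real.exp (-((0.31 : ℝ) ^ 2 / 2))
  simp only [Finset.sum_range_succ, Finset.sum_range_zero, Nat.factorial] at h1 h2 h3 h4
  norm_num at h1 h2 h3 h4
  refine ⟨?_, ?_, ?_, ?_⟩ <;> nlinarith [hK.1, hK.2]

lemma encl_021 : 0.3902417 ≤ phi 0.21 ∧ phi 0.21 ≤ 0.3902421 ∧ 0.4168336 ≤ Q 0.21 ∧ Q 0.21 ≤ 0.4168340 := by
  have h1 := exp_alt 4 (y := (0.21 : ℝ) ^ 2 / 2) (by positivity)
  have h2 := exp_alt 5 (y := (0.21 : ℝ) ^ 2 / 2) (by positivity)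
  have h3 := Q_alt 4 (a := (0.21 : ℝ)) (by norm_num)
  have h4 := Q_alt 5 (a := (0.21 : ℝ)) (by norm_num)
  have hK := KK_bounds
  rw [phi_eq_KK]
  set e := Real.exp (-((0.21 : ℝ) ^ 2 / 2))
  simp only [Finset.sum_range_succ, Finset.sum_range_zero, Nat.factorial] at h1 h2 h3 h4
  norm_num at h1 h2 h3 h4
  refine ⟨?_, ?_, ?_, ?_⟩ <;> nlinarith [hK.1, hK.2]

end Crest.Agent.R215
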