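import Crest.Agent.R215.Num1

/-! Row 215: consequences of the bound `c² (1 - √(1-u)) ≤ phi a * G a`. -/

set_option autoImplicit false

namespace Crest.Agent.R215

open MeasureTheory ProbabilityTheory Set Filter Topology
open scoped RealInnerProductSpace NNReal

lemma hasDerivAt_J (a : ℝ) :
    HasDerivAt (fun a => phi a * G a) (-(phi a * (a * G a + Q a))) a := by
  refine ((hasDerivAt_phi a).fun_mul (hasDerivAt_G a)).congr_deriv ?_
  ring

lemma JB {a0 b : ℝ} (hb0 : 0 < b) (hb1 : b ≤ 1) (hb : a0 ^ 2 * (1 - b) ≤ b * (b + 1))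
    (hh : a0 * phi a0 ≤ (a0 ^ 2 + b) * Q a0) (hJ : phi a0 * G a0 ≤ (1 + b) / 2 * Q a0 ^ 2) {a : ℝ}
    (ha : 0 ≤ a) (ha0 : a ≤ a0) : phi a * G a ≤ (1 + b) / 2 * Q a ^ 2 := by
  have hpos : ∀ x : ℝ, 0 < x ^ 2 + b := fun x => by positivity
  have hd : ∀ x : ℝ, HasDerivAt (fun x => x * phi x / (x ^ 2 + b) - Q x)
      (phi x * (b * (b + 1) - x ^ 2 * (1 - b)) / (x ^ 2 + b) ^ 2) x := by
    intro x
    refine ((((hasDerivAt_id' x).fun_mul (hasDerivAt_phi x)).fun_div
      ((hasDerivAt_pow 2 x).add_const b) (hpos x).ne').fun_sub (hasDerivAt_Q x)).congr_deriv ?_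
    have := (hpos x).ne'
    field_simp
    ring
  have h1 : ∀ x, 0 ≤ x → x ≤ a0 → x * phi x ≤ (x ^ 2 + b) * Q x := by
    intro x hx hx0
    have h2 := mono_of_deriv hd hx0 (fun y hy hy0 => by
      have h3 : y ^ 2 ≤ a0 ^ 2 := by nlinarith
      have h4 : 0 ≤ b * (b + 1) - y ^ 2 * (1 - b) := by nlinarith
      have := phi_pos y
      positivity)
    have h5 : a0 * phi a0 / (a0 ^ 2 + b) ≤ Q a0 := by
      rw [div_le_iff₀ (hpos a0)]; linarith
    have h6 : x * phi x / (x ^ 2 + b) ≤ Q x := by linarith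
    rw [div_le_iff₀ (hpos x)] at h6; linarith
  have hd2 : ∀ x : ℝ, HasDerivAt (fun x => phi x * G x - (1 + b) / 2 * Q x ^ 2)
      (phi x * ((x ^ 2 + b) * Q x - x * phi x)) x := by
    intro x
    refine ((hasDerivAt_J x).fun_sub
      (((hasDerivAt_Q x).fun_pow 2).const_mul ((1 + b) / 2))).congr_deriv ?_
    unfold G
    push_cast
    ring
  have h7 := mono_of_deriv hd2 ha0 (fun y hy hy0 =>
    mul_nonneg (phi_pos y).le (by linarith [h1 y (by linarith) hy0]))
  linarith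

lemma J_chord {a1 a2 β γ a : ℝ} (h0 : 0 ≤ a1) (h1 : a1 ≤ a) (h2 : a ≤ a2)
    (e1 : phi a1 * G a1 ≤ β * Q a1 + γ) (e2 : phi a2 * G a2 ≤ β * Q a2 + γ) :
    phi a * G a ≤ β * Q a + γ := by
  have hM : ∀ x : ℝ, HasDerivAt (fun x => -(x * G x + Q x)) (2 * x * Q x) x := by
    intro x
    refine ((((hasDerivAt_id' x).fun_mul (hasDerivAt_G x)).fun_add
      (hasDerivAt_Q x)).fun_neg).congr_deriv ?_
    unfold G
    ring
  have hM' : ∀ x y : ℝ, 0 ≤ x → x ≤ y → y * G y + Q y ≤ x * G x + Q x := by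
    intro x y hx hxy
    have := mono_of_deriv hM hxy (fun z hz _ => by
      have := Q_pos z
      have : 0 ≤ z := by linarith
      positivity)
    linarith
  have hd : ∀ x : ℝ, HasDerivAt (fun x => phi x * G x - β * Q x)
      (phi x * (β - (x * G x + Q x))) x := by
    intro x
    refine ((hasDerivAt_J x).fun_sub ((hasDerivAt_Q x).const_mul β)).congr_deriv ?_
    ring
  rcases le_total β (a * G a + Q a) with h | h
  · have := mono_of_deriv (fun x => (hd x).fun_neg) h1 (fun y hy hy' => by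
      have h3 := hM' y a (by linarith) hy'
      have := phi_pos y
      nlinarith)
    linarith
  · have := mono_of_deriv hd h2 (fun y hy hy' => by
      have h3 := hM' a y (by linarith) hy
      exact mul_nonneg (phi_pos y).le (by linarith))
    linarith

lemma cc_sq_ge : 0.358098 ≤ cc ^ 2 := by
  have := KK_bounds
  rw [cc_eq_KK]; nlinarith [this.1]

lemma cc_ge : 0.5984134 ≤ cc := by
  have := KK_bounds
  rw [cc_eq_KK]; linarith [this.1]

lemma sqrt_one_sub_le {u r : ℝ} (hr : 0 < r) : Real.sqrt (1 - u) ≤ (r + (1 - u) / r) / 2 ∨ 1 < u := by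
  by_cases hu : 1 < u
  · exact Or.inr hu
  left
  have h1 : 0 ≤ 1 - u := by linarith
  have h2 := Real.sq_sqrt h1
  have h3 : (r + (1 - u) / r) / 2 - Real.sqrt (1 - u) = (r - Real.sqrt (1 - u)) ^ 2 / (2 * r) := by
    field_simp
    nlinarith
  have : 0 ≤ (r - Real.sqrt (1 - u)) ^ 2 / (2 * r) := by positivity
  linarith

lemma T_ge {u r : ℝ} (hu0 : 0 ≤ u) (hu : u ≤ 1) (hr : 0 < r) :
    0.358098 * (1 - (r + (1 - u) / r) / 2) ≤ cc ^ 2 * (1 - Real.sqrt (1 - u)) := by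
  have h1 := (sqrt_one_sub_le (u := u) hr).resolve_right (by linarith)
  have h2 : Real.sqrt (1 - u) ≤ 1 := Real.sqrt_le_one.2 (by linarith)
  nlinarith [cc_sq_ge]

lemma le_of_sq {c u p : ℝ} (hu : 0 ≤ u) (hp : 0 ≤ p) (h : c ^ 2 * u ≤ p ^ 2) :
    c * Real.sqrt u ≤ p := by
  apply le_trans (le_abs_self _)
  apply abs_le_of_sq_le_sq' _ hp |>.2 |> fun h => h
  rw [sq_abs, mul_pow, Real.sq_sqrt hu]; exact h

variable {u p : ℝ}

lemma Facts.s0 (h : Facts u p) (hu : u ≤ 1) : 0.4231 * Real.sqrt u ≤ p := by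
  obtain ⟨a, ha, rfl, hJ⟩ := h.jb
  have h1 := T_ge h.pos.le hu one_pos
  have h2 := mills a
  apply le_of_sq h.pos.le (Q_pos a).le
  have := h.pos
  nlinarith

lemma Facts.s1 (h : Facts u p) (hu : u ≤ 1) (hu0 : 0.005 ≤ u) : 0.45 * Real.sqrt u ≤ p := by
  obtain ⟨a, ha, rfl, hJ⟩ := h.jb
  have h1 := T_ge h.pos.le hu one_pos
  obtain ⟨e1, e2, e3, e4⟩ := encl_19
  have hJ0 : phi 1.9 * G 1.9 ≤ 0.000726 := by unfold G; nlinarith
  have ha0 : a ≤ 1.9 := by
    by_contra hc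
    push Not at hc
    have := J_antitoneOn (show (1.9 : ℝ) ∈ Ici 0 by norm_num) (show a ∈ Ici 0 from ha) hc.le
    simp only at this
    nlinarith
  have h2 := JB (a0 := 1.9) (b := 0.768) (by norm_num) (by norm_num) (by norm_num) (by nlinarith)
    (by nlinarith) ha ha0
  apply le_of_sq h.pos.le (Q_pos a).le
  nlinarith

lemma Facts.s2 (h : Facts u p) (hu : u ≤ 1) (hu0 : 0.015 ≤ u) : 0.455 * Real.sqrt u ≤ p := by
  obtain ⟨a, ha, rfl, hJ⟩ := h.jb
  have h1 := T_ge h.pos.le hu one_pos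
  obtain ⟨e1, e2, e3, e4⟩ := encl_162
  have hJ0 : phi 1.62 * G 1.62 ≤ 0.002382 := by unfold G; nlinarith
  have ha0 : a ≤ 1.62 := by
    by_contra hc
    push Not at hc
    have := J_antitoneOn (show (1.62 : ℝ) ∈ Ici 0 by norm_num) (show a ∈ Ici 0 from ha) hc.le
    simp only at this
    nlinarith
  have h2 := JB (a0 := 1.62) (b := 0.728) (by norm_num) (by norm_num) (by norm_num) (by nlinarith)
    (by nlinarith) ha ha0
  apply le_of_sq h.pos.le (Q_pos a).le
  nlinarith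

lemma Facts.l1' (h : Facts u p) (hu : u ≤ 0.35) (hu0 : 0.15 ≤ u) : 0.097 + 0.6 * u ≤ p := by
  obtain ⟨a, ha, rfl, hJ⟩ := h.jb
  have t1 := T_ge (r := 0.92) h.pos.le (by linarith) (by norm_num)
  have t2 := T_ge (r := 0.8) h.pos.le (by linarith) (by norm_num)
  obtain ⟨e1, e2, e3, e4⟩ := encl_09
  obtain ⟨f1, f2, f3, f4⟩ := encl_068
  obtain ⟨g1, g2, g3, g4⟩ := encl_05
  have j1 : phi 0.9 * G 0.9 ≤ 0.026724 := by unfold G; nlinarith
  have j2 : phi 0.68 * G 0.68 ≤ 0.046787 := by unfold G; nlinarith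
  have j3 : phi 0.5 * G 0.5 ≤ 0.069638 := by unfold G; nlinarith
  rcases le_total a 0.5 with c1 | c1
  · have := strictAnti_Q.antitone c1
    linarith
  rcases le_total a 0.68 with c2 | c2
  · have := J_chord (β := 0.379) (γ := -0.04729) (by norm_num) c1 c2 (by linarith) (by linarith)
    norm_num at t2 this ⊢
    linarith
  rcases le_total a 0.9 with c3 | c3
  · have := J_chord (β := 0.3126) (γ := -0.0308) (by norm_num) c2 c3 (by linarith) (by linarith)
    norm_num at t1 this ⊢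
    linarith
  · have := J_antitoneOn (show (0.9 : ℝ) ∈ Ici 0 by norm_num) (show a ∈ Ici 0 from ha) c3
    simp only at this
    norm_num at t1
    linarith

end Crest.Agent.R215
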