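import Crest.Agent.R215.G1a

/-! Row 215: the Ehrhard functional `Eh` and its shift property.
Plan for `Eh_shift`: put `a = Eh μ V`, `c = exp (-a δ - δ²/2)`. For all `r`:
`Phi (r+δ) ≤ Phi (a+δ) + c (Phi r - Phi a)` when `δ ≥ 0` (the function `r ↦ Phi (r+δ) - c Phi r` has derivative
`phi r (exp (-rδ-δ²/2) - c)`, `≥ 0` for `r ≤ a`, `≤ 0` for `r ≥ a`). Integrate:
`∫ Phi (W) ≤ ∫ Phi (V+δ) ≤ Phi (a+δ)`, then use `strictMono_Phi`. -/

set_option autoImplicit false

namespace Crest.Agent.R215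

open MeasureTheory ProbabilityTheory Set Filter Topology
open scoped RealInnerProductSpace NNReal

variable {Ω : Type*} [MeasurableSpace Ω] (μ : Measure Ω) [IsProbabilityMeasure μ]

lemma integrable_Phi_comp {V : Ω → ℝ} (hV : Measurable V) :
    Integrable (fun ω => Phi (V ω)) μ := by
  refine Integrable.of_bound (continuous_Phi.measurable.comp hV).aestronglyMeasurable 1
    (ae_of_all _ fun ω => ?_)
  rw [Real.norm_eq_abs, abs_of_pos (Phi_pos _)]
  exact (Phi_lt_one _).le

lemma integral_Phi_pos {V : Ω → ℝ} (hV : Measurable V) : 0 < ∫ ω, Phi (V ω) ∂μ := by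
  rw [integral_pos_iff_support_of_nonneg (fun ω => (Phi_pos (V ω)).le) (integrable_Phi_comp μ hV)]
  have : Function.support (fun ω => Phi (V ω)) = univ := by
    ext ω
    simp [(Phi_pos (V ω)).ne']
  rw [this]
  simp

lemma integral_Phi_lt_one {V : Ω → ℝ} (hV : Measurable V) : ∫ ω, Phi (V ω) ∂μ < 1 := by
  have hV' : Measurable (fun ω => -V ω) := hV.neg
  have h1 := integral_Phi_pos μ hV'
  have h2 : ∫ ω, Phi (V ω) ∂μ + ∫ ω, Phi (-V ω) ∂μ = 1 := by
    rw [← integral_add (integrable_Phi_comp μ hV) (integrable_Phi_comp μ hV')]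
    simp [Phi_add_Phi_neg]
  linarith

lemma Phi_Eh {V : Ω → ℝ} (hV : Measurable V) : Phi (Eh μ V) = ∫ ω, Phi (V ω) ∂μ :=
  Phi_PhiInv (integral_Phi_pos μ hV) (integral_Phi_lt_one μ hV)

lemma Eh_const (c : ℝ) : Eh μ (fun _ => c) = c := by
  simp [Eh, PhiInv_Phi]

lemma shift_phi_add (r δ : ℝ) : phi (r + δ) = phi r * Real.exp (-r * δ - δ ^ 2 / 2) := by
  unfold phi
  rw [div_mul_eq_mul_div, ← Real.exp_add]
  congr 2
  ring

lemma shift_Phi_le (a r : ℝ) {δ : ℝ} (hδ : 0 ≤ δ) :
    Phi (r + δ) ≤ Phi (a + δ) + Real.exp (-a * δ - δ ^ 2 / 2) * (Phi r - Phi a) := by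
  set c := Real.exp (-a * δ - δ ^ 2 / 2) with hc
  let g : ℝ → ℝ := fun x => Phi (x + δ) - c * Phi x
  have hg : ∀ x, HasDerivAt g (phi x * (Real.exp (-x * δ - δ ^ 2 / 2) - c)) x := by
    intro x
    have h1 : HasDerivAt (fun x => Phi (x + δ)) (phi (x + δ)) x :=
      (hasDerivAt_Phi (x + δ)).comp_add_const x δ
    have h2 := h1.sub ((hasDerivAt_Phi x).const_mul c)
    refine HasDerivAt.congr_deriv h2 ?_
    rw [shift_phi_add]
    ring
  have hd : Differentiable ℝ g := fun x => (hg x).differentiableAt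
  have key : g r ≤ g a := by
    rcases le_total r a with h | h
    · have hm : MonotoneOn g (Iic a) := by
        refine monotoneOn_of_deriv_nonneg (convex_Iic a) hd.continuous.continuousOn
          hd.differentiableOn ?_
        intro x hx
        rw [interior_Iic] at hx
        rw [(hg x).deriv]
        refine mul_nonneg (phi_pos x).le (sub_nonneg.2 (Real.exp_le_exp.2 ?_))
        have : x * δ ≤ a * δ := mul_le_mul_of_nonneg_right (le_of_lt hx) hδ
        linarith
      exact hm h (le_refl a) h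
    · have hm : AntitoneOn g (Ici a) := by
        refine antitoneOn_of_deriv_nonpos (convex_Ici a) hd.continuous.continuousOn
          hd.differentiableOn ?_
        intro x hx
        rw [interior_Ici] at hx
        rw [(hg x).deriv]
        refine mul_nonpos_of_nonneg_of_nonpos (phi_pos x).le
          (sub_nonpos.2 (Real.exp_le_exp.2 ?_))
        have : a * δ ≤ x * δ := mul_le_mul_of_nonneg_right (le_of_lt hx) hδ
        linarith
      exact hm (le_refl a) h h
  simp only [g] at key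
  linarith

lemma Eh_shift {V W : Ω → ℝ} (hV : Measurable V) (hW : Measurable W) {δ : ℝ} (hδ : 0 ≤ δ)
    (h : ∀ ω, W ω ≤ V ω + δ) : Eh μ W ≤ Eh μ V + δ := by
  rw [← strictMono_Phi.le_iff_le, Phi_Eh μ hW]
  set a := Eh μ V with ha
  set c := Real.exp (-a * δ - δ ^ 2 / 2) with hc
  have hiV := integrable_Phi_comp μ hV
  have hi2 : Integrable (fun ω => c * (Phi (V ω) - Phi a)) μ :=
    (hiV.sub (integrable_const _)).const_mul c
  calc ∫ ω, Phi (W ω) ∂μ ≤ ∫ ω, (Phi (a + δ) + c * (Phi (V ω) - Phi a)) ∂μ := by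
        refine integral_mono (integrable_Phi_comp μ hW) ((integrable_const _).add hi2) fun ω => ?_
        exact (strictMono_Phi.monotone (h ω)).trans (shift_Phi_le a (V ω) hδ)
    _ = Phi (a + δ) := by
        rw [integral_add (integrable_const _) hi2, integral_const_mul,
          integral_sub hiV (integrable_const _), ← Phi_Eh μ hV]
        simp [ha]

lemma abs_Eh_sub_le {V W : Ω → ℝ} (hV : Measurable V) (hW : Measurable W) {δ : ℝ}
    (h : ∀ ω, |V ω - W ω| ≤ δ) : |Eh μ V - Eh μ W| ≤ δ := by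
  obtain ⟨ω₀⟩ := nonempty_of_isProbabilityMeasure μ
  have hδ : 0 ≤ δ := (abs_nonneg _).trans (h ω₀)
  have h1 := Eh_shift μ hV hW hδ (fun ω => by have := (abs_le.1 (h ω)).1; linarith)
  have h2 := Eh_shift μ hW hV hδ (fun ω => by have := (abs_le.1 (h ω)).2; linarith)
  rw [abs_le]
  constructor <;> linarith

lemma Eh_map {Ω' : Type*} [MeasurableSpace Ω'] {f : Ω → Ω'} (hf : Measurable f) {V : Ω' → ℝ}
    (hV : Measurable V) : Eh (μ.map f) V = Eh μ (fun ω => V (f ω)) := by
  unfold Eh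
  have hm : Measurable (fun ω => Phi (V ω)) := continuous_Phi.measurable.comp hV
  rw [integral_map hf.aemeasurable hm.aestronglyMeasurable]

/-- Fubini for the Ehrhard functional -/
lemma Eh_prod {Ω' : Type*} [MeasurableSpace Ω'] (ν : Measure Ω') [IsProbabilityMeasure ν]
    {V : Ω × Ω' → ℝ} (hV : Measurable V) :
    Eh (μ.prod ν) V = Eh ν (fun y => Eh μ (fun x => V (x, y))) := by
  have h1 : ∀ y, Phi (Eh μ (fun x => V (x, y))) = ∫ x, Phi (V (x, y)) ∂μ := fun y =>
    Phi_Eh μ (hV.comp measurable_prodMk_right)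
  conv_rhs => unfold Eh
  have h2 : ∀ y, Phi (PhiInv (∫ x, Phi (V (x, y)) ∂μ)) = ∫ x, Phi (V (x, y)) ∂μ := h1
  simp only [h2]
  unfold Eh
  rw [integral_prod_symm _ (integrable_Phi_comp (μ.prod ν) hV)]

end Crest.Agent.R215
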