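import Crest.Agent.R215.G1b

/-! Row 215: marginals and splitting of the standard Gaussian measure.
Plan: characteristic functions (`Measure.ext_of_charFun`, `charFun_stdGaussian`, `charFun_gaussianReal`,
`integral_prod_mul`). For `map_two` the target `ℝ × ℝ` is not an inner product space: use
`Measure.ext_of_charFunDual`/`charFunDual_prod`, or independence of uncorrelated Gaussians
(`HasGaussianLaw.indepFun_of_covariance_eq_zero`, `indepFun_iff_map_prod_eq_prod_map_map`), or apply `map_split`. -/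

set_option autoImplicit false
set_option linter.unusedSectionVars false

namespace Crest.Agent.R215

open MeasureTheory ProbabilityTheory Set Filter Topology
open scoped RealInnerProductSpace NNReal

variable {E : Type*} [NormedAddCommGroup E] [InnerProductSpace ℝ E] [FiniteDimensional ℝ E]
  [MeasurableSpace E] [BorelSpace E]

lemma split_cf (t : E) :
    ∫ x, Complex.exp ((⟪x, t⟫ : ℝ) * Complex.I) ∂stdGaussian E =
      Complex.exp (-(‖t‖ : ℂ) ^ 2 / 2) := by
  rw [← charFun_apply, charFun_stdGaussian]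

lemma split_cf1 (t : ℝ) :
    ∫ x, Complex.exp (((x * t : ℝ) : ℂ) * Complex.I) ∂g1 = Complex.exp (-(t : ℂ) ^ 2 / 2) := by
  have h := charFun_gaussianReal (μ := 0) (v := 1) t
  rw [charFun_apply_real] at h
  simp only [Complex.ofReal_zero, mul_zero, zero_mul, NNReal.coe_one, Complex.ofReal_one, one_mul,
    zero_sub] at h
  rw [neg_div, ← h]
  congr 1
  ext x
  push_cast
  ring_nf

lemma map_neg_gauss : (stdGaussian E).map (fun x => -x) = stdGaussian E := by
  have := stdGaussian_map (E := E) (LinearIsometryEquiv.neg ℝ)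
  simpa using this

lemma map_inner_unit {e : E} (he : ‖e‖ = 1) : (stdGaussian E).map (fun x => ⟪e, x⟫) = g1 := by
  have hm : Measurable (fun x : E => ⟪e, x⟫) := by fun_prop
  have : IsProbabilityMeasure ((stdGaussian E).map (fun x => ⟪e, x⟫)) :=
    Measure.isProbabilityMeasure_map hm.aemeasurable
  apply Measure.ext_of_charFun
  ext t
  rw [charFun_apply, integral_map hm.aemeasurable (Measurable.aestronglyMeasurable (by fun_prop)),
    charFun_apply]
  have h1 : ∀ x : E, (⟪⟪e, x⟫, t⟫ : ℝ) = ⟪x, t • e⟫ := by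
    intro x
    rw [real_inner_smul_right, real_inner_comm x e]
    simp [mul_comm]
  have h2 : ∀ x : ℝ, (⟪x, t⟫ : ℝ) = x * t := by
    intro x; simp [mul_comm]
  simp_rw [h1, h2, split_cf, split_cf1, norm_smul, he, mul_one, Real.norm_eq_abs]
  congr 2
  rw [← Complex.ofReal_pow, sq_abs, Complex.ofReal_pow]

lemma map_split {e : E} (he : ‖e‖ = 1) :
    (g1.prod (stdGaussian E)).map (fun q : ℝ × E => q.1 • e + (q.2 - ⟪e, q.2⟫ • e)) =
      stdGaussian E := by
  have hm : Measurable (fun q : ℝ × E => q.1 • e + (q.2 - ⟪e, q.2⟫ • e)) := by fun_prop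
  have : IsProbabilityMeasure
      ((g1.prod (stdGaussian E)).map (fun q : ℝ × E => q.1 • e + (q.2 - ⟪e, q.2⟫ • e))) :=
    Measure.isProbabilityMeasure_map hm.aemeasurable
  apply Measure.ext_of_charFun
  ext t
  rw [charFun_apply, integral_map hm.aemeasurable (Measurable.aestronglyMeasurable (by fun_prop)),
    charFun_stdGaussian]
  have h1 : ∀ q : ℝ × E, Complex.exp (((⟪q.1 • e + (q.2 - ⟪e, q.2⟫ • e), t⟫ : ℝ) : ℂ) * Complex.I) =
      Complex.exp (((q.1 * ⟪e, t⟫ : ℝ) : ℂ) * Complex.I) *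
        Complex.exp (((⟪q.2, t - ⟪e, t⟫ • e⟫ : ℝ) : ℂ) * Complex.I) := by
    intro q
    rw [← Complex.exp_add, ← add_mul, ← Complex.ofReal_add]
    congr 3
    rw [inner_add_left, inner_sub_left, inner_sub_right, real_inner_smul_left,
      real_inner_smul_left, real_inner_smul_right, real_inner_comm q.2 e]
    ring
  simp_rw [h1]
  rw [integral_prod_mul (f := fun s : ℝ => Complex.exp (((s * ⟪e, t⟫ : ℝ) : ℂ) * Complex.I))
    (g := fun y : E => Complex.exp (((⟪y, t - ⟪e, t⟫ • e⟫ : ℝ) : ℂ) * Complex.I)),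
    split_cf, split_cf1, ← Complex.exp_add]
  congr 1
  have h3 : ‖t - ⟪e, t⟫ • e‖ ^ 2 = ‖t‖ ^ 2 - ⟪e, t⟫ ^ 2 := by
    rw [norm_sub_sq_real, real_inner_smul_right, norm_smul, he, real_inner_comm, mul_one,
      Real.norm_eq_abs, sq_abs]
    ring
  have h4 : ((‖t - ⟪e, t⟫ • e‖ : ℝ) : ℂ) ^ 2 = (‖t‖ : ℂ) ^ 2 - ((⟪e, t⟫ : ℝ) : ℂ) ^ 2 := by
    exact_mod_cast congrArg (fun r : ℝ => (r : ℂ)) h3
  rw [h4]
  ring

lemma map_two {e1 e2 : E} (h1 : ‖e1‖ = 1) (h2 : ‖e2‖ = 1) (h12 : ⟪e1, e2⟫ = 0) :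
    (stdGaussian E).map (fun x => (⟪e1, x⟫, ⟪e2, x⟫)) = g1.prod g1 := by
  have hm : Measurable (fun q : ℝ × E => q.1 • e1 + (q.2 - ⟪e1, q.2⟫ • e1)) := by fun_prop
  have hm2 : Measurable (fun x : E => (⟪e1, x⟫, ⟪e2, x⟫)) := by fun_prop
  conv_lhs => rw [← map_split h1]
  rw [Measure.map_map hm2 hm]
  have h21 : ⟪e2, e1⟫ = (0 : ℝ) := by rw [real_inner_comm]; exact h12
  have : ((fun x : E => (⟪e1, x⟫, ⟪e2, x⟫)) ∘
      (fun q : ℝ × E => q.1 • e1 + (q.2 - ⟪e1, q.2⟫ • e1))) =
      Prod.map id (fun x : E => ⟪e2, x⟫) := by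
    ext q
    · simp [inner_add_right, inner_sub_right, real_inner_smul_right, h1]
    · simp [inner_add_right, inner_sub_right, real_inner_smul_right, h21]
  rw [this, ← Measure.map_prod_map _ _ measurable_id (by fun_prop), Measure.map_id,
    map_inner_unit h2]

lemma split_unit {w : E} (hw : w ≠ 0) :
    ∃ e : E, ‖e‖ = 1 ∧ ∀ x, ⟪w, x⟫ = ‖w‖ * ⟪e, x⟫ := by
  have h : ‖w‖ ≠ 0 := norm_ne_zero_iff.2 hw
  refine ⟨‖w‖⁻¹ • w, ?_, fun x => ?_⟩
  · rw [norm_smul, norm_inv, norm_norm, inv_mul_cancel₀ h]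
  · rw [real_inner_smul_left, ← mul_assoc, mul_inv_cancel₀ h, one_mul]

lemma hyperplane_null {w : E} (hw : w ≠ 0) : stdGaussian E {x | ⟪w, x⟫ = 0} = 0 := by
  obtain ⟨e, he, hx⟩ := split_unit hw
  have h : ‖w‖ ≠ 0 := norm_ne_zero_iff.2 hw
  have hm : Measurable (fun x : E => ⟪e, x⟫) := by fun_prop
  have : {x | ⟪w, x⟫ = 0} = (fun x : E => ⟪e, x⟫) ⁻¹' {0} := by
    ext x; simp [hx, h]
  rw [this, ← Measure.map_apply hm (measurableSet_singleton 0), map_inner_unit he]
  have : NullSingletonClass g1 := nullSingletonClass_gaussianReal one_ne_zero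
  exact measure_singleton 0

lemma halfspace_half {w : E} (hw : w ≠ 0) : (stdGaussian E).real {x | 0 ≤ ⟪w, x⟫} = 1 / 2 := by
  obtain ⟨e, he, hx⟩ := split_unit hw
  have h : 0 < ‖w‖ := norm_pos_iff.2 hw
  have hm : Measurable (fun x : E => ⟪e, x⟫) := by fun_prop
  have : {x | 0 ≤ ⟪w, x⟫} = (fun x : E => ⟪e, x⟫) ⁻¹' (Ici 0) := by
    ext x; simp [hx, mul_nonneg_iff_of_pos_left h]
  rw [this, ← map_measureReal_apply hm measurableSet_Ici, map_inner_unit he, g1_Ici, Q_zero]

lemma integrable_id_gauss : Integrable (fun x : E => x) (stdGaussian E) :=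
  IsGaussian.integrable_id

lemma integrable_inner_gauss (w : E) : Integrable (fun x => ⟪w, x⟫) (stdGaussian E) :=
  (innerSL ℝ w).integrable_comp integrable_id_gauss

lemma integral_inner_gauss (w : E) : ∫ x, ⟪w, x⟫ ∂stdGaussian E = 0 :=
  integral_strongDual_stdGaussian (innerSL ℝ w)

lemma split_comp {e : E} (he : ‖e‖ = 1) (f : ℝ → ℝ) (hf : Measurable f) :
    ∫ x, f ⟪e, x⟫ ∂stdGaussian E = ∫ s, f s ∂g1 := by
  have hm : Measurable (fun x : E => ⟪e, x⟫) := by fun_prop
  rw [← map_inner_unit he, integral_map hm.aemeasurable hf.aestronglyMeasurable]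

lemma split_abs : ∫ s, |s| ∂g1 = 2 / Real.sqrt (2 * Real.pi) := by
  have h1 : ∀ s : ℝ, |s| = 2 * max (s - 0) 0 - s := by
    intro s
    rcases le_total 0 s with h | h
    · rw [abs_of_nonneg h, sub_zero, max_eq_left h]; ring
    · rw [abs_of_nonpos h, sub_zero, max_eq_right h]; ring
  simp_rw [h1]
  have hi : Integrable (fun s : ℝ => s) g1 := IsGaussian.integrable_id
  rw [integral_sub ((integrable_posPart 0).const_mul 2) hi, integral_const_mul, g1_posPart, G_zero,
    integral_id_gaussianReal]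
  ring

lemma integral_abs_inner_gauss (w : E) :
    ∫ x, |⟪w, x⟫| ∂stdGaussian E = 2 * ‖w‖ / Real.sqrt (2 * Real.pi) := by
  by_cases hw : w = 0
  · simp [hw]
  obtain ⟨e, he, hx⟩ := split_unit hw
  simp_rw [hx, abs_mul, abs_norm]
  rw [integral_const_mul, split_comp he (fun s => |s|) (by fun_prop), split_abs]
  ring

/-- bathtub form of the isoperimetric bound for the first moment -/
lemma moment_le {e : E} (he : ‖e‖ = 1) {A : Set E} (hA : MeasurableSet A) (a : ℝ) :
    ∫ x in A, ⟪e, x⟫ ∂stdGaussian E ≤ G a + a * (stdGaussian E).real A := by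
  have hi : Integrable (fun x => ⟪e, x⟫ - a) (stdGaussian E) :=
    (integrable_inner_gauss e).sub (integrable_const a)
  have hp : Integrable (fun x => max (⟪e, x⟫ - a) 0) (stdGaussian E) := hi.pos_part
  have h1 : ∫ x in A, ⟪e, x⟫ ∂stdGaussian E =
      ∫ x in A, (⟪e, x⟫ - a) ∂stdGaussian E + a * (stdGaussian E).real A := by
    rw [integral_sub (integrable_inner_gauss e).integrableOn (integrable_const a).integrableOn,
      setIntegral_const, smul_eq_mul]
    ring
  have h2 : ∫ x in A, (⟪e, x⟫ - a) ∂stdGaussian E ≤ ∫ x in A, max (⟪e, x⟫ - a) 0 ∂stdGaussian E :=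
    setIntegral_mono hi.integrableOn hp.integrableOn (fun x => le_max_left _ _)
  have h3 : ∫ x in A, max (⟪e, x⟫ - a) 0 ∂stdGaussian E ≤
      ∫ x, max (⟪e, x⟫ - a) 0 ∂stdGaussian E :=
    setIntegral_le_integral hp (Eventually.of_forall fun x => le_max_right _ _)
  have h4 : ∫ x, max (⟪e, x⟫ - a) 0 ∂stdGaussian E = G a := by
    rw [split_comp he (fun s => max (s - a) 0) (by fun_prop), g1_posPart]
  linarith

end Crest.Agent.R215
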